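import Claimed.Agent.R256.Nm.Pred.Doc

/-!
# Row 256, unit NM, sub-block NM-PRED, file 3: THE CURVATURE COMPARISONS IN THE THREE FAMILIES      (helper51; prefix `nm_`)

Input: `SfDoc.Aff` : `cmpA`, `cmpB`, `eqK`, `linP`; `Core` : `hlen`, `base`, `own`, `split`.       (04-canonical-names.tex l.262-276 and l.278-284)
* `nm_cur_eq`  : family EQ (`0 < c2 = q`), display `nmDsEq π`, label of a gate `j < 1` on a completing path; `pm = min (b1 j) 0`.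
   slope (`1 < c2`): `β_1(T_j) - β_j(T_j) = (β_1(T_1) - β_j(T_1)) + (T_1 - T_j)(K_j - K_1)`, `b2 i - i` is nondecreasing.    const (`c2 ≤ 1`): `|β_j(T_1) - β_j(T_j)| ≤ ℓ_j |K_j| ≤ s^(b2 j - t)` (`eqK`).
* `nm_cur_lin` : family LIN (`c2 = 0 < c1`, `q = c1 + J`), display `nmDsLin`; `pm = b1 j`.    `cmpB` : `|β_j| + ℓ_j |K_j| ≤ s^(b2 j - t)`;   `P_j(F) - Pc_j = 2 β_j (X - x_j) - 2 K_j (B_T - b_j)`.
* `nm_cur_str` : family ST (`c2 = 1`, `q < 1`), display `nmDsStr π De`, label of the END POINT gate `D.gt De < 1` (classical).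
* `nm_cur_own` : the own final label (`De = 1`), all three families.
* (ii): `nm_str_K`, `nm_str_res`;   `nm_cur_mid` : strict family, label of a gate before the end point.
-/

set_option autoImplicit false

namespace Claimed.Agent.R256

open Claimed.Agent.R255
open Classical

noncomputable section

/-- the display `q.ds` is the one of the family of `π`, end point `De` -/
def NmQ.FamE (q : NmQ) (π : SfPar) (De : ℝ) : Prop :=
  (0 < π.c2 ∧ π.q = π.c2 ∧ q.ds = nmDsEq π ∧ De = 1) ∨ (π.c2 = 0 ∧ 0 < π.c1 ∧ π.q = π.c1 + π.J ∧ q.ds = nmDsLin ∧ De = 1) ∨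
    (π.c2 = 1 ∧ π.q < 1 ∧ q.ds = nmDsStr π De)

variable {D : SfDoc} {π : SfPar} {C0 τ κ0 t e : ℝ} {q : NmQ}

theorem nm_kbar_eq (D : SfDoc) (π : SfPar) {ds : NmDs} (h : ds.glob = false) (ω : D.Row 1) :
    D.kbar π ds ω = 0 ∧ (D.raw π ds ω).kb = 0 := by
  constructor
  · unfold SfDoc.kbar
    simp [h]
  · unfold SfDoc.raw
    simp [h]

theorem nm_res_zero (Q : SfTest) (z : SfRay) : Q.res 0 = Q ∧ z.res 0 = z := by
  constructor
  · cases Q
    simp [SfTest.res]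
  · cases z
    simp [SfRay.res]

/-- powers of a scale `s < 1` decrease -/
theorem nm_cur_pow {s a b : ℝ} (hs : 0 < s ∧ s < 1) (h : b ≤ a) : s ^ a ≤ s ^ b :=
  Real.rpow_le_rpow_of_exponent_ge hs.1 hs.2.le h

/-- the negligible term of the geometry is below the negligible term of the derivative -/
theorem nm_cur_nu (D : SfDoc) (π : SfPar) (C0 t : ℝ) (hs : 0 < D.s ∧ D.s < 1) : D.nu0 C0 t ≤ D.nu π C0 t := by
  unfold SfDoc.nu0 SfDoc.nu
  have h1 : D.s ^ (1 / t - 2 * C0) ≤ D.s ^ (1 / t - 2 * C0 - |π.q| - 3) := nm_cur_pow hs (by have := abs_nonneg π.q; linarith)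
  have h2 : 0 < D.s ^ (1 / t - 2 * C0 - |π.q| - 3) := Real.rpow_pos_of_pos hs.1 _
  linarith

theorem nm_cur_eq (hD : D.Ok π C0 τ κ0 t) (ht : 0 < t) (ht1 : t ≤ 1) (he : 0 ≤ e) (hc : 0 < π.c2) (hqc : π.q = π.c2) (hds : q.ds = nmDsEq π)
    {j : ℝ} (hj : j ∈ D.G) (hj1 : j < 1) {ρ : D.Row j} {ω : D.Row 1} (h : D.Conn j 1 ρ ω) :
    D.Cur π q t e (π.xpL j (min (π.b1 j) 0)) (D.nu π C0 t) (D.lab j ρ) ω := by
  have hs := hD.core.hs
  have h1G := hD.core.gate.1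
  have hglob : q.ds.glob = false := by rw [hds]; rfl
  have hDe : q.ds.De = 1 := by rw [hds]; rfl
  have hkb := (nm_kbar_eq D π hglob ω).1
  have hres : (D.lab j ρ).res (D.kbar π q.ds ω) = D.lab j ρ := by rw [hkb]; exact (nm_res_zero _ (D.ray 1 ω)).1
  have hz : (D.raw π q.ds ω).z = D.ray 1 ω := by rw [nm_raw_z, hkb]; exact (nm_res_zero (D.lab j ρ) _).2
  have hbe : (D.raw π q.ds ω).be = (D.lab 1 ω).be := by
    rw [nm_raw_be, hkb, hDe, nm_labAt_one]; rw [(nm_res_zero _ (D.ray 1 ω)).1]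
  have hK : (D.raw π q.ds ω).K = (D.lab 1 ω).K := by
    rw [nm_raw_K, hkb, hDe, nm_labAt_one]; rw [(nm_res_zero _ (D.ray 1 ω)).1]
  have hTe : (D.raw π q.ds ω).Te = D.T 1 ω := by
    show (D.labAt q.ds.De ω).T = D.T 1 ω
    rw [hDe, nm_labAt_one]; rfl
  obtain ⟨cA1, cA2, cA3⟩ := hD.aff.cmpA j hj 1 h1G hj1 ρ ω h
  obtain ⟨bT0, bT1, -, -⟩ := hD.core.base j hj 1 h1G hj1 ρ ω h
  obtain ⟨hl0, hl1⟩ := hD.core.hlen.2 j hj
  have hlen1 : 0 < D.len 1 := by rw [hD.core.hlen.1]; exact hs.1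
  have hb21 : π.b2 1 = 0 := by unfold SfPar.b2; ring
  have hb11 : π.b1 1 = 0 := by unfold SfPar.b1; ring
  have hb2j : π.b2 j ≤ 0 := by
    unfold SfPar.b2
    rw [hqc]
    exact mul_nonpos_of_nonneg_of_nonpos hc.le (by linarith)
  rw [hb21, min_eq_left hb2j] at cA1
  rw [hb11] at cA3
  have hdT : |D.T 1 ω - D.T j ρ| ≤ D.s ^ (j - t) := by
    rw [abs_of_nonneg (by linarith)]
    linarith
  have hTj : (D.lab j ρ).T = D.T j ρ := rfl
  have hp : ∀ x : ℝ, 0 < D.s ^ x := fun x => Real.rpow_pos_of_pos hs.1 x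
  have hbeAt : (D.lab j ρ).beAt (D.T 1 ω) = (D.lab j ρ).be + (D.T 1 ω - D.T j ρ) * (D.lab j ρ).K := rfl
  rw [hbeAt] at cA1
  have hcutne : q.ds.cut ≠ NmCut.none := by
    rw [hds]
    unfold nmDsEq
    simp only
    split_ifs <;> simp
  have hP : |(D.raw π q.ds ω).P - ((D.lab j ρ).res (D.kbar π q.ds ω)).Pd (D.raw π q.ds ω).z|
      ≤ 6 * D.s ^ ((π.xpL j (min (π.b1 j) 0)).pm - 4 * t - e) + D.nu π C0 t := by
    rw [nm_raw_P D π q.ds hcutne ω, hres, hz, hkb, hDe, nm_labAt_one, (nm_res_zero _ (D.ray 1 ω)).1]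
    have h1 := nm_conn_Pd hD ht hj hj1 h
    have h2 := nm_cur_nu D π C0 t hs
    have e1 : (D.lab 1 ω).Pd (D.ray 1 ω) - (D.lab j ρ).Pd (D.ray 1 ω)
        = -((D.lab j ρ).Pd (D.ray j ρ) - (D.lab 1 ω).Pd (D.ray 1 ω)) + -((D.lab j ρ).Pd (D.ray 1 ω) - (D.lab j ρ).Pd (D.ray j ρ)) := by ring
    rw [e1]
    have h3 := abs_add_le (-((D.lab j ρ).Pd (D.ray j ρ) - (D.lab 1 ω).Pd (D.ray 1 ω))) (-((D.lab j ρ).Pd (D.ray 1 ω) - (D.lab j ρ).Pd (D.ray j ρ)))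
    rw [abs_neg, abs_neg] at h3
    show _ ≤ 6 * D.s ^ (min (π.b1 j) 0 - 4 * t - e) + D.nu π C0 t
    have h4 : D.s ^ (min (π.b1 j) 0 - t) ≤ D.s ^ (min (π.b1 j) 0 - 4 * t - e) := nm_cur_pow hs (by linarith)
    have := hp (min (π.b1 j) 0 - 4 * t - e)
    linarith
  by_cases hc1 : 1 < π.c2
  · -- slope
    have hcut : q.ds.cut = NmCut.slope := by rw [hds]; unfold nmDsEq; simp [hc1]
    have hmin : min (π.b2 j - j) (π.b2 1 - 1) = π.b2 j - j := by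
      apply min_eq_left
      rw [hb21]
      unfold SfPar.b2
      rw [hqc]
      nlinarith
    rw [hmin] at cA2
    refine ⟨?_, ?_, ?_⟩
    · rw [hres]
      have e1 : (D.raw π q.ds ω).RrawAt q (D.lab j ρ).T = (D.lab 1 ω).be + (D.T j ρ - D.T 1 ω) * (D.lab 1 ω).K := by
        unfold NmRaw.RrawAt
        rw [hcut]
        simp only
        rw [hbe, hK, hTe, hTj]
      rw [e1]
      have e2 : (D.lab 1 ω).be + (D.T j ρ - D.T 1 ω) * (D.lab 1 ω).K - (D.lab j ρ).be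
          = -((D.lab j ρ).be + (D.T 1 ω - D.T j ρ) * (D.lab j ρ).K - (D.lab 1 ω).be)
            + (D.T 1 ω - D.T j ρ) * ((D.lab j ρ).K - (D.lab 1 ω).K) := by ring
      rw [e2]
      have h3 := nm_abs_mul_le hdT cA2
      rw [← Real.rpow_add hs.1] at h3
      have h4 : D.s ^ (j - t + (π.b2 j - j - t)) ≤ D.s ^ (π.b2 j - 2 * t - e) := nm_cur_pow hs (by linarith)
      have h5 : D.s ^ (π.b2 j - t) ≤ D.s ^ (π.b2 j - 2 * t - e) := nm_cur_pow hs (by linarith)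
      have h6 := abs_add_le (-((D.lab j ρ).be + (D.T 1 ω - D.T j ρ) * (D.lab j ρ).K - (D.lab 1 ω).be))
        ((D.T 1 ω - D.T j ρ) * ((D.lab j ρ).K - (D.lab 1 ω).K))
      rw [abs_neg] at h6
      show _ ≤ 3 * D.s ^ (π.b2 j - 2 * t - e)
      have := hp (π.b2 j - 2 * t - e)
      linarith
    · rw [hres]
      have e1 : (D.raw π q.ds ω).kraw q = (D.lab 1 ω).K := by
        unfold NmRaw.kraw
        rw [hcut]
        simp only
        rw [hK]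
      rw [e1, abs_sub_comm]
      show _ ≤ 2 * D.s ^ (π.b2 j - j - 2 * t - e)
      have h4 : D.s ^ (π.b2 j - j - t) ≤ D.s ^ (π.b2 j - j - 2 * t - e) := nm_cur_pow hs (by linarith)
      have := hp (π.b2 j - j - 2 * t - e)
      linarith
    · exact hP
  · -- const
    have hc1' : π.c2 ≤ 1 := not_lt.1 hc1
    have hcut : q.ds.cut = NmCut.const := by rw [hds]; unfold nmDsEq; simp [hc1]
    have hKj := hD.aff.eqK hc hc1' hqc j hj ρ
    have hlj : 0 < D.len j := lt_of_lt_of_le (hp _) hl0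
    refine ⟨?_, ?_, hP⟩
    · rw [hres]
      have e1 : (D.raw π q.ds ω).RrawAt q (D.lab j ρ).T = (D.lab 1 ω).be := by
        unfold NmRaw.RrawAt
        rw [hcut]
        simp only
        rw [hbe]
      rw [e1]
      have e2 : (D.lab 1 ω).be - (D.lab j ρ).be
          = -((D.lab j ρ).be + (D.T 1 ω - D.T j ρ) * (D.lab j ρ).K - (D.lab 1 ω).be) + (D.T 1 ω - D.T j ρ) * (D.lab j ρ).K := by ring
      rw [e2]
      have hdT' : |D.T 1 ω - D.T j ρ| ≤ D.len j := by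
        rw [abs_of_nonneg (by linarith)]
        linarith
      have h3 : |(D.T 1 ω - D.T j ρ) * (D.lab j ρ).K| ≤ D.s ^ (π.b2 j - t) := by
        rw [abs_mul]
        exact (mul_le_mul_of_nonneg_right hdT' (abs_nonneg _)).trans hKj
      have h5 : D.s ^ (π.b2 j - t) ≤ D.s ^ (π.b2 j - 2 * t - e) := nm_cur_pow hs (by linarith)
      have h6 := abs_add_le (-((D.lab j ρ).be + (D.T 1 ω - D.T j ρ) * (D.lab j ρ).K - (D.lab 1 ω).be))
        ((D.T 1 ω - D.T j ρ) * (D.lab j ρ).K)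
      rw [abs_neg] at h6
      show _ ≤ 3 * D.s ^ (π.b2 j - 2 * t - e)
      have := hp (π.b2 j - 2 * t - e)
      linarith
    · rw [hres]
      have e1 : (D.raw π q.ds ω).kraw q = 0 := by
        unfold NmRaw.kraw
        rw [hcut]
      rw [e1, zero_sub, abs_neg]
      show _ ≤ 2 * D.s ^ (π.b2 j - j - 2 * t - e)
      have h3 : D.s ^ (j + t) * |(D.lab j ρ).K| ≤ D.s ^ (π.b2 j - t) :=
        (mul_le_mul_of_nonneg_right hl0 (abs_nonneg _)).trans hKj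
      have h4 : |(D.lab j ρ).K| ≤ D.s ^ (π.b2 j - j - 2 * t) := by
        have e3 : D.s ^ (π.b2 j - t) = D.s ^ (j + t) * D.s ^ (π.b2 j - j - 2 * t) := by
          rw [← Real.rpow_add hs.1]
          congr 1
          ring
        rw [e3] at h3
        exact le_of_mul_le_mul_left h3 (hp _)
      have h5 : D.s ^ (π.b2 j - j - 2 * t) ≤ D.s ^ (π.b2 j - j - 2 * t - e) := nm_cur_pow hs (by linarith)
      have := hp (π.b2 j - j - 2 * t - e)
      linarith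

/-- the negligible term of the derivative is nonnegative -/
theorem nm_nu_nonneg (D : SfDoc) (π : SfPar) (hs : 0 < D.s) (C0 t : ℝ) : 0 ≤ D.nu π C0 t := by
  unfold SfDoc.nu
  have := Real.rpow_pos_of_pos hs (1 / t - 2 * C0 - |π.q| - 3)
  positivity

/-- a multiple `c s^(-|q|-3)`, `14 c ≤ 100`, of the negligible term of the geometry is below the negligible term of the derivative -/
theorem nm_nu0_mul (D : SfDoc) (π : SfPar) (hs : 0 < D.s) (C0 t : ℝ) {c A : ℝ} (hc : 14 * c ≤ 100) (hA : A ≤ c * D.s ^ (-|π.q| - 3)) :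
    A * D.nu0 C0 t ≤ D.nu π C0 t := by
  unfold SfDoc.nu0 SfDoc.nu
  have h1 : 0 < D.s ^ (1 / t - 2 * C0) := Real.rpow_pos_of_pos hs _
  have h2 : D.s ^ (-|π.q| - 3) * D.s ^ (1 / t - 2 * C0) = D.s ^ (1 / t - 2 * C0 - |π.q| - 3) := by
    rw [← Real.rpow_add hs]
    congr 1
    ring
  have h3 : 0 < D.s ^ (1 / t - 2 * C0 - |π.q| - 3) := Real.rpow_pos_of_pos hs _
  calc A * (14 * D.s ^ (1 / t - 2 * C0)) ≤ (c * D.s ^ (-|π.q| - 3)) * (14 * D.s ^ (1 / t - 2 * C0)) := by gcongr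
    _ = 14 * c * (D.s ^ (-|π.q| - 3) * D.s ^ (1 / t - 2 * C0)) := by ring
    _ = 14 * c * D.s ^ (1 / t - 2 * C0 - |π.q| - 3) := by rw [h2]
    _ ≤ 100 * D.s ^ (1 / t - 2 * C0 - |π.q| - 3) := by gcongr

/-- `b2` on `[0,1]` -/
theorem nm_b2_ge (π : SfPar) {j : ℝ} (hj : 0 ≤ j ∧ j ≤ 1) : -|π.q| ≤ π.b2 j := by
  unfold SfPar.b2
  have h1 : |π.q * (j - 1)| ≤ |π.q| := by
    rw [abs_mul]
    have : |j - 1| ≤ 1 := by
      rw [abs_le]
      constructor <;> linarith [hj.1, hj.2]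
    nlinarith [abs_nonneg π.q]
  linarith [(abs_le.1 h1).1]

/-- division of a bound by the interval length -/
theorem nm_K_of_len {D : SfDoc} {π : SfPar} {C0 t : ℝ} (hD : D.Core π C0 t) {j : ℝ} (hj : j ∈ D.G) {K x : ℝ} (h : D.len j * |K| ≤ D.s ^ x) :
    |K| ≤ D.s ^ (x - j - t) := by
  have hs := hD.hs
  have h1 := (hD.hlen.2 j hj).1
  have h0 : 0 < D.s ^ (j + t) := Real.rpow_pos_of_pos hs.1 _
  have h2 : D.s ^ (j + t) * |K| ≤ D.s ^ x := le_trans (by gcongr) h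
  have h3 : D.s ^ x = D.s ^ (j + t) * D.s ^ (x - j - t) := by
    rw [← Real.rpow_add hs.1]
    congr 1
    ring
  rw [h3] at h2
  exact le_of_mul_le_mul_left h2 h0

/-- the derivative of a test on a ray and at its centre -/
theorem nm_Pd_Pc (Q : SfTest) (z : SfRay) : Q.Pd z - Q.Pc = 2 * Q.be * (z.X - Q.x) - 2 * Q.K * (z.Bt Q.T - Q.b) := by
  unfold SfTest.Pd SfTest.Pc
  ring

theorem nm_cur_lin (hD : D.Ok π C0 τ κ0 t) (hπ : π.Valid) (ht : 0 < t) (ht1 : t ≤ 1) (he : 0 ≤ e) (hc : π.c2 = 0) (hc1 : 0 < π.c1)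
    (hqc : π.q = π.c1 + π.J) (hds : q.ds = nmDsLin) {j : ℝ} (hj : j ∈ D.G) (hj1 : j < 1) {ρ : D.Row j} {ω : D.Row 1} (h : D.Conn j 1 ρ ω) :
    D.Cur π q t e (π.xpL j (π.b1 j)) (D.nu π C0 t) (D.lab j ρ) ω := by
  obtain ⟨ds, tp, g⟩ := q
  simp only at hds
  subst hds
  have hc' := hD.core
  have hs := hc'.hs
  have hs0 : 0 < D.s := hs.1
  have hj01 := hc'.gate.2 j hj
  have hsp : ∀ x : ℝ, 0 < D.s ^ x := fun x => Real.rpow_pos_of_pos hs.1 x
  have hkb : D.kbar π nmDsLin ω = 0 := (nm_kbar_eq D π rfl ω).1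
  have hq0 : 0 ≤ π.q := by rw [hqc]; linarith [hπ.J0]
  have hb2 : π.b2 j ≤ 0 := by
    unfold SfPar.b2
    nlinarith
  have hB := hD.aff.cmpB j hj ρ
  have hmin : min (-π.c2) (min (π.b2 j) 0) = π.b2 j := by
    rw [hc, neg_zero, min_eq_left hb2, min_eq_right hb2]
  rw [hmin] at hB
  have hlen := nm_len_pos hc' hj
  have hbe : |(D.lab j ρ).be| ≤ D.s ^ (π.b2 j - t) := by
    have : 0 ≤ D.len j * |(D.lab j ρ).K| := by positivity
    linarith
  have hlK : D.len j * |(D.lab j ρ).K| ≤ D.s ^ (π.b2 j - t) := by linarith [abs_nonneg (D.lab j ρ).be]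
  have hK : |(D.lab j ρ).K| ≤ D.s ^ (π.b2 j - t - j - t) := nm_K_of_len hc' hj hlK
  refine ⟨?_, ?_, ?_⟩
  · show |(0 : ℝ) - ((D.lab j ρ).res (D.kbar π nmDsLin ω)).be| ≤ 3 * D.s ^ (π.b2 j - 2 * t - e)
    rw [hkb, (nm_res_zero (D.lab j ρ) (D.ray 1 ω)).1, zero_sub, abs_neg]
    have := nm_pw hs (show π.b2 j - 2 * t - e ≤ π.b2 j - t by linarith)
    linarith [hsp (π.b2 j - 2 * t - e)]
  · show |(0 : ℝ) - ((D.lab j ρ).res (D.kbar π nmDsLin ω)).K| ≤ 2 * D.s ^ (π.b2 j - j - 2 * t - e)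
    rw [hkb, (nm_res_zero (D.lab j ρ) (D.ray 1 ω)).1, zero_sub, abs_neg]
    have := nm_pw hs (show π.b2 j - j - 2 * t - e ≤ π.b2 j - t - j - t by linarith)
    linarith [hsp (π.b2 j - j - 2 * t - e)]
  · show |((D.labAt 1 ω).Pc + 2 * D.kbar π nmDsLin ω * (D.ray 1 ω).B) - ((D.lab j ρ).res (D.kbar π nmDsLin ω)).Pd ((D.ray 1 ω).res (D.kbar π nmDsLin ω))|
      ≤ 6 * D.s ^ (π.b1 j - 4 * t - e) + D.nu π C0 t
    rw [hkb, (nm_res_zero (D.lab j ρ) (D.ray 1 ω)).1, (nm_res_zero (D.lab j ρ) (D.ray 1 ω)).2, nm_labAt_one]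
    have hgeo := nm_conn_geo hD hπ ht hj hj1 h
    have hlin := (hD.aff.linP hc).1 j hj 1 hc'.gate.1 hj1 ρ ω h
    have hr := (hD.aff.hr j hj).2
    have hr0 := (hc'.hw.2.2 j hj).1
    have hν0 : 0 ≤ D.nu0 C0 t := by
      unfold SfDoc.nu0
      have := hsp (1 / t - 2 * C0)
      positivity
    have hb1 : π.b2 j - t + (π.u j - t) = π.b1 j - 2 * t := by
      unfold SfPar.b2 SfPar.u SfPar.b1
      ring
    have hprod : D.s ^ (π.b2 j - t) * D.s ^ (π.u j - t) = D.s ^ (π.b1 j - 2 * t) := by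
      rw [← Real.rpow_add hs.1, hb1]
    have e1 : (D.lab 1 ω).Pc + 2 * 0 * (D.ray 1 ω).B - (D.lab j ρ).Pd (D.ray 1 ω)
        = -((D.lab j ρ).Pc - (D.lab 1 ω).Pc) - (2 * (D.lab j ρ).be * ((D.ray 1 ω).X - (D.lab j ρ).x) - 2 * (D.lab j ρ).K * ((D.ray 1 ω).Bt (D.lab j ρ).T - (D.lab j ρ).b)) := by
      rw [← nm_Pd_Pc]
      ring
    rw [e1]
    have t1 : |2 * (D.lab j ρ).be * ((D.ray 1 ω).X - (D.lab j ρ).x)| ≤ 2 * D.s ^ (π.b1 j - 2 * t) + 2 * |(D.lab j ρ).be| * D.nu0 C0 t := by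
      rw [abs_mul, abs_mul, abs_two]
      calc 2 * |(D.lab j ρ).be| * |(D.ray 1 ω).X - (D.lab j ρ).x| ≤ 2 * |(D.lab j ρ).be| * (D.r j + D.nu0 C0 t) := by
            gcongr
            exact hgeo.X
        _ = 2 * (|(D.lab j ρ).be| * D.r j) + 2 * |(D.lab j ρ).be| * D.nu0 C0 t := by ring
        _ ≤ 2 * (D.s ^ (π.b2 j - t) * D.s ^ (π.u j - t)) + 2 * |(D.lab j ρ).be| * D.nu0 C0 t := by gcongr
        _ = _ := by rw [hprod]
    have t2 : |2 * (D.lab j ρ).K * ((D.ray 1 ω).Bt (D.lab j ρ).T - (D.lab j ρ).b)| ≤ 2 * D.s ^ (π.b1 j - 2 * t) + 2 * |(D.lab j ρ).K| * D.nu0 C0 t := by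
      rw [abs_mul, abs_mul, abs_two]
      calc 2 * |(D.lab j ρ).K| * |(D.ray 1 ω).Bt (D.lab j ρ).T - (D.lab j ρ).b| ≤ 2 * |(D.lab j ρ).K| * (D.len j * D.r j + D.nu0 C0 t) := by
            gcongr
            exact hgeo.B
        _ = 2 * ((D.len j * |(D.lab j ρ).K|) * D.r j) + 2 * |(D.lab j ρ).K| * D.nu0 C0 t := by ring
        _ ≤ 2 * (D.s ^ (π.b2 j - t) * D.s ^ (π.u j - t)) + 2 * |(D.lab j ρ).K| * D.nu0 C0 t := by gcongr
        _ = _ := by rw [hprod]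
    have hb2g := nm_b2_ge π hj01
    have t3 : (2 * |(D.lab j ρ).be| + 2 * |(D.lab j ρ).K|) * D.nu0 C0 t ≤ D.nu π C0 t := by
      refine nm_nu0_mul D π hs.1 C0 t (c := 4) (by norm_num) ?_
      have a1 := hbe.trans (nm_pw hs (show -|π.q| - 3 ≤ π.b2 j - t by linarith))
      have a2 := hK.trans (nm_pw hs (show -|π.q| - 3 ≤ π.b2 j - t - j - t by linarith [hj01.2]))
      linarith
    have t4 := nm_pw hs (show π.b1 j - 4 * t - e ≤ π.b1 j - t by linarith)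
    have t5 := nm_pw hs (show π.b1 j - 4 * t - e ≤ π.b1 j - 2 * t by linarith)
    have t6 := abs_sub (-((D.lab j ρ).Pc - (D.lab 1 ω).Pc)) (2 * (D.lab j ρ).be * ((D.ray 1 ω).X - (D.lab j ρ).x) - 2 * (D.lab j ρ).K * ((D.ray 1 ω).Bt (D.lab j ρ).T - (D.lab j ρ).b))
    have t7 := abs_sub (2 * (D.lab j ρ).be * ((D.ray 1 ω).X - (D.lab j ρ).x)) (2 * (D.lab j ρ).K * ((D.ray 1 ω).Bt (D.lab j ρ).T - (D.lab j ρ).b))
    rw [abs_neg] at t6
    have t3' : 2 * |(D.lab j ρ).be| * D.nu0 C0 t + 2 * |(D.lab j ρ).K| * D.nu0 C0 t ≤ D.nu π C0 t := by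
      have e3 : (2 * |(D.lab j ρ).be| + 2 * |(D.lab j ρ).K|) * D.nu0 C0 t = 2 * |(D.lab j ρ).be| * D.nu0 C0 t + 2 * |(D.lab j ρ).K| * D.nu0 C0 t := by ring
      linarith
    linarith [hsp (π.b1 j - 4 * t - e)]

/-- the negligible term of the geometry is nonnegative -/
theorem nm_nu0_nn (D : SfDoc) (hs : 0 < D.s) (C0 t : ℝ) : 0 ≤ D.nu0 C0 t := by
  unfold SfDoc.nu0
  have := Real.rpow_pos_of_pos hs (1 / t - 2 * C0)
  positivity

/-- the global bin of a strict display -/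
theorem nm_kbar_str (D : SfDoc) (π : SfPar) (De : ℝ) (ω : D.Row 1) :
    D.kbar π (nmDsStr π De) ω = nmRep D.s (π.b2 De - De) (D.labAt De ω).K := by
  unfold SfDoc.kbar
  exact if_pos rfl

/-- what the slack pays -/
theorem nm_sl_le (π : SfPar) {x y e : ℝ} (h : (|π.q| + 1) * |x - y| ≤ e) :
    |(π.b2 x - x) - (π.b2 y - y)| ≤ e ∧ |π.b2 x - π.b2 y| ≤ e ∧ |x - y| ≤ e ∧ 0 ≤ e := by
  have e1 : (π.b2 x - x) - (π.b2 y - y) = (π.q - 1) * (x - y) := by unfold SfPar.b2; ring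
  have e2 : π.b2 x - π.b2 y = π.q * (x - y) := by unfold SfPar.b2; ring
  have h0 := abs_nonneg (x - y)
  have hq := abs_nonneg π.q
  refine ⟨?_, ?_, ?_, ?_⟩
  · rw [e1, abs_mul]
    have h1 : |π.q - 1| ≤ |π.q| + 1 := by
      have := abs_sub π.q 1
      simpa using this
    nlinarith
  · rw [e2, abs_mul]
    nlinarith
  · nlinarith
  · nlinarith

/-- division of a bound by the scale -/
theorem nm_div_s {s K x : ℝ} (hs : 0 < s) (h : s * |K| ≤ s ^ x) : |K| ≤ s ^ (x - 1) := by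
  have e : s ^ x = s * s ^ (x - 1) := by
    rw [Real.rpow_sub_one hs.ne']
    field_simp
  rw [e] at h
  exact le_of_mul_le_mul_left h hs

/-- the end point `De ≠ 1` is approximated by the gate `D.gt De < 1`; the slack `e` pays for `|D.gt De - De|` -/
theorem nm_cur_str (hD : D.Ok π C0 τ κ0 t) (ht : 0 < t) (hcl : π.hyb = false) {De : ℝ} (hds : q.ds = nmDsStr π De)
    (hDe : De ≠ 1) (hj1 : D.gt De < 1) (hsl : (|π.q| + 1) * |D.gt De - De| ≤ e) {ρ : D.Row (D.gt De)} {ω : D.Row 1} (h : D.Conn (D.gt De) 1 ρ ω) :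
    D.Cur π q t e (π.xpL (D.gt De) (π.b1 (D.gt De))) (D.nu π C0 t) (D.lab (D.gt De) ρ) ω := by
  obtain ⟨ds, tp, g⟩ := q
  simp only at hds
  subst hds
  have hc' := hD.core
  have hs := hc'.hs
  have hs0 : 0 < D.s := hs.1
  have hsp : ∀ x : ℝ, 0 < D.s ^ x := fun x => Real.rpow_pos_of_pos hs.1 x
  have hν := nm_nu_nonneg D π hs0 C0 t
  have hlab := nm_labAt_eq hc' hcl hDe hj1 h
  obtain ⟨s1, -, -, s4⟩ := nm_sl_le π hsl
  refine ⟨?_, ?_, ?_⟩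
  · show |((D.labAt De ω).be - D.kbar π (nmDsStr π De) ω * (D.labAt De ω).T)
        - ((D.lab (D.gt De) ρ).be - D.kbar π (nmDsStr π De) ω * (D.lab (D.gt De) ρ).T)| ≤ 3 * D.s ^ (π.b2 (D.gt De) - 2 * t - e)
    rw [hlab, sub_self, abs_zero]
    have := hsp (π.b2 (D.gt De) - 2 * t - e)
    positivity
  · show |(0 : ℝ) - ((D.lab (D.gt De) ρ).K - D.kbar π (nmDsStr π De) ω)| ≤ 2 * D.s ^ (π.b2 (D.gt De) - D.gt De - 2 * t - e)
    rw [nm_kbar_str, hlab, zero_sub, abs_neg]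
    have h1 := nm_rep_abs hs.1 hs.2 (π.b2 De - De) (D.lab (D.gt De) ρ).K
    have h2 := nm_pw hs (show π.b2 (D.gt De) - D.gt De - 2 * t - e ≤ π.b2 De - De by linarith [(abs_le.1 s1).2])
    linarith [hsp (π.b2 (D.gt De) - D.gt De - 2 * t - e)]
  · show |((D.labAt De ω).Pd (D.ray 1 ω) + 2 * D.kbar π (nmDsStr π De) ω * (D.ray 1 ω).B)
        - ((D.lab (D.gt De) ρ).res (D.kbar π (nmDsStr π De) ω)).Pd ((D.ray 1 ω).res (D.kbar π (nmDsStr π De) ω))|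
      ≤ 6 * D.s ^ (π.b1 (D.gt De) - 4 * t - e) + D.nu π C0 t
    rw [nm_res_Pd, hlab, sub_self, abs_zero]
    have := hsp (π.b1 (D.gt De) - 4 * t - e)
    positivity

theorem nm_cur_own (hD : D.Ok π C0 τ κ0 t) (hπ : π.Valid) (ht : 0 < t) (he : 0 ≤ e) (hf : q.FamE π 1) (ω : D.Row 1) :
    D.Cur π q t e (π.xpL 1 0) (D.nu π C0 t) (D.lab 1 ω) ω := by
  have hc' := hD.core
  have hs := hc'.hs
  have hs0 : 0 < D.s := hs.1
  have hsp : ∀ x : ℝ, 0 < D.s ^ x := fun x => Real.rpow_pos_of_pos hs.1 x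
  have h1G := hc'.gate.1
  have hb21 : π.b2 1 = 0 := by unfold SfPar.b2; ring
  have hν := nm_nu_nonneg D π hs0 C0 t
  have hlen1 := hc'.hlen.1
  rcases hf with ⟨hc, hqc, hds, -⟩ | ⟨hc, hc1, hqc, hds, -⟩ | ⟨hc, hq1, hds⟩
  · -- EQ
    have hglob : q.ds.glob = false := by rw [hds]; rfl
    have hDe : q.ds.De = 1 := by rw [hds]; rfl
    have hkb := (nm_kbar_eq D π hglob ω).1
    have hres : (D.lab 1 ω).res (D.kbar π q.ds ω) = D.lab 1 ω := by rw [hkb]; exact (nm_res_zero _ (D.ray 1 ω)).1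
    have hbe : (D.raw π q.ds ω).be = (D.lab 1 ω).be := by
      rw [nm_raw_be, hDe, nm_labAt_one, hres]
    have hK : (D.raw π q.ds ω).K = (D.lab 1 ω).K := by
      rw [nm_raw_K, hDe, nm_labAt_one, hres]
    have hTe : (D.raw π q.ds ω).Te = (D.lab 1 ω).T := by
      show (D.labAt q.ds.De ω).T = _
      rw [hDe, nm_labAt_one]
    have hcutne : q.ds.cut ≠ NmCut.none := by
      rw [hds]
      unfold nmDsEq
      simp only
      split_ifs <;> simp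
    have hP : |(D.raw π q.ds ω).P - ((D.lab 1 ω).res (D.kbar π q.ds ω)).Pd (D.raw π q.ds ω).z|
        ≤ 6 * D.s ^ ((π.xpL 1 0).pm - 4 * t - e) + D.nu π C0 t := by
      rw [nm_raw_P D π q.ds hcutne ω, hDe, nm_labAt_one, sub_self, abs_zero]
      have := hsp ((π.xpL 1 0).pm - 4 * t - e)
      positivity
    by_cases h1 : 1 < π.c2
    · have hcut : q.ds.cut = NmCut.slope := by rw [hds]; unfold nmDsEq; simp [h1]
      refine ⟨?_, ?_, hP⟩
      · have e1 : (D.raw π q.ds ω).RrawAt q (D.lab 1 ω).T = (D.lab 1 ω).be := by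
          unfold NmRaw.RrawAt
          rw [hcut]
          simp only
          rw [hbe, hK, hTe]
          ring
        rw [e1, hres, sub_self, abs_zero]
        have := hsp ((π.xpL 1 0).bR - 2 * t - e)
        positivity
      · have e1 : (D.raw π q.ds ω).kraw q = (D.lab 1 ω).K := by
          unfold NmRaw.kraw
          rw [hcut]
          simp only
          rw [hK]
        rw [e1, hres, sub_self, abs_zero]
        have := hsp ((π.xpL 1 0).bK - 2 * t - e)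
        positivity
    · have hcut : q.ds.cut = NmCut.const := by rw [hds]; unfold nmDsEq; simp [h1]
      refine ⟨?_, ?_, hP⟩
      · have e1 : (D.raw π q.ds ω).RrawAt q (D.lab 1 ω).T = (D.lab 1 ω).be := by
          unfold NmRaw.RrawAt
          rw [hcut]
          simp only
          rw [hbe]
        rw [e1, hres, sub_self, abs_zero]
        have := hsp ((π.xpL 1 0).bR - 2 * t - e)
        positivity
      · have e1 : (D.raw π q.ds ω).kraw q = 0 := by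
          unfold NmRaw.kraw
          rw [hcut]
        rw [e1, hres, zero_sub, abs_neg]
        have h2 := hD.aff.eqK hc (not_lt.1 h1) hqc 1 h1G ω
        rw [hlen1] at h2
        have h3 := nm_div_s hs0 h2
        show _ ≤ 2 * D.s ^ (π.b2 1 - 1 - 2 * t - e)
        have h4 := nm_pw hs (show π.b2 1 - 1 - 2 * t - e ≤ π.b2 1 - t - 1 by linarith)
        linarith [hsp (π.b2 1 - 1 - 2 * t - e)]
  · -- LIN
    obtain ⟨ds, tp, g⟩ := q
    simp only at hds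
    subst hds
    have hkb : D.kbar π nmDsLin ω = 0 := (nm_kbar_eq D π rfl ω).1
    have hB := hD.aff.cmpB 1 h1G ω
    have hmin : min (-π.c2) (min (π.b2 1) 0) = 0 := by rw [hc, hb21]; simp
    rw [hmin, hlen1] at hB
    have hbe : |(D.lab 1 ω).be| ≤ D.s ^ (0 - t) := by
      have : 0 ≤ D.s * |(D.lab 1 ω).K| := by positivity
      linarith
    have hsK : D.s * |(D.lab 1 ω).K| ≤ D.s ^ (0 - t) := by linarith [abs_nonneg (D.lab 1 ω).be]
    have hK := nm_div_s hs0 hsK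
    refine ⟨?_, ?_, ?_⟩
    · show |(0 : ℝ) - ((D.lab 1 ω).res (D.kbar π nmDsLin ω)).be| ≤ 3 * D.s ^ (π.b2 1 - 2 * t - e)
      rw [hkb, (nm_res_zero (D.lab 1 ω) (D.ray 1 ω)).1, zero_sub, abs_neg, hb21]
      have := nm_pw hs (show (0 : ℝ) - 2 * t - e ≤ 0 - t by linarith)
      linarith [hsp (0 - 2 * t - e)]
    · show |(0 : ℝ) - ((D.lab 1 ω).res (D.kbar π nmDsLin ω)).K| ≤ 2 * D.s ^ (π.b2 1 - 1 - 2 * t - e)
      rw [hkb, (nm_res_zero (D.lab 1 ω) (D.ray 1 ω)).1, zero_sub, abs_neg, hb21]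
      have := nm_pw hs (show (0 : ℝ) - 1 - 2 * t - e ≤ 0 - t - 1 by linarith)
      linarith [hsp (0 - 1 - 2 * t - e)]
    · show |((D.labAt 1 ω).Pc + 2 * D.kbar π nmDsLin ω * (D.ray 1 ω).B) - ((D.lab 1 ω).res (D.kbar π nmDsLin ω)).Pd ((D.ray 1 ω).res (D.kbar π nmDsLin ω))|
        ≤ 6 * D.s ^ ((0 : ℝ) - 4 * t - e) + D.nu π C0 t
      rw [hkb, (nm_res_zero (D.lab 1 ω) (D.ray 1 ω)).1, (nm_res_zero (D.lab 1 ω) (D.ray 1 ω)).2, nm_labAt_one]
      obtain ⟨o1, o2, o3, o4, o5⟩ := hc'.own 1 h1G ω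
      obtain ⟨m1, m2, -, -, -⟩ := o3
      rw [o1, hc'.hw.1] at m1 m2
      rw [hlen1, mul_one] at m2
      have e1 : (D.lab 1 ω).Pc + 2 * 0 * (D.ray 1 ω).B - (D.lab 1 ω).Pd (D.ray 1 ω)
          = -(2 * (D.lab 1 ω).be * ((D.ray 1 ω).X - (D.lab 1 ω).x)) + 2 * (D.lab 1 ω).K * ((D.ray 1 ω).Bt (D.lab 1 ω).T - (D.lab 1 ω).b) := by
        have := nm_Pd_Pc (D.lab 1 ω) (D.ray 1 ω)
        linarith
      rw [e1]
      have t1 : |2 * (D.lab 1 ω).be * ((D.ray 1 ω).X - (D.lab 1 ω).x)| ≤ 2 * D.s ^ (0 - t) := by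
        rw [abs_mul, abs_mul, abs_two]
        calc 2 * |(D.lab 1 ω).be| * |(D.ray 1 ω).X - (D.lab 1 ω).x| ≤ 2 * D.s ^ (0 - t) * 1 := by gcongr
          _ = _ := by ring
      have t2 : |2 * (D.lab 1 ω).K * ((D.ray 1 ω).Bt (D.lab 1 ω).T - (D.lab 1 ω).b)| ≤ 2 * D.s ^ (0 - t) := by
        rw [abs_mul, abs_mul, abs_two]
        calc 2 * |(D.lab 1 ω).K| * |(D.ray 1 ω).Bt (D.lab 1 ω).T - (D.lab 1 ω).b| ≤ 2 * |(D.lab 1 ω).K| * D.s := by gcongr
          _ = 2 * (D.s * |(D.lab 1 ω).K|) := by ring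
          _ ≤ _ := by linarith
      have t3 := abs_add_le (-(2 * (D.lab 1 ω).be * ((D.ray 1 ω).X - (D.lab 1 ω).x))) (2 * (D.lab 1 ω).K * ((D.ray 1 ω).Bt (D.lab 1 ω).T - (D.lab 1 ω).b))
      rw [abs_neg] at t3
      have t4 := nm_pw hs (show (0 : ℝ) - 4 * t - e ≤ 0 - t by linarith)
      linarith [hsp (0 - 4 * t - e)]
  · -- ST
    obtain ⟨ds, tp, g⟩ := q
    simp only at hds
    subst hds
    refine ⟨?_, ?_, ?_⟩
    · show |((D.labAt 1 ω).be - D.kbar π (nmDsStr π 1) ω * (D.labAt 1 ω).T)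
          - ((D.lab 1 ω).be - D.kbar π (nmDsStr π 1) ω * (D.lab 1 ω).T)| ≤ 3 * D.s ^ (π.b2 1 - 2 * t - e)
      rw [nm_labAt_one, sub_self, abs_zero]
      have := hsp (π.b2 1 - 2 * t - e)
      positivity
    · show |(0 : ℝ) - ((D.lab 1 ω).K - D.kbar π (nmDsStr π 1) ω)| ≤ 2 * D.s ^ (π.b2 1 - 1 - 2 * t - e)
      rw [nm_kbar_str, nm_labAt_one, zero_sub, abs_neg]
      have h1 := nm_rep_abs hs.1 hs.2 (π.b2 1 - 1) (D.lab 1 ω).K
      have h2 := nm_pw hs (show π.b2 1 - 1 - 2 * t - e ≤ π.b2 1 - 1 by linarith)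
      linarith [hsp (π.b2 1 - 1 - 2 * t - e)]
    · show |((D.labAt 1 ω).Pd (D.ray 1 ω) + 2 * D.kbar π (nmDsStr π 1) ω * (D.ray 1 ω).B)
          - ((D.lab 1 ω).res (D.kbar π (nmDsStr π 1) ω)).Pd ((D.ray 1 ω).res (D.kbar π (nmDsStr π 1) ω))|
        ≤ 6 * D.s ^ ((0 : ℝ) - 4 * t - e) + D.nu π C0 t
      rw [nm_res_Pd, nm_labAt_one, sub_self, abs_zero]
      have := hsp ((0 : ℝ) - 4 * t - e)
      positivity

/-! ## (ii) -/

/-- the end point of a strict display and its gate -/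
def SfDoc.EndOk (D : SfDoc) (π : SfPar) (De : ℝ) : Prop := De = 1 ∨ (De ≠ 1 ∧ D.gt De < 1 ∧ π.hyb = false)

/-- the row of the end point gate on a completing path through an earlier gate -/
theorem nm_end_row (hD : D.Ok π C0 τ κ0 t) {De : ℝ} (hE : D.EndOk π De) {i : ℝ} (hi : i ∈ D.G) (hiD : i < D.gt De)
    {ρ : D.Row i} {ω : D.Row 1} (h : D.Conn i 1 ρ ω) :
    ∃ j ∈ D.G, j = D.gt De ∧ ∃ ρ' : D.Row j, D.Conn i j ρ ρ' ∧ D.labAt De ω = D.lab j ρ' ∧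
      (0 < t → |(D.lab j ρ').Pd (D.ray 1 ω) - (D.lab j ρ').Pd (D.ray j ρ')| ≤ D.nu0 C0 t) := by
  have hc' := hD.core
  have h1G := hc'.gate.1
  rcases hE with rfl | ⟨hDe, hj1, hcl⟩
  · refine ⟨1, h1G, (nm_gt_self D h1G).symm, ω, h, nm_labAt_one D ω, fun _ => ?_⟩
    rw [sub_self, abs_zero]
    exact nm_nu0_nn D hc'.hs.1 C0 t
  · have hjG := nm_gt_mem D ⟨1, h1G⟩ De
    obtain ⟨ρ', c1, c2⟩ := hc'.split i hi _ hjG 1 h1G hiD hj1 ρ ω h
    exact ⟨D.gt De, hjG, rfl, ρ', c1, nm_labAt_eq hc' hcl hDe hj1 c2, fun ht => nm_conn_Pd hD ht hjG hj1 c2⟩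

/-- `b2 i - i` decreases for `q < 1` -/
theorem nm_bK_anti (π : SfPar) (hq1 : π.q < 1) {i j : ℝ} (hij : i ≤ j) : π.b2 j - j ≤ π.b2 i - i := by
  unfold SfPar.b2
  nlinarith

/-- the slope comparison on `[i, De]` -/
theorem nm_str_K (hD : D.Ok π C0 τ κ0 t) (hq1 : π.q < 1) {De : ℝ} (hE : D.EndOk π De)
    {i : ℝ} (hi : i ∈ D.G) (hiD : i < D.gt De) {ρ : D.Row i} {ω : D.Row 1} (h : D.Conn i 1 ρ ω) :
    |(D.lab i ρ).K - (D.labAt De ω).K| ≤ D.s ^ (π.b2 (D.gt De) - D.gt De - t) := by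
  obtain ⟨j, hjG, hjeq, ρ', c1, hl, -⟩ := nm_end_row hD hE hi hiD h
  rw [← hjeq] at hiD ⊢
  rw [hl]
  have h2 := (hD.aff.cmpA i hi j hjG hiD ρ ρ' c1).2.1
  rwa [min_eq_right (nm_bK_anti π hq1 hiD.le)] at h2

/-- **(ii)**: after the subtraction of `k̄` -/
theorem nm_str_res (hD : D.Ok π C0 τ κ0 t) (ht : 0 < t) (hq1 : π.q < 1) {De : ℝ} (hE : D.EndOk π De) (hsl : (|π.q| + 1) * |D.gt De - De| ≤ e)
    {i : ℝ} (hi : i ∈ D.G) (hiD : i < D.gt De) {ρ : D.Row i} {ω : D.Row 1} (h : D.Conn i 1 ρ ω) :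
    |(D.lab i ρ).K - D.kbar π (nmDsStr π De) ω| ≤ 2 * D.s ^ (π.b2 De - De - t - e) ∧
      |(D.raw π (nmDsStr π De) ω).be - ((D.lab i ρ).res (D.kbar π (nmDsStr π De) ω)).be| ≤ 3 * D.s ^ ((nmDsStr π De).b i - 2 * t - e) := by
  have hc' := hD.core
  have hs := hc'.hs
  have hs0 : 0 < D.s := hs.1
  have hsp : ∀ x : ℝ, 0 < D.s ^ x := fun x => Real.rpow_pos_of_pos hs.1 x
  obtain ⟨s1, s2, s3, s4⟩ := nm_sl_le π hsl
  have hK := nm_str_K hD hq1 hE hi hiD h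
  have ha : |(D.lab i ρ).K - D.kbar π (nmDsStr π De) ω| ≤ 2 * D.s ^ (π.b2 De - De - t - e) := by
    rw [nm_kbar_str]
    have h1 := nm_rep_abs hs.1 hs.2 (π.b2 De - De) (D.labAt De ω).K
    have h2 := nm_pw hs (show π.b2 De - De - t - e ≤ π.b2 (D.gt De) - D.gt De - t by linarith [(abs_le.1 s1).1])
    have h3 := nm_pw hs (show π.b2 De - De - t - e ≤ π.b2 De - De by linarith)
    have h4 := abs_sub_le (D.lab i ρ).K (D.labAt De ω).K (nmRep D.s (π.b2 De - De) (D.labAt De ω).K)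
    linarith
  refine ⟨ha, ?_⟩
  obtain ⟨j, hjG, hjeq, ρ', c1, hl, -⟩ := nm_end_row hD hE hi hiD h
  rw [← hjeq] at hiD s1 s2 s3
  show |((D.labAt De ω).be - D.kbar π (nmDsStr π De) ω * (D.labAt De ω).T)
      - ((D.lab i ρ).be - D.kbar π (nmDsStr π De) ω * (D.lab i ρ).T)| ≤ 3 * D.s ^ (π.b2 De + 1 * (i - De) - 2 * t - e)
  rw [hl]
  have h1 := (hD.aff.cmpA i hi j hjG hiD ρ ρ' c1).1
  obtain ⟨b1, b2, -, -⟩ := hc'.base i hi j hjG hiD ρ ρ' c1
  have hlj := nm_len_pos hc' hjG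
  have hli := (hc'.hlen.2 i hi).2
  have hT : |D.T j ρ' - D.T i ρ| ≤ D.s ^ (i - t) := by
    rw [abs_of_nonneg (by linarith)]
    linarith
  have e1 : ((D.lab j ρ').be - D.kbar π (nmDsStr π De) ω * (D.lab j ρ').T) - ((D.lab i ρ).be - D.kbar π (nmDsStr π De) ω * (D.lab i ρ).T)
      = -((D.lab i ρ).beAt (D.T j ρ') - (D.lab j ρ').be) + (D.T j ρ' - D.T i ρ) * ((D.lab i ρ).K - D.kbar π (nmDsStr π De) ω) := by
    unfold SfTest.beAt SfDoc.T
    ring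
  rw [e1]
  have h2 := nm_abs_mul_le hT ha
  have e2 : D.s ^ (i - t) * (2 * D.s ^ (π.b2 De - De - t - e)) = 2 * D.s ^ (π.b2 De + 1 * (i - De) - 2 * t - e) := by
    rw [mul_left_comm, ← Real.rpow_add hs0]
    congr 2
    ring
  rw [e2] at h2
  have hanti := nm_bK_anti π hq1 hiD.le
  have h3 := nm_pw hs (show π.b2 De + 1 * (i - De) - 2 * t - e ≤ min (π.b2 i) (π.b2 j) - t by
    have := (abs_le.1 s1).1
    rw [le_sub_iff_add_le, le_min_iff]
    constructor <;> linarith)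
  have h4 := abs_add_le (-((D.lab i ρ).beAt (D.T j ρ') - (D.lab j ρ').be)) ((D.T j ρ' - D.T i ρ) * ((D.lab i ρ).K - D.kbar π (nmDsStr π De) ω))
  rw [abs_neg] at h4
  linarith

/-- the exponents of the label of a gate `i` BEFORE the end point of a strict display -/
def SfPar.xpS (π : SfPar) (De De' i : ℝ) : NmXp := ⟨i, π.u i, π.n i, (nmDsStr π De).b i, π.b2 De - De, min (π.b1 i) (π.b1 De')⟩

/-- strict family, label of a gate `i` before the end point (`nm_str_res`; `cmpA` third clause on `[i, D.gt De]`, `nm_conn_Pd`) -/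
theorem nm_cur_mid (hD : D.Ok π C0 τ κ0 t) (ht : 0 < t) (ht1 : t ≤ 1) (hq1 : π.q < 1) {De : ℝ} (hE : D.EndOk π De) (hds : q.ds = nmDsStr π De)
    (hsl : (|π.q| + 1) * |D.gt De - De| ≤ e) {i : ℝ} (hi : i ∈ D.G) (hiD : i < D.gt De) {ρ : D.Row i} {ω : D.Row 1} (h : D.Conn i 1 ρ ω) :
    D.Cur π q t e (π.xpS De (D.gt De) i) (D.nu π C0 t) (D.lab i ρ) ω := by
  obtain ⟨ds, tp, g⟩ := q
  simp only at hds
  subst hds
  have hc' := hD.core
  have hs := hc'.hs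
  have hs0 : 0 < D.s := hs.1
  have hsp : ∀ x : ℝ, 0 < D.s ^ x := fun x => Real.rpow_pos_of_pos hs.1 x
  obtain ⟨-, -, -, s4⟩ := nm_sl_le π hsl
  obtain ⟨r1, r2⟩ := nm_str_res hD ht hq1 hE hsl hi hiD h
  refine ⟨r2, ?_, ?_⟩
  · show |(0 : ℝ) - ((D.lab i ρ).K - D.kbar π (nmDsStr π De) ω)| ≤ 2 * D.s ^ (π.b2 De - De - 2 * t - e)
    rw [zero_sub, abs_neg]
    have := nm_pw hs (show π.b2 De - De - 2 * t - e ≤ π.b2 De - De - t - e by linarith)
    linarith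
  · show |((D.labAt De ω).Pd (D.ray 1 ω) + 2 * D.kbar π (nmDsStr π De) ω * (D.ray 1 ω).B)
        - ((D.lab i ρ).res (D.kbar π (nmDsStr π De) ω)).Pd ((D.ray 1 ω).res (D.kbar π (nmDsStr π De) ω))|
      ≤ 6 * D.s ^ (min (π.b1 i) (π.b1 (D.gt De)) - 4 * t - e) + D.nu π C0 t
    obtain ⟨j, hjG, hjeq, ρ', c1, hl, hP⟩ := nm_end_row hD hE hi hiD h
    rw [← hjeq] at hiD ⊢
    rw [nm_res_Pd, hl]
    have hi1 : i < 1 := lt_of_lt_of_le hiD (hc'.gate.2 j hjG).2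
    have p1 := hP ht
    have p2 := (hD.aff.cmpA i hi j hjG hiD ρ ρ' c1).2.2
    have p3 := nm_conn_Pd hD ht hi hi1 h
    have hν : 2 * D.nu0 C0 t ≤ D.nu π C0 t := by
      refine nm_nu0_mul D π hs0 C0 t (c := 2) (by norm_num) ?_
      have : 1 ≤ D.s ^ (-|π.q| - 3) := Real.one_le_rpow_of_pos_of_le_one_of_nonpos hs0 hs.2.le (by linarith [abs_nonneg π.q])
      linarith
    have e1 : (D.lab j ρ').Pd (D.ray 1 ω) + 2 * D.kbar π (nmDsStr π De) ω * (D.ray 1 ω).B - ((D.lab i ρ).Pd (D.ray 1 ω) + 2 * D.kbar π (nmDsStr π De) ω * (D.ray 1 ω).B)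
        = ((D.lab j ρ').Pd (D.ray 1 ω) - (D.lab j ρ').Pd (D.ray j ρ')) - ((D.lab i ρ).Pd (D.ray i ρ) - (D.lab j ρ').Pd (D.ray j ρ'))
          - ((D.lab i ρ).Pd (D.ray 1 ω) - (D.lab i ρ).Pd (D.ray i ρ)) := by ring
    rw [e1]
    have p4 := nm_pw hs (show min (π.b1 i) (π.b1 j) - 4 * t - e ≤ min (π.b1 i) (π.b1 j) - t by linarith)
    have p5 := hsp (min (π.b1 i) (π.b1 j) - 4 * t - e)
    rw [abs_le] at p1 p2 p3 ⊢
    constructor <;> linarith [p1.1, p1.2, p2.1, p2.2, p3.1, p3.2]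

theorem nm_pred_fam_eqns_cite : True := by
  have := @NmQ.FamE.eq_1; have := @SfDoc.EndOk.eq_1; have := @SfPar.xpS.eq_1
  trivial

end

end Claimed.Agent.R256
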