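import Claimed.Agent.R256.Nm.Pred.Row

/-!
# Row 256, unit NM, sub-block NM-PRED, file 5: TYPE A FORM OF X4, X5      (helper51; prefix `nm_x_`)

The statements `nm_strict`, `nm_pred_left`, `nm_pred_right`, `nm_pred_end` of `Nm/Contract.lean`, with `NmA` and `NmQ.Fam` UNFOLDED (this file lies below the contract; the contract cites it after a case distinction on the family).
FORM: all real parameters are fixed;  `∀ acc > 0, ∃ t0 > 0, ∀ D, D.Fine π C0 τ κ0 t0 → ...` with lists `≤ s^(-acc)`.       Gates are approximated: `j' = D.gt j`, `|j' - j| ≤ t0` (`nm_gt_near`).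
RECIPE (every theorem): take `t0` from `nm_x_small acc (π.Cs)`, smaller than the finitely many strict gaps of the parameters (`j + t0 < 1`, `i + 2 t0 < De`, ...) and than `1 / (|dep| + 8 |C0| + 3|q| + 8 + Cs)`;   `t = t0`, `e = π.Cs * t0`;
check `NmPd` (rows: `NmPr`) at `j'` : every field is a linear inequality which holds at `j` with `e = 0` and moves by `≤ (1 + 2 J + |q|) |j' - j|`;   apply the finite-scale theorem of `Pred/Main.lean`;   `nm_labpr_mono`.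
-/

set_option autoImplicit false

namespace Claimed.Agent.R256

open Claimed.Agent.R255
open Classical

noncomputable section

/-- the slack constant of approximated gates -/
def SfPar.Cs (π : SfPar) : ℝ := 3 + 2 * |π.q| + 2 * |π.J|

/-- polynomial bounds: everything is `≤ 7 * 10^42 * x^61` -/
theorem nm_x_small_poly {x : ℝ} (hx : 1 ≤ x) :
    10 ^ 12 * (1000 * x ^ 6) ^ 10 ≤ 7 * 10 ^ 42 * x ^ 61 ∧ 10 ^ 11 * (1000 * x ^ 6) ^ 9 ≤ 7 * 10 ^ 42 * x ^ 61 ∧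
      4 * x + 3 ≤ 7 * 10 ^ 42 * x ^ 61 ∧ 3 * x ^ 3 ≤ 7 * 10 ^ 42 * x ^ 61 ∧
      (4 * x + 3) * (10 ^ 12 * (1000 * x ^ 6) ^ 10) ≤ 7 * 10 ^ 42 * x ^ 61 := by
  have h60 : x ^ 60 ≤ x ^ 61 := pow_le_pow_right₀ hx (by norm_num)
  have h54 : x ^ 54 ≤ x ^ 61 := pow_le_pow_right₀ hx (by norm_num)
  have h3 : x ^ 3 ≤ x ^ 61 := pow_le_pow_right₀ hx (by norm_num)
  have h1 : x ≤ x ^ 61 := by
    have := pow_le_pow_right₀ hx (show 1 ≤ 61 by norm_num)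
    simpa using this
  have h0 : (1 : ℝ) ≤ x ^ 61 := one_le_pow₀ hx
  have e10 : (1000 * x ^ 6) ^ 10 = 10 ^ 30 * x ^ 60 := by
    rw [mul_pow, ← pow_mul]; norm_num
  have e9 : (1000 * x ^ 6) ^ 9 = 10 ^ 27 * x ^ 54 := by
    rw [mul_pow, ← pow_mul]; norm_num
  have h60p : 0 ≤ x ^ 60 := by positivity
  refine ⟨?_, ?_, ?_, ?_, ?_⟩
  · rw [e10]; nlinarith
  · rw [e9]; nlinarith
  · nlinarith
  · nlinarith
  · rw [e10]
    have h7 : 4 * x + 3 ≤ 7 * x := by linarith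
    have e61 : x ^ 61 = x * x ^ 60 := by ring
    calc (4 * x + 3) * (10 ^ 12 * (10 ^ 30 * x ^ 60)) ≤ (7 * x) * (10 ^ 12 * (10 ^ 30 * x ^ 60)) :=
          mul_le_mul_of_nonneg_right h7 (by positivity)
      _ = 7 * 10 ^ 42 * x ^ 61 := by rw [e61]; ring

/-- all losses are `≤ s^(-acc)` -/
theorem nm_x_small {acc C : ℝ} (hacc : 0 < acc) (hC : 0 ≤ C) : ∃ t0 : ℝ, 0 < t0 ∧ t0 ≤ 1 ∧ ∀ s t e : ℝ, 0 < s → s ≤ t → t ≤ t0 → 0 ≤ e → e ≤ C * t →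
    10 ^ 12 * nmMp s t e ^ 10 ≤ s ^ (-acc) ∧ 10 ^ 11 * nmMp s t e ^ 9 ≤ s ^ (-acc) ∧ 4 * s ^ (-(t + e)) + 3 ≤ s ^ (-acc) ∧
      3 * s ^ (-(3 * t + e)) ≤ s ^ (-acc) ∧ (4 * s ^ (-(t + e)) + 3) * (10 ^ 12 * nmMp s t e ^ 10) ≤ s ^ (-acc) ∧ s ≤ 1 / 350 := by
  set K : ℝ := 7 * 10 ^ 42 with hK
  have hK0 : 0 < K := by rw [hK]; norm_num
  have hK1 : 1 ≤ K := by rw [hK]; norm_num
  have h1C : 0 < 1 + C := by linarith
  set t0 : ℝ := min (1 / 350) (min (acc / (122 * (1 + C))) (K ^ (-(2 / acc)))) with ht0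
  have hp1 : 0 < acc / (122 * (1 + C)) := by positivity
  have hp2 : 0 < K ^ (-(2 / acc)) := Real.rpow_pos_of_pos hK0 _
  have ht0p : 0 < t0 := by
    rw [ht0]; exact lt_min (by norm_num) (lt_min hp1 hp2)
  have ha : t0 ≤ 1 / 350 := min_le_left _ _
  have hb : t0 ≤ acc / (122 * (1 + C)) := (min_le_right _ _).trans (min_le_left _ _)
  have hc : t0 ≤ K ^ (-(2 / acc)) := (min_le_right _ _).trans (min_le_right _ _)
  refine ⟨t0, ht0p, ha.trans (by norm_num), ?_⟩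
  intro s t e hs hst htt he heC
  have hs1 : s ≤ 1 := (hst.trans htt).trans (ha.trans (by norm_num))
  have ht : 0 < t := lt_of_lt_of_le hs hst
  -- `x = s^(-(t+e)) ≥ 1`
  set x : ℝ := s ^ (-(t + e)) with hx
  have hx1 : 1 ≤ x := by
    rw [hx]
    exact Real.one_le_rpow_of_pos_of_le_one_of_nonpos hs hs1 (by linarith)
  have hx6 : s ^ (-(6 * (t + e))) = x ^ 6 := by
    rw [hx, ← Real.rpow_natCast, ← Real.rpow_mul hs.le]
    congr 1; push_cast; ring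
  have hx3 : s ^ (-(3 * t + e)) ≤ x ^ 3 := by
    have : x ^ 3 = s ^ (-(3 * (t + e))) := by
      rw [hx, ← Real.rpow_natCast, ← Real.rpow_mul hs.le]
      congr 1; push_cast; ring
    rw [this]
    exact Real.rpow_le_rpow_of_exponent_ge hs hs1 (by linarith)
  have hte : 61 * (t + e) ≤ acc / 2 := by
    have h1 : t + e ≤ (1 + C) * t := by linarith
    have h2 : (1 + C) * t ≤ (1 + C) * (acc / (122 * (1 + C))) :=
      mul_le_mul_of_nonneg_left (htt.trans hb) h1C.le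
    have h3 : (1 + C) * (acc / (122 * (1 + C))) = acc / 122 := by
      field_simp
    linarith
  have hx61 : x ^ 61 ≤ s ^ (-(acc / 2)) := by
    have : x ^ 61 = s ^ (-(61 * (t + e))) := by
      rw [hx, ← Real.rpow_natCast, ← Real.rpow_mul hs.le]
      congr 1; push_cast; ring
    rw [this]
    exact Real.rpow_le_rpow_of_exponent_ge hs hs1 (by linarith)
  have hKs : K ≤ s ^ (-(acc / 2)) := by
    have h1 : s ^ (acc / 2) ≤ (K ^ (-(2 / acc))) ^ (acc / 2) :=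
      Real.rpow_le_rpow hs.le ((hst.trans htt).trans hc) (by positivity)
    have h2 : (K ^ (-(2 / acc))) ^ (acc / 2) = K⁻¹ := by
      rw [← Real.rpow_mul hK0.le, ← Real.rpow_neg_one]
      congr 1; field_simp
    rw [h2] at h1
    rw [Real.rpow_neg hs.le]
    have h3 : 0 < s ^ (acc / 2) := Real.rpow_pos_of_pos hs _
    rw [le_inv_comm₀ hK0 h3]
    exact h1
  have hmain : K * x ^ 61 ≤ s ^ (-acc) := by
    have h1 : s ^ (-acc) = s ^ (-(acc / 2)) * s ^ (-(acc / 2)) := by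
      rw [← Real.rpow_add hs]; congr 1; ring
    rw [h1]
    exact mul_le_mul hKs hx61 (by positivity) (Real.rpow_nonneg hs.le _)
  obtain ⟨q1, q2, q3, q4, q5⟩ := nm_x_small_poly hx1
  have hM : nmMp s t e = 1000 * x ^ 6 := by
    unfold nmMp; rw [hx6]
  rw [hM]
  refine ⟨q1.trans hmain, q2.trans hmain, q3.trans hmain, ?_, q5.trans hmain, (hst.trans htt).trans ha⟩
  exact (mul_le_mul_of_nonneg_left hx3 (by norm_num)).trans (q4.trans hmain)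

theorem nm_labpr_mono {D : SfDoc} {j : ℝ} {α β : Type} {E : D.Row 1 → Prop} {B : D.Row 1 → β} {A : D.Row 1 → α} {N N' : ℝ} (h : D.LabPr j E B A N)
    (hN : N ≤ N') : D.LabPr j E B A N' := by
  intro lam x
  obtain ⟨S, hS, hm⟩ := h lam x
  exact ⟨S, hS.trans hN, hm⟩

theorem nm_ownpr_mono {D : SfDoc} {α β : Type} {B : D.Row 1 → β} {A : D.Row 1 → α} {N N' : ℝ} (h : D.OwnPr B A N) (hN : N ≤ N') :
    D.OwnPr B A N' := by
  intro lam x
  obtain ⟨S, hS, hm⟩ := h lam x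
  exact ⟨S, hS.trans hN, hm⟩

/-- **X4** -/
theorem nm_x_strict (π : SfPar) (C0 τ κ0 : ℝ) (hq1 : π.q < 1) (De : ℝ) (hDe : 0 < De ∧ De ≤ 1) (hh : π.hyb = true → De = 1)
    (i : ℝ) (hi : 0 < i ∧ i < De) (acc : ℝ) (hacc : 0 < acc) : ∃ t0 : ℝ, 0 < t0 ∧ ∀ D : SfDoc, D.Fine π C0 τ κ0 t0 →
      D.LabPr (D.gt i) (fun _ => True) (fun ω => (D.raw π (nmDsStr π De) ω).kb) (fun _ => ()) (D.s ^ (-acc)) ∧
      ∀ (ρ : D.Row (D.gt i)) (ω : D.Row 1), D.Conn (D.gt i) 1 ρ ω →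
        |(D.lab (D.gt i) ρ).K - D.kbar π (nmDsStr π De) ω| ≤ D.s ^ (π.b2 De - De - acc) ∧
        |(D.raw π (nmDsStr π De) ω).be - ((D.lab (D.gt i) ρ).be - D.kbar π (nmDsStr π De) ω * (D.lab (D.gt i) ρ).T)|
          ≤ D.s ^ ((nmDsStr π De).b i - acc) := by
  have hCs : 0 ≤ π.Cs := by
    unfold SfPar.Cs; positivity
  obtain ⟨t1, ht1, ht11, hsm⟩ := nm_x_small hacc hCs
  set g : ℝ := if De < 1 then (1 - De) / 2 else 1 with hg
  have hg0 : 0 < g := by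
    rw [hg]; split_ifs with h
    · linarith
    · norm_num
  set t0 : ℝ := min t1 (min ((De - i) / 3) g) with ht0
  have hgap : 0 < (De - i) / 3 := by linarith [hi.2]
  have ht0p : 0 < t0 := by
    rw [ht0]; exact lt_min ht1 (lt_min hgap hg0)
  have ha : t0 ≤ t1 := min_le_left _ _
  have hb : t0 ≤ (De - i) / 3 := (min_le_right _ _).trans (min_le_left _ _)
  have hc : t0 ≤ g := (min_le_right _ _).trans (min_le_right _ _)
  refine ⟨t0, ht0p, ?_⟩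
  intro D hD
  have hs : 0 < D.s := hD.ok.core.hs.1
  have hs1 : D.s ≤ 1 := hD.ok.core.hs.2.le
  have hne : D.G.Nonempty := ⟨1, hD.ok.core.gate.1⟩
  have hiG : D.gt i ∈ D.G := nm_gt_mem D hne i
  have hni : |D.gt i - i| ≤ t0 := nm_gt_near hD hi.1.le (hi.2.le.trans hDe.2)
  have hnD : |D.gt De - De| ≤ t0 := nm_gt_near hD hDe.1.le hDe.2
  have hni' := abs_le.1 hni
  have hnD' := abs_le.1 hnD
  have hiD : D.gt i < D.gt De := by linarith [hni'.2, hnD'.1]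
  have hE : D.EndOk π De := by
    by_cases h1 : De = 1
    · exact Or.inl h1
    · have hlt : De < 1 := lt_of_le_of_ne hDe.2 h1
      refine Or.inr ⟨h1, ?_, ?_⟩
      · have : g = (1 - De) / 2 := by rw [hg, if_pos hlt]
        linarith [hnD'.2]
      · cases hy : π.hyb with
        | false => rfl
        | true => exact absurd (hh hy) h1
  set e : ℝ := π.Cs * t0 with he
  have he0 : 0 ≤ e := by rw [he]; positivity
  have hsl : (|π.q| + 1) * |D.gt De - De| ≤ e := by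
    have h1 : (|π.q| + 1) * |D.gt De - De| ≤ (|π.q| + 1) * t0 :=
      mul_le_mul_of_nonneg_left hnD (by positivity)
    have h2 : (|π.q| + 1) * t0 ≤ π.Cs * t0 := by
      apply mul_le_mul_of_nonneg_right _ ht0p.le
      unfold SfPar.Cs
      have := abs_nonneg π.q; have := abs_nonneg π.J
      linarith
    exact h1.trans h2
  obtain ⟨-, -, q3, q4, -, -⟩ := hsm D.s t0 e hs hD.sm ha he0 le_rfl
  refine ⟨nm_labpr_mono (nm_str_kb hD.ok hq1 hE hsl hiG hiD) q3, ?_⟩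
  intro ρ ω hc'
  obtain ⟨r1, r2⟩ := nm_str_res hD.ok ht0p hq1 hE hsl hiG hiD hc'
  constructor
  · refine r1.trans ?_
    have h1 : D.s ^ (π.b2 De - De - t0 - e) = D.s ^ (π.b2 De - De) * D.s ^ (-(t0 + e)) := by
      rw [← Real.rpow_add hs]; congr 1; ring
    have h2 : D.s ^ (π.b2 De - De - acc) = D.s ^ (π.b2 De - De) * D.s ^ (-acc) := by
      rw [← Real.rpow_add hs]; congr 1
    rw [h1, h2]
    have h3 : 0 < D.s ^ (-(t0 + e)) := Real.rpow_pos_of_pos hs _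
    have h4 : 2 * D.s ^ (-(t0 + e)) ≤ D.s ^ (-acc) := by linarith
    calc 2 * (D.s ^ (π.b2 De - De) * D.s ^ (-(t0 + e))) = D.s ^ (π.b2 De - De) * (2 * D.s ^ (-(t0 + e))) := by ring
      _ ≤ D.s ^ (π.b2 De - De) * D.s ^ (-acc) := mul_le_mul_of_nonneg_left h4 (Real.rpow_nonneg hs.le _)
  · have r2' : |(D.raw π (nmDsStr π De) ω).be - ((D.lab (D.gt i) ρ).be - D.kbar π (nmDsStr π De) ω * (D.lab (D.gt i) ρ).T)|
        ≤ 3 * D.s ^ ((nmDsStr π De).b (D.gt i) - 2 * t0 - e) := r2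
    refine r2'.trans ?_
    have hbb : (nmDsStr π De).b (D.gt i) = (nmDsStr π De).b i + (D.gt i - i) := by
      unfold NmDs.b nmDsStr; ring
    have h0 : D.s ^ ((nmDsStr π De).b (D.gt i) - 2 * t0 - e) ≤ D.s ^ ((nmDsStr π De).b i - (3 * t0 + e)) := by
      apply Real.rpow_le_rpow_of_exponent_ge hs hs1
      rw [hbb]; linarith [hni'.1]
    have h1 : D.s ^ ((nmDsStr π De).b i - (3 * t0 + e)) = D.s ^ ((nmDsStr π De).b i) * D.s ^ (-(3 * t0 + e)) := by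
      rw [← Real.rpow_add hs]; congr 1
    have h2 : D.s ^ ((nmDsStr π De).b i - acc) = D.s ^ ((nmDsStr π De).b i) * D.s ^ (-acc) := by
      rw [← Real.rpow_add hs]; congr 1
    rw [h2]
    calc 3 * D.s ^ ((nmDsStr π De).b (D.gt i) - 2 * t0 - e) ≤ 3 * (D.s ^ ((nmDsStr π De).b i) * D.s ^ (-(3 * t0 + e))) := by
          rw [← h1]; exact mul_le_mul_of_nonneg_left h0 (by norm_num)
      _ = D.s ^ ((nmDsStr π De).b i) * (3 * D.s ^ (-(3 * t0 + e))) := by ring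
      _ ≤ D.s ^ ((nmDsStr π De).b i) * D.s ^ (-acc) := mul_le_mul_of_nonneg_left q4 (Real.rpow_nonneg hs.le _)

/-- the common set-up of an approximated gate `j < 1` -/
theorem nm_x_lf_setup (π : SfPar) (C0 τ κ0 dep j : ℝ) (hj : 0 ≤ j ∧ j < 1) (acc : ℝ) (hacc : 0 < acc) :
    ∃ t0 : ℝ, 0 < t0 ∧ t0 ≤ 1 ∧ ∀ D : SfDoc, D.Fine π C0 τ κ0 t0 →
      D.gt j ∈ D.G ∧ D.gt j < 1 ∧ |D.gt j - j| ≤ t0 ∧ dep + 2 * C0 + 2 * |π.q| + 7 + π.Cs * t0 ≤ 1 / t0 ∧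
      10 ^ 12 * nmMp D.s t0 (π.Cs * t0) ^ 10 ≤ D.s ^ (-acc) ∧ 10 ^ 11 * nmMp D.s t0 (π.Cs * t0) ^ 9 ≤ D.s ^ (-acc) := by
  have hCs : 0 ≤ π.Cs := by
    unfold SfPar.Cs; positivity
  obtain ⟨t1, ht1, ht11, hsm⟩ := nm_x_small hacc hCs
  set Z : ℝ := |dep| + 8 * |C0| + 3 * |π.q| + 8 + π.Cs with hZ
  have hZ0 : 0 < Z := by rw [hZ]; positivity
  set t0 : ℝ := min t1 (min ((1 - j) / 2) (1 / Z)) with ht0
  have hgap : 0 < (1 - j) / 2 := by linarith [hj.2]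
  have ht0p : 0 < t0 := by
    rw [ht0]; exact lt_min ht1 (lt_min hgap (by positivity))
  have ha : t0 ≤ t1 := min_le_left _ _
  have hb : t0 ≤ (1 - j) / 2 := (min_le_right _ _).trans (min_le_left _ _)
  have hc : t0 ≤ 1 / Z := (min_le_right _ _).trans (min_le_right _ _)
  refine ⟨t0, ht0p, ha.trans ht11, ?_⟩
  intro D hD
  have hs : 0 < D.s := hD.ok.core.hs.1
  have hne : D.G.Nonempty := ⟨1, hD.ok.core.gate.1⟩
  have hn : |D.gt j - j| ≤ t0 := nm_gt_near hD hj.1 hj.2.le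
  have hn' := abs_le.1 hn
  have he0 : 0 ≤ π.Cs * t0 := by positivity
  obtain ⟨q1, q2, -, -, -, -⟩ := hsm D.s t0 (π.Cs * t0) hs hD.sm ha he0 le_rfl
  refine ⟨nm_gt_mem D hne j, by linarith [hn'.2], hn, ?_, q1, q2⟩
  have h1 : Z ≤ 1 / t0 := by
    rw [le_div_iff₀ ht0p]
    have := mul_le_mul_of_nonneg_left hc hZ0.le
    rwa [mul_one_div_cancel hZ0.ne'] at this
  have h2 : π.Cs * t0 ≤ π.Cs := by
    have := mul_le_mul_of_nonneg_left (ha.trans ht11) hCs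
    linarith
  have h3 := le_abs_self dep
  have h4 := le_abs_self C0
  have h5 := abs_nonneg C0
  have h6 := abs_nonneg π.q
  refine le_trans ?_ h1
  rw [hZ]; linarith

/-- the products which occur when a gate is moved -/
theorem nm_x_lf_mv (π : SfPar) {t d : ℝ} (hd : |d| ≤ t) :
    |π.q * d| ≤ |π.q| * t ∧ |π.J * d| ≤ |π.J| * t := by
  constructor
  · rw [abs_mul]; exact mul_le_mul_of_nonneg_left hd (abs_nonneg _)
  · rw [abs_mul]; exact mul_le_mul_of_nonneg_left hd (abs_nonneg _)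

/-- `NmPd` at the approximated gate, family EQ, `v ≤ u j` -/
theorem nm_x_lf_pd_eq (π : SfPar) (q : NmQ) (hq : q.Ok π) (hc : 0 < π.c2) (hqc : π.q = π.c2) (hds : q.ds = nmDsEq π)
    (htp : q.tp ≠ NmTp.plin) (a j v : ℝ) (ha : a ≤ j) (hv : v ≤ π.u j) (hl : q.l π a v ≤ min (π.b1 j) 0)
    (hh : π.hyb = true → q.w π a v - q.g ≤ 0) {t j' : ℝ} (ht : 0 < t) (ht1 : t ≤ 1) (hj' : |j' - j| ≤ t) :
    NmPd π q t (π.Cs * t) (π.xpL j' (min (π.b1 j') 0)) a v ∧ v ≤ π.u j' + π.Cs * t := by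
  obtain ⟨d, hd⟩ : ∃ d, d = j' - j := ⟨_, rfl⟩
  have hjd : j' = j + d := by rw [hd]; ring
  rw [← hd] at hj'
  subst hjd
  obtain ⟨m1, m2⟩ := nm_x_lf_mv π hj'
  have m0 := abs_le.1 hj'
  have m1' := abs_le.1 m1
  have m2' := abs_le.1 m2
  have hq0 : 0 < π.q := by rw [hqc]; exact hc
  have hqa : |π.q| = π.q := abs_of_pos hq0
  have hJt : 0 ≤ |π.J| * t := by positivity
  have hqt : 0 ≤ |π.q| * t := by positivity
  have he : π.Cs * t = 3 * t + 2 * (|π.q| * t) + 2 * (|π.J| * t) := by unfold SfPar.Cs; ring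
  have hg := hq.g0
  have hba : q.ds.b a = π.q * (a - 1) := by
    rw [hds, hqc]; unfold NmDs.b nmDsEq; simp
  have hqaj : π.q * a ≤ π.q * j := mul_le_mul_of_nonneg_left ha hq0.le
  have hl1 : q.l π a v ≤ π.b1 j := hl.trans (min_le_left _ _)
  have hl0 : q.l π a v ≤ 0 := hl.trans (min_le_right _ _)
  have hlb : q.l π a v ≤ q.ds.b a + v := by
    unfold NmQ.l
    cases htq : q.tp with
    | quad => simp
    | clip => simp
    | plin => exact absurd htq htp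
  have hwl : q.w π a v = q.l π a v + v := by
    unfold NmQ.l NmQ.w
    cases htq : q.tp with
    | quad => simp; ring
    | clip => simp
    | plin => exact absurd htq htp
  unfold SfPar.b1 at hl1
  unfold SfPar.u at hv
  rw [hba] at hlb
  refine ⟨⟨by rw [he]; positivity, ht, ht1, ?_, ?_, ?_, ?_, ?_, ?_, ?_, ?_, ?_, ?_, ?_⟩, ?_⟩
  · simp only [SfPar.xpL]; rw [he]; linarith
  · simp only [SfPar.xpL, SfPar.u]; rw [he]; linarith
  · simp only [SfPar.xpL, SfPar.u]; rw [he]; linarith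
  · intro _
    simp only [SfPar.xpL, SfPar.b2]; rw [he, hba]; linarith
  · intro hcut
    have h1 : 1 < π.c2 := by
      by_contra hcon
      rw [hds] at hcut
      unfold nmDsEq at hcut
      simp [hcon] at hcut
    have h2 : (π.q - 1) * a ≤ (π.q - 1) * j := mul_le_mul_of_nonneg_left ha (by rw [hqc]; linarith)
    simp only [SfPar.xpL, SfPar.b2]; rw [he, hba]; linarith
  · simp only [SfPar.xpL, SfPar.b2]; rw [he]; linarith
  · simp only [SfPar.xpL, SfPar.b2, SfPar.u]; rw [he]; linarith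
  · simp only [SfPar.xpL, SfPar.b1]; rw [he]
    rcases le_total ((π.q - π.J) * (j + d - 1)) 0 with h | h
    · rw [min_eq_left h]; linarith
    · rw [min_eq_right h]; linarith
  · simp only [SfPar.xpL, SfPar.n]; rw [he, hwl]; linarith
  · simp only [SfPar.xpL, SfPar.b2, SfPar.u]; rw [he, hwl]; linarith
  · intro hy
    have := hh hy
    rw [he]; linarith
  · simp only [SfPar.u]; rw [he]; linarith

/-- **X5 (iii)**, family EQ  (`v ≤ u j`; the paper: `v = u j`) -/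
theorem nm_x_left_eq (π : SfPar) (hπ : π.Valid) (C0 τ κ0 : ℝ) (q : NmQ) (hq : q.Ok π) (hc : 0 < π.c2) (hqc : π.q = π.c2) (hds : q.ds = nmDsEq π)
    (htp : q.tp ≠ NmTp.plin) (a j v : ℝ) (ha : a ≤ j ∧ j < 1 ∧ 0 ≤ j) (hv : v ≤ π.u j) (hl : q.l π a v ≤ min (π.b1 j) 0)
    (hh : π.hyb = true → q.w π a v - q.g ≤ 0) (acc : ℝ) (hacc : 0 < acc) : ∃ t0 : ℝ, 0 < t0 ∧ ∀ D : SfDoc, D.Fine π C0 τ κ0 t0 →
      D.LabPr (D.gt j) (fun _ => True) (D.nm π q a v) (fun _ => ()) (D.s ^ (-acc)) := by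
  obtain ⟨t0, ht0, ht1, H⟩ := nm_x_lf_setup π C0 τ κ0 (q.dep π a v) j ⟨ha.2.2, ha.2.1⟩ acc hacc
  refine ⟨t0, ht0, fun D hD => ?_⟩
  obtain ⟨h1, h2, h3, h4, h5, -⟩ := H D hD
  obtain ⟨p1, p2⟩ := nm_x_lf_pd_eq π q hq hc hqc hds htp a j v ha.1 hv hl hh ht0 ht1 h3
  exact nm_labpr_mono (nm_pred_eq_lab hD.ok hπ hc hqc hq hds h1 h2 p1 h4 p2) h5

/-- `NmPd` at the approximated gate, family LIN, `u j - c1 (j - a) ≤ v ≤ u j` -/
theorem nm_x_lf_pd_lin (π : SfPar) (q : NmQ) (hq : q.Ok π) (hc1 : 0 < π.c1) (hqc : π.q = π.c1 + π.J)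
    (hds : q.ds = nmDsLin) (htp : q.tp = NmTp.plin) (a j v : ℝ) (ha : a ≤ j) (hv : v ≤ π.u j) (hv' : π.u j - π.c1 * (j - a) ≤ v)
    (hh : π.hyb = true → q.w π a v - q.g ≤ 0) {t j' : ℝ} (ht : 0 < t) (ht1 : t ≤ 1) (hj' : |j' - j| ≤ t) :
    NmPd π q t (π.Cs * t) (π.xpL j' (π.b1 j')) a v ∧ v ≤ π.u j' + π.Cs * t := by
  obtain ⟨d, hd⟩ : ∃ d, d = j' - j := ⟨_, rfl⟩
  have hjd : j' = j + d := by rw [hd]; ring
  rw [← hd] at hj'
  subst hjd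
  obtain ⟨m1, m2⟩ := nm_x_lf_mv π hj'
  have m0 := abs_le.1 hj'
  have m1' := abs_le.1 m1
  have m2' := abs_le.1 m2
  have hJt : 0 ≤ |π.J| * t := by positivity
  have hqt : 0 ≤ |π.q| * t := by positivity
  have he : π.Cs * t = 3 * t + 2 * (|π.q| * t) + 2 * (|π.J| * t) := by unfold SfPar.Cs; ring
  have hg := hq.g0
  have hcut : q.ds.cut = NmCut.none := by rw [hds]; rfl
  have hc1e : π.c1 = π.q - π.J := by rw [hqc]; ring
  have hcaj : (π.q - π.J) * a ≤ (π.q - π.J) * j := mul_le_mul_of_nonneg_left ha (by rw [← hc1e]; exact hc1.le)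
  have hle : q.l π a v = (π.q - π.J) * (a - 1) := by
    unfold NmQ.l SfPar.b1; rw [htp]
  have hwl : q.w π a v = (π.q - π.J) * (a - 1) + v := by
    unfold NmQ.w SfPar.b1; rw [htp]
  unfold SfPar.u at hv hv'
  rw [hc1e] at hv'
  refine ⟨⟨by rw [he]; positivity, ht, ht1, ?_, ?_, ?_, ?_, ?_, ?_, ?_, ?_, ?_, ?_, ?_⟩, ?_⟩
  · simp only [SfPar.xpL]; rw [he]; linarith
  · simp only [SfPar.xpL, SfPar.u]; rw [he]; linarith
  · simp only [SfPar.xpL, SfPar.u]; rw [he]; linarith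
  · intro h; exact absurd hcut h
  · intro h; rw [hcut] at h; cases h
  · simp only [SfPar.xpL, SfPar.b2]; rw [he, hle]; linarith
  · simp only [SfPar.xpL, SfPar.b2, SfPar.u]; rw [he, hle]; linarith
  · simp only [SfPar.xpL, SfPar.b1]; rw [he, hle]; linarith
  · simp only [SfPar.xpL, SfPar.n]; rw [he, hwl]; linarith
  · simp only [SfPar.xpL, SfPar.b2, SfPar.u]; rw [he, hwl]; linarith
  · intro hy
    have := hh hy
    rw [he]; linarith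
  · simp only [SfPar.u]; rw [he]; linarith

/-- **X5 (iii)**, family LIN  (`u j - c1 (j - a) ≤ v ≤ u j`; the paper: `v = u j`) -/
theorem nm_x_left_lin (π : SfPar) (hπ : π.Valid) (C0 τ κ0 : ℝ) (q : NmQ) (hq : q.Ok π) (hc : π.c2 = 0) (hc1 : 0 < π.c1) (hqc : π.q = π.c1 + π.J)
    (hds : q.ds = nmDsLin) (htp : q.tp = NmTp.plin) (a j v : ℝ) (ha : a ≤ j ∧ j < 1 ∧ 0 ≤ j) (hv : v ≤ π.u j) (hv' : π.u j - π.c1 * (j - a) ≤ v)
    (hh : π.hyb = true → q.w π a v - q.g ≤ 0) (acc : ℝ) (hacc : 0 < acc) : ∃ t0 : ℝ, 0 < t0 ∧ ∀ D : SfDoc, D.Fine π C0 τ κ0 t0 →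
      D.LabPr (D.gt j) (fun _ => True) (D.nm π q a v) (fun _ => ()) (D.s ^ (-acc)) := by
  obtain ⟨t0, ht0, ht1, H⟩ := nm_x_lf_setup π C0 τ κ0 (q.dep π a v) j ⟨ha.2.2, ha.2.1⟩ acc hacc
  refine ⟨t0, ht0, fun D hD => ?_⟩
  obtain ⟨h1, h2, h3, h4, h5, -⟩ := H D hD
  obtain ⟨p1, p2⟩ := nm_x_lf_pd_lin π q hq hc1 hqc hds htp a j v ha.1 hv hv' hh ht0 ht1 h3
  exact nm_labpr_mono (nm_pred_lin_lab hD.ok hπ hc hc1 hqc hq hds h1 h2 p1 h4 p2) h5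

theorem nm_x_Cs_nonneg (π : SfPar) : 0 ≤ π.Cs := by
  unfold SfPar.Cs; positivity

theorem nm_x_t0 (π : SfPar) {acc gap : ℝ} (M : ℝ) (hacc : 0 < acc) (hgap : 0 < gap) :
    ∃ t0 : ℝ, 0 < t0 ∧ t0 ≤ 1 ∧ t0 ≤ gap ∧ M + π.Cs * t0 ≤ 1 / t0 ∧ ∀ s e : ℝ, 0 < s → s ≤ t0 → 0 ≤ e → e ≤ π.Cs * t0 →
      10 ^ 12 * nmMp s t0 e ^ 10 ≤ s ^ (-acc) ∧ 10 ^ 11 * nmMp s t0 e ^ 9 ≤ s ^ (-acc) ∧
        (4 * s ^ (-(t0 + e)) + 3) * (10 ^ 12 * nmMp s t0 e ^ 10) ≤ s ^ (-acc) ∧ s ≤ 1 / 350 := by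
  have hCs := nm_x_Cs_nonneg π
  obtain ⟨t1, ht1, ht11, hsm⟩ := nm_x_small hacc hCs
  have hM : 0 < |M| + π.Cs + 1 := by positivity
  refine ⟨min t1 (min gap (1 / (|M| + π.Cs + 1))), lt_min ht1 (lt_min hgap (by positivity)), (min_le_left _ _).trans ht11,
    (min_le_right _ _).trans (min_le_left _ _), ?_, ?_⟩
  · obtain ⟨t0, ht0⟩ : ∃ t0 : ℝ, t0 = min t1 (min gap (1 / (|M| + π.Cs + 1))) := ⟨_, rfl⟩
    rw [← ht0]
    have h0 : 0 < t0 := by rw [ht0]; exact lt_min ht1 (lt_min hgap (by positivity))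
    have h1 : t0 ≤ 1 := by rw [ht0]; exact (min_le_left _ _).trans ht11
    have h2 : t0 ≤ 1 / (|M| + π.Cs + 1) := by rw [ht0]; exact (min_le_right _ _).trans (min_le_right _ _)
    have h3 : |M| + π.Cs + 1 ≤ 1 / t0 := by
      rw [le_div_iff₀ h0]
      rw [le_div_iff₀ hM] at h2
      linarith
    have h4 : π.Cs * t0 ≤ π.Cs := by nlinarith
    linarith [le_abs_self M]
  · intro s e hs hst he hee
    obtain ⟨q1, q2, -, -, q5, q6⟩ := hsm s _ e hs hst (min_le_left _ _) he hee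
    exact ⟨q1, q2, q5, q6⟩

theorem nm_x_gate {D : SfDoc} {π : SfPar} {C0 τ κ0 t0 : ℝ} (hD : D.Fine π C0 τ κ0 t0) {j : ℝ} (h0 : 0 ≤ j) (h1 : j ≤ 1) :
    D.gt j ∈ D.G ∧ |D.gt j - j| ≤ t0 ∧ D.gt j ≤ 1 := by
  have hne : D.G.Nonempty := ⟨1, hD.ok.core.gate.1⟩
  have hG := nm_gt_mem D hne j
  exact ⟨hG, nm_gt_near hD h0 h1, (hD.ok.core.gate.2 _ hG).2⟩

theorem nm_x_mv (c : ℝ) {j j' t0 : ℝ} (h : |j' - j| ≤ t0) : c * j' - c * j ≤ |c| * t0 ∧ c * j - c * j' ≤ |c| * t0 := by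
  have h1 : |c * j' - c * j| ≤ |c| * t0 := by
    rw [← mul_sub, abs_mul]
    exact mul_le_mul_of_nonneg_left h (abs_nonneg _)
  have h2 := abs_le.1 h1
  exact ⟨h2.2, by linarith [h2.1]⟩

theorem nm_x_Cs_eq (π : SfPar) (t0 : ℝ) : π.Cs * t0 = 3 * t0 + 2 * (|π.q| * t0) + 2 * (|π.J| * t0) := by
  unfold SfPar.Cs; ring

theorem nm_x_pd_move {π : SfPar} {q : NmQ} {t0 j j' pm pm' a v : ℝ} (hjj : |j' - j| ≤ t0) (h : NmPd π q t0 0 (π.xpL j pm) a v)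
    (hpm : pm ≤ pm' + (|π.q| + |π.J|) * t0) : NmPd π q t0 (π.Cs * t0) (π.xpL j' pm') a v := by
  have ht0 := h.t0
  have he := nm_x_Cs_eq π t0
  have hd := abs_le.1 hjj
  obtain ⟨q1, q2⟩ := nm_x_mv π.q hjj
  obtain ⟨J1, J2⟩ := nm_x_mv π.J hjj
  have hA : 0 ≤ |π.q| * t0 := by positivity
  have hB : 0 ≤ |π.J| * t0 := by positivity
  have f1 := h.ha
  have f2 := h.hav
  have f3 := h.havv
  have f4 := h.hb
  have f5 := h.hba
  have f6 := h.hlv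
  have f7 := h.hl
  have f8 := h.hlp
  have f9 := h.hw
  have f10 := h.hw2
  have f11 := h.hhyb
  simp only [SfPar.xpL, SfPar.u, SfPar.b2, SfPar.n] at f1 f2 f3 f4 f5 f6 f7 f8 f9 f10
  refine ⟨by rw [he]; positivity, ht0, h.t1, ?_, ?_, ?_, ?_, ?_, ?_, ?_, ?_, ?_, ?_, ?_⟩ <;>
    try simp only [SfPar.xpL, SfPar.u, SfPar.b2, SfPar.n]
  · linarith
  · linarith
  · linarith
  · intro hc
    have := f4 hc
    linarith
  · intro hc
    have := f5 hc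
    linarith
  · linarith
  · linarith
  · linarith
  · linarith
  · linarith
  · intro hc
    have := f11 hc
    linarith

theorem nm_x_lw_le (q : NmQ) (π : SfPar) (a v : ℝ) (htp : q.tp ≠ NmTp.plin) :
    q.l π a v ≤ q.ds.b a + v ∧ q.w π a v ≤ q.ds.b a + 2 * v := by
  unfold NmQ.l NmQ.w
  cases h : q.tp with
  | quad => exact ⟨le_rfl, le_rfl⟩
  | clip => exact ⟨min_le_left _ _, by linarith [min_le_left (q.ds.b a + v) (π.b1 a)]⟩
  | plin => exact absurd h htp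

theorem nm_x_lw_plin (q : NmQ) (π : SfPar) (a v : ℝ) (htp : q.tp = NmTp.plin) :
    q.l π a v = π.b1 a ∧ q.w π a v = π.b1 a + v := by
  unfold NmQ.l NmQ.w
  rw [htp]
  exact ⟨rfl, rfl⟩

theorem nm_x_b1_move (π : SfPar) {j j' t0 : ℝ} (hjj : |j' - j| ≤ t0) : π.b1 j ≤ π.b1 j' + (|π.q| + |π.J|) * t0 := by
  obtain ⟨q1, q2⟩ := nm_x_mv π.q hjj
  obtain ⟨J1, J2⟩ := nm_x_mv π.J hjj
  unfold SfPar.b1
  linarith

/-- the admissible right excess: `lam0 = min {1/2, bs/2}`   (`w ≤ b a + 2 v ≤ n j`) -/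
def NmQ.lam0 (q : NmQ) : ℝ := min (1 / 2) (q.ds.bs / 2)

/-- **X5 (iv)**, family EQ, `b_1' > 0`, `j < 1`  (hybrid allowed if `w ≤ 0`) -/
theorem nm_x_right_eq (π : SfPar) (hπ : π.Valid) (hb : 0 < π.q - π.J) (C0 τ κ0 : ℝ) (q : NmQ) (hq : q.Ok π) (hc : 0 < π.c2) (hqc : π.q = π.c2)
    (hds : q.ds = nmDsEq π) (htp : q.tp ≠ NmTp.plin) (hg0 : q.g = 0) (a j v : ℝ) (ha : a ≤ j ∧ j < 1 ∧ 0 ≤ j) (hv : π.u j ≤ v)
    (hv' : v - π.u j ≤ q.lam0 * (j - a)) (hl : q.l π a v ≤ π.b1 j) (hh : π.hyb = true → q.w π a v ≤ 0) (acc : ℝ) (hacc : 0 < acc) :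
    ∃ t0 : ℝ, 0 < t0 ∧ ∀ D : SfDoc, D.Fine π C0 τ κ0 t0 → D.LabPr (D.gt j) (fun _ => True) (D.nm π q a v) (D.Xc v) (D.s ^ (-acc)) := by
  obtain ⟨t0, ht0, ht1, hgap, hneg, hsm⟩ := nm_x_t0 π (gap := (1 - j) / 2) (q.dep π a v + 2 * C0 + 2 * |π.q| + 7) hacc (by linarith [ha.2.1])
  refine ⟨t0, ht0, fun D hD => ?_⟩
  obtain ⟨hG, hjj, hj1⟩ := nm_x_gate hD ha.2.2 ha.2.1.le
  have hd := abs_le.1 hjj
  obtain ⟨-, q2, -, -⟩ := hsm D.s (π.Cs * t0) hD.ok.core.hs.1 hD.sm (mul_nonneg (nm_x_Cs_nonneg π) ht0.le) le_rfl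
  obtain ⟨l1, l2⟩ := nm_x_lw_le q π a v htp
  have hq0 : 0 < π.q := hqc ▸ hc
  have hja : 0 ≤ j - a := by linarith [ha.1]
  have hbb : q.ds.b a = π.q * (a - 1) := by
    rw [hds, hqc]; unfold NmDs.b nmDsEq; simp
  have hqa : π.q * a ≤ π.q * j := mul_le_mul_of_nonneg_left ha.1 hq0.le
  have h12 : v - π.u j ≤ 1 / 2 * (j - a) := hv'.trans (mul_le_mul_of_nonneg_right (min_le_left _ _) hja)
  have hq2 : v - π.u j ≤ π.q / 2 * (j - a) := by
    refine hv'.trans (mul_le_mul_of_nonneg_right ?_ hja)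
    unfold NmQ.lam0
    rw [hds, hqc]
    exact min_le_right _ _
  have hb1 : π.b1 j ≤ 0 := by
    unfold SfPar.b1
    nlinarith [ha.2.1]
  rw [hbb] at l1 l2
  have hbase : NmPd π q t0 0 (π.xpL j (min (π.b1 j) 0)) a v := by
    unfold SfPar.u at h12 hq2 hv
    unfold SfPar.b1 at hl
    refine ⟨le_rfl, ht0, ht1, ?_, ?_, ?_, ?_, ?_, ?_, ?_, ?_, ?_, ?_, ?_⟩ <;>
      try simp only [SfPar.xpL, SfPar.u, SfPar.b2, SfPar.n, hg0, hbb]
    · linarith [ha.1]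
    · linarith
    · linarith
    · intro _; linarith
    · intro hcut
      have h1 : 1 < π.c2 := by
        by_contra hn
        rw [hds] at hcut
        unfold nmDsEq at hcut
        simp [hn] at hcut
      rw [← hqc] at h1
      nlinarith [ha.1]
    · linarith
    · linarith
    · rw [min_eq_left hb1]
      unfold SfPar.b1
      linarith
    · linarith
    · linarith
    · intro hy
      linarith [hh hy]
  have hpd := nm_x_pd_move (pm' := min (π.b1 (D.gt j)) 0) hjj hbase (by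
    rw [← min_add_add_right]
    exact min_le_min (nm_x_b1_move π hjj) (by positivity))
  exact nm_labpr_mono (nm_pred_eq hD.ok hπ hc hqc hq hds hG (by linarith [hd.2]) hpd hneg) q2

/-- **X5 (iv)**, family LIN, `j < 1` -/
theorem nm_x_right_lin (π : SfPar) (hπ : π.Valid) (C0 τ κ0 : ℝ) (q : NmQ) (hq : q.Ok π) (hc : π.c2 = 0) (hc1 : 0 < π.c1) (hqc : π.q = π.c1 + π.J)
    (hds : q.ds = nmDsLin) (htp : q.tp = NmTp.plin) (hg0 : q.g = 0) (a j v : ℝ) (ha : a ≤ j ∧ j < 1 ∧ 0 ≤ j) (hv : π.u j ≤ v)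
    (hv' : v - π.u j ≤ min (1 / 2) π.c1 * (j - a)) (hh : π.hyb = true → q.w π a v ≤ 0) (acc : ℝ) (hacc : 0 < acc) :
    ∃ t0 : ℝ, 0 < t0 ∧ ∀ D : SfDoc, D.Fine π C0 τ κ0 t0 → D.LabPr (D.gt j) (fun _ => True) (D.nm π q a v) (D.Xc v) (D.s ^ (-acc)) := by
  obtain ⟨t0, ht0, ht1, hgap, hneg, hsm⟩ := nm_x_t0 π (gap := (1 - j) / 2) (q.dep π a v + 2 * C0 + 2 * |π.q| + 7) hacc (by linarith [ha.2.1])
  refine ⟨t0, ht0, fun D hD => ?_⟩
  obtain ⟨hG, hjj, hj1⟩ := nm_x_gate hD ha.2.2 ha.2.1.le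
  have hd := abs_le.1 hjj
  obtain ⟨-, q2, -, -⟩ := hsm D.s (π.Cs * t0) hD.ok.core.hs.1 hD.sm (mul_nonneg (nm_x_Cs_nonneg π) ht0.le) le_rfl
  obtain ⟨l1, l2⟩ := nm_x_lw_plin q π a v htp
  have hja : 0 ≤ j - a := by linarith [ha.1]
  have hcut : q.ds.cut = NmCut.none := by rw [hds]; rfl
  have h12 : v - π.u j ≤ 1 / 2 * (j - a) := hv'.trans (mul_le_mul_of_nonneg_right (min_le_left _ _) hja)
  have hq2 : v - π.u j ≤ π.c1 * (j - a) := hv'.trans (mul_le_mul_of_nonneg_right (min_le_right _ _) hja)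
  have hca : π.c1 * a ≤ π.c1 * j := mul_le_mul_of_nonneg_left ha.1 hc1.le
  have hbase : NmPd π q t0 0 (π.xpL j (π.b1 j)) a v := by
    unfold SfPar.u at h12 hq2 hv
    refine ⟨le_rfl, ht0, ht1, ?_, ?_, ?_, ?_, ?_, ?_, ?_, ?_, ?_, ?_, ?_⟩ <;>
      try simp only [SfPar.xpL, SfPar.u, SfPar.b2, SfPar.n, SfPar.b1, hg0, l1, l2, hqc]
    · linarith [ha.1]
    · linarith
    · linarith
    · intro h; exact absurd hcut h
    · intro h; rw [hcut] at h; exact absurd h (by simp)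
    · linarith
    · linarith
    · linarith
    · linarith
    · linarith
    · intro hy
      have := hh hy
      rw [l2] at this
      unfold SfPar.b1 at this
      rw [hqc] at this
      linarith
  have hpd := nm_x_pd_move (pm' := π.b1 (D.gt j)) hjj hbase (nm_x_b1_move π hjj)
  exact nm_labpr_mono (nm_pred_lin hD.ok hπ hc hc1 hqc hq hds hG (by linarith [hd.2]) hpd hneg) q2

theorem nm_x_sl (π : SfPar) {x t0 : ℝ} (ht0 : 0 ≤ t0) (h : |x| ≤ t0) : (|π.q| + 1) * |x| ≤ π.Cs * t0 := by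
  have h1 : (|π.q| + 1) * |x| ≤ (|π.q| + 1) * t0 := mul_le_mul_of_nonneg_left h (by positivity)
  have h2 : (|π.q| + 1) * t0 ≤ π.Cs * t0 := by
    apply mul_le_mul_of_nonneg_right _ ht0
    unfold SfPar.Cs
    have := abs_nonneg π.q; have := abs_nonneg π.J
    linarith
  exact h1.trans h2

theorem nm_x_str_base (π : SfPar) (hcl : π.hyb = false) (q : NmQ) (De : ℝ) (hds : q.ds = nmDsStr π De) (htp : q.tp ≠ NmTp.plin) (hg0 : q.g = 0)
    {t0 : ℝ} (ht0 : 0 < t0) (ht1 : t0 ≤ 1) (a v : ℝ) (ha : a ≤ De) (hv' : v - π.u De ≤ 1 / 2 * (De - a)) (hl : q.l π a v ≤ π.b1 De) :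
    NmPd π q t0 0 (π.xpL De (π.b1 De)) a v := by
  obtain ⟨l1, l2⟩ := nm_x_lw_le q π a v htp
  have hbb : q.ds.b a = π.q * (De - 1) + (a - De) := by
    rw [hds]; unfold NmDs.b nmDsStr SfPar.b2; simp
  have hcut : q.ds.cut = NmCut.const := by rw [hds]; rfl
  rw [hbb] at l1 l2
  unfold SfPar.u at hv'
  unfold SfPar.b1 at hl
  refine ⟨le_rfl, ht0, ht1, ?_, ?_, ?_, ?_, ?_, ?_, ?_, ?_, ?_, ?_, ?_⟩ <;>
    try simp only [SfPar.xpL, SfPar.u, SfPar.b2, SfPar.n, SfPar.b1, hg0, hbb]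
  · linarith
  · linarith
  · linarith
  · intro _; linarith
  · intro h; rw [hcut] at h; exact absurd h (by simp)
  · linarith
  · linarith
  · linarith
  · linarith
  · linarith
  · intro hy; rw [hcl] at hy; exact absurd hy (by simp)

/-- **X5 (iv)**, strict version, end point `De < 1`, classical;   `v = u De` : see `nm_x_end` -/
theorem nm_x_right_str (π : SfPar) (hπ : π.Valid) (hcl : π.hyb = false) (C0 τ κ0 : ℝ) (q : NmQ) (hq : q.Ok π) (De : ℝ) (hDe : 0 < De ∧ De < 1)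
    (hds : q.ds = nmDsStr π De) (htp : q.tp ≠ NmTp.plin) (hg0 : q.g = 0) (a v : ℝ) (ha : a ≤ De) (hv : π.u De ≤ v)
    (hv' : v - π.u De ≤ 1 / 2 * (De - a)) (hl : q.l π a v ≤ π.b1 De) (acc : ℝ) (hacc : 0 < acc) :
    ∃ t0 : ℝ, 0 < t0 ∧ ∀ D : SfDoc, D.Fine π C0 τ κ0 t0 → D.LabPr (D.gt De) (fun _ => True) (D.nm π q a v) (D.Xc v) (D.s ^ (-acc)) := by
  obtain ⟨t0, ht0, ht1, hgap, hneg, hsm⟩ := nm_x_t0 π (gap := (1 - De) / 2) (q.dep π a v + 2 * C0 + 2 * |π.q| + 7) hacc (by linarith [hDe.2])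
  refine ⟨t0, ht0, fun D hD => ?_⟩
  obtain ⟨hG, hjj, hj1⟩ := nm_x_gate hD hDe.1.le hDe.2.le
  have hd := abs_le.1 hjj
  obtain ⟨-, q2, -, -⟩ := hsm D.s (π.Cs * t0) hD.ok.core.hs.1 hD.sm (mul_nonneg (nm_x_Cs_nonneg π) ht0.le) le_rfl
  have hpd := nm_x_pd_move (pm' := π.b1 (D.gt De)) hjj (nm_x_str_base π hcl q De hds htp hg0 ht0 ht1 a v ha hv' hl) (nm_x_b1_move π hjj)
  exact nm_labpr_mono (nm_pred_str hD.ok hπ hcl hq hds hDe.2.ne (by linarith [hd.2]) (nm_x_sl π ht0.le hjj) hpd hneg) q2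

/-- **X5 (iv)**, last sentences: strict family, `λ_De` alone at `v = u De`, `De < 1`, classical -/
theorem nm_x_end (π : SfPar) (hπ : π.Valid) (hcl : π.hyb = false) (C0 τ κ0 : ℝ) (q : NmQ) (hq : q.Ok π) (De : ℝ) (hDe : 0 < De ∧ De < 1)
    (hds : q.ds = nmDsStr π De) (htp : q.tp ≠ NmTp.plin) (hg0 : q.g = 0) (a : ℝ) (ha : a ≤ De) (hl : q.l π a (π.u De) ≤ π.b1 De)
    (acc : ℝ) (hacc : 0 < acc) : ∃ t0 : ℝ, 0 < t0 ∧ ∀ D : SfDoc, D.Fine π C0 τ κ0 t0 →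
      D.LabPr (D.gt De) (fun _ => True) (D.nm π q a (π.u De)) (fun _ => ()) (D.s ^ (-acc)) := by
  obtain ⟨t0, ht0, ht1, hgap, hneg, hsm⟩ := nm_x_t0 π (gap := (1 - De) / 2) (q.dep π a (π.u De) + 2 * C0 + 2 * |π.q| + 7) hacc (by linarith [hDe.2])
  refine ⟨t0, ht0, fun D hD => ?_⟩
  obtain ⟨hG, hjj, hj1⟩ := nm_x_gate hD hDe.1.le hDe.2.le
  have hd := abs_le.1 hjj
  obtain ⟨q1, -, -, -⟩ := hsm D.s (π.Cs * t0) hD.ok.core.hs.1 hD.sm (mul_nonneg (nm_x_Cs_nonneg π) ht0.le) le_rfl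
  have hpd := nm_x_pd_move (pm' := π.b1 (D.gt De)) hjj
    (nm_x_str_base π hcl q De hds htp hg0 ht0 ht1 a (π.u De) ha (by linarith) hl) (nm_x_b1_move π hjj)
  have hu : π.u De ≤ π.u (D.gt De) + π.Cs * t0 := by
    obtain ⟨J1, J2⟩ := nm_x_mv π.J hjj
    have hA : 0 ≤ |π.q| * t0 := by positivity
    have hB : 0 ≤ |π.J| * t0 := by positivity
    rw [nm_x_Cs_eq]
    unfold SfPar.u
    linarith
  exact nm_labpr_mono (nm_pred_str_lab hD.ok hπ hcl hq hds hDe.2.ne (by linarith [hd.2]) (nm_x_sl π ht0.le hjj) hpd hneg hu) q1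

/-- **the own final label** (`De = 1`, all families, hybrid allowed if `w ≤ 0`): `(λ_1, X^(v))` predicts `𝒞(a,v)` if `a ≤ 1`, `a + 2 v ≤ 1`, `0 ≤ v`, `l ≤ 0`, `w ≤ 0` -/
theorem nm_x_own (π : SfPar) (hπ : π.Valid) (C0 τ κ0 : ℝ) (q : NmQ) (hq : q.Ok π) (hf : q.FamE π 1) (hg0 : q.g = 0) (a v : ℝ) (ha : a ≤ 1) (hv : 0 ≤ v)
    (hav : a + 2 * v ≤ 1) (hb : q.ds.cut ≠ NmCut.none → q.ds.b a ≤ 0) (hba : q.ds.cut = NmCut.slope → q.ds.b a - a ≤ -1)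
    (hl : q.l π a v ≤ 0) (hw : q.w π a v ≤ 0) (acc : ℝ) (hacc : 0 < acc) :
    ∃ t0 : ℝ, 0 < t0 ∧ ∀ D : SfDoc, D.Fine π C0 τ κ0 t0 → D.OwnPr (D.nm π q a v) (D.Xc v) (D.s ^ (-acc)) ∧
      (v = 0 → D.OwnPr (D.nm π q a v) (fun _ => ()) (D.s ^ (-acc))) := by
  obtain ⟨t0, ht0, ht1, hgap, hneg, hsm⟩ := nm_x_t0 π (gap := 1) (q.dep π a v + 2 * C0 + 2 * |π.q| + 7) hacc one_pos
  refine ⟨t0, ht0, fun D hD => ?_⟩
  have he0 : 0 ≤ π.Cs * t0 := mul_nonneg (nm_x_Cs_nonneg π) ht0.le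
  obtain ⟨q1, q2, -, -⟩ := hsm D.s (π.Cs * t0) hD.ok.core.hs.1 hD.sm he0 le_rfl
  have hpd : NmPd π q t0 (π.Cs * t0) (π.xpL 1 0) a v := by
    refine ⟨he0, ht0, ht1, ?_, ?_, ?_, ?_, ?_, ?_, ?_, ?_, ?_, ?_, ?_⟩ <;>
      try simp only [SfPar.xpL, SfPar.u, SfPar.b2, SfPar.n, hg0]
    · linarith
    · linarith
    · linarith
    · intro h; linarith [hb h]
    · intro h; linarith [hba h]
    · linarith
    · linarith
    · linarith
    · linarith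
    · linarith
    · intro _; linarith
  refine ⟨nm_ownpr_mono (nm_pred_own hD.ok hπ hq hf hpd hneg) q2, fun hv0 => ?_⟩
  exact nm_ownpr_mono (nm_pred_own_lab hD.ok hπ hq hf hpd hneg (by rw [hv0]; exact he0)) q1

/-! ## rows -/

theorem nm_rowpr_mono {D : SfDoc} {i : ℝ} {β : Type} {E E' : D.Row 1 → Prop} {B : D.Row 1 → β} {N N' : ℝ} (h : D.RowPr i E B N)
    (hE : ∀ ω, E' ω → E ω) (hN : N ≤ N') : D.RowPr i E' B N' := by
  intro ρ
  obtain ⟨S, hS, hm⟩ := h ρ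
  exact ⟨S, hS.trans hN, fun ω h1 h2 => hm ω h1 (hE ω h2)⟩

/-- a row of the gate near `i ≥ a` predicts `𝒞(a,v)`, family EQ;  NO upper bound for `v` -/
theorem nm_x_row_eq (π : SfPar) (hπ : π.Valid) (C0 τ κ0 : ℝ) (q : NmQ) (hq : q.Ok π) (hc : 0 < π.c2) (hqc : π.q = π.c2) (hds : q.ds = nmDsEq π)
    (htp : q.tp ≠ NmTp.plin) (a i v : ℝ) (ha : a ≤ i ∧ i < 1 ∧ 0 ≤ i) (hl : q.l π a v ≤ min (π.b1 i) 0)
    (hh : π.hyb = true → q.w π a v - q.g ≤ 0) (acc : ℝ) (hacc : 0 < acc) : ∃ t0 : ℝ, 0 < t0 ∧ ∀ D : SfDoc, D.Fine π C0 τ κ0 t0 →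
      D.RowPr (D.gt i) (fun _ => True) (D.nm π q a v) (D.s ^ (-acc)) := by
  obtain ⟨t0, ht0, ht1, hgap, hneg, hsm⟩ := nm_x_t0 π (gap := (1 - i) / 2) (q.dep π a v + 8 * C0 + 3 * |π.q| + 8) hacc (by linarith [ha.2.1])
  refine ⟨t0, ht0, fun D hD => ?_⟩
  obtain ⟨hG, hjj, hj1⟩ := nm_x_gate hD ha.2.2 ha.2.1.le
  have hd := abs_le.1 hjj
  have he0 : 0 ≤ π.Cs * t0 := mul_nonneg (nm_x_Cs_nonneg π) ht0.le
  obtain ⟨q1, -, -, q6⟩ := hsm D.s (π.Cs * t0) hD.ok.core.hs.1 hD.sm he0 le_rfl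
  obtain ⟨l1, l2⟩ := nm_x_lw_le q π a v htp
  have hq0 : 0 < π.q := hqc ▸ hc
  have hbb : q.ds.b a = π.q * (a - 1) := by
    rw [hds, hqc]; unfold NmDs.b nmDsEq; simp
  have hqa : π.q * a ≤ π.q * i := mul_le_mul_of_nonneg_left ha.1 hq0.le
  obtain ⟨m1, m2⟩ := nm_x_mv π.q hjj
  have hA : 0 ≤ |π.q| * t0 := by positivity
  have hB : 0 ≤ |π.J| * t0 := by positivity
  have he := nm_x_Cs_eq π t0
  rw [hbb] at l1
  have hpr : NmPr π q t0 (π.Cs * t0) (D.gt i) (π.b2 (D.gt i)) (π.b2 (D.gt i) - D.gt i) (min (π.b1 (D.gt i)) 0) a v := by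
    refine ⟨he0, ht0, ht1, ?_, ?_, ?_, ?_, ?_, ?_⟩ <;> try simp only [SfPar.b2, hbb]
    · linarith [ha.1]
    · intro _; linarith
    · intro hcut
      have h1 : 1 < π.c2 := by
        by_contra hn
        rw [hds] at hcut
        unfold nmDsEq at hcut
        simp [hn] at hcut
      rw [← hqc] at h1
      nlinarith [ha.1]
    · linarith
    · have h1 : min (π.b1 i) 0 ≤ min (π.b1 (D.gt i)) 0 + (|π.q| + |π.J|) * t0 := by
        rw [← min_add_add_right]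
        exact min_le_min (nm_x_b1_move π hjj) (by positivity)
      linarith
    · intro hy; linarith [hh hy]
  exact nm_rowpr_mono (nm_row_eq hD.ok hπ q6 hc hqc hq hds hG (by linarith [hd.2]) hpr hneg) (fun _ h => h) q1

/-- family LIN -/
theorem nm_x_row_lin (π : SfPar) (hπ : π.Valid) (C0 τ κ0 : ℝ) (q : NmQ) (hq : q.Ok π) (hc : π.c2 = 0) (hds : q.ds = nmDsLin)
    (a i v : ℝ) (ha : a ≤ i ∧ i < 1 ∧ 0 ≤ i) (hl : q.l π a v ≤ π.b1 i)
    (hh : π.hyb = true → q.w π a v - q.g ≤ 0) (acc : ℝ) (hacc : 0 < acc) : ∃ t0 : ℝ, 0 < t0 ∧ ∀ D : SfDoc, D.Fine π C0 τ κ0 t0 →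
      D.RowPr (D.gt i) (fun _ => True) (D.nm π q a v) (D.s ^ (-acc)) := by
  obtain ⟨t0, ht0, ht1, hgap, hneg, hsm⟩ := nm_x_t0 π (gap := (1 - i) / 2) (q.dep π a v + 8 * C0 + 2 * |π.q| + 7) hacc (by linarith [ha.2.1])
  refine ⟨t0, ht0, fun D hD => ?_⟩
  obtain ⟨hG, hjj, hj1⟩ := nm_x_gate hD ha.2.2 ha.2.1.le
  have hd := abs_le.1 hjj
  have he0 : 0 ≤ π.Cs * t0 := mul_nonneg (nm_x_Cs_nonneg π) ht0.le
  obtain ⟨q1, -, -, q6⟩ := hsm D.s (π.Cs * t0) hD.ok.core.hs.1 hD.sm he0 le_rfl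
  have hA : 0 ≤ |π.q| * t0 := by positivity
  have hB : 0 ≤ |π.J| * t0 := by positivity
  have he := nm_x_Cs_eq π t0
  have h1 := nm_x_b1_move π hjj
  exact nm_rowpr_mono (nm_row_lin hD.ok hπ q6 hc hq hds hG (by linarith [hd.2]) he0 ⟨ht0, ht1⟩ (by linarith [ha.1]) (by linarith)
    (fun hy => by linarith [hh hy]) hneg) (fun _ h => h) q1

/-- strict family, `i` before the end point -/
theorem nm_x_row_mid (π : SfPar) (hπ : π.Valid) (C0 τ κ0 : ℝ) (q : NmQ) (hq : q.Ok π) (hq1 : π.q < 1) (De : ℝ) (hDe : 0 < De ∧ De ≤ 1)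
    (hhD : π.hyb = true → De = 1) (hds : q.ds = nmDsStr π De) (htp : q.tp ≠ NmTp.plin) (a i v : ℝ) (ha : a ≤ i ∧ i < De ∧ 0 ≤ i)
    (hl : q.l π a v ≤ min (π.b1 i) (π.b1 De)) (hh : π.hyb = true → q.w π a v - q.g ≤ 0) (acc : ℝ) (hacc : 0 < acc) :
    ∃ t0 : ℝ, 0 < t0 ∧ ∀ D : SfDoc, D.Fine π C0 τ κ0 t0 → D.RowPr (D.gt i) (fun _ => True) (D.nm π q a v) (D.s ^ (-acc)) := by
  obtain ⟨g, hg⟩ : ∃ g : ℝ, g = if De < 1 then (1 - De) / 2 else 1 := ⟨_, rfl⟩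
  have hg0 : 0 < g := by
    rw [hg]; split_ifs with h
    · linarith
    · norm_num
  obtain ⟨t0, ht0, ht1, hgap, hneg, hsm⟩ := nm_x_t0 π (gap := min ((De - i) / 3) g) (q.dep π a v + 8 * C0 + 3 * |π.q| + 8) hacc
    (lt_min (by linarith [ha.2.1]) hg0)
  refine ⟨t0, ht0, fun D hD => ?_⟩
  obtain ⟨hG, hjj, hj1⟩ := nm_x_gate hD ha.2.2 (ha.2.1.le.trans hDe.2)
  obtain ⟨hGD, hDD, hD1⟩ := nm_x_gate hD hDe.1.le hDe.2
  have hd := abs_le.1 hjj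
  have hdD := abs_le.1 hDD
  have hb1 : t0 ≤ (De - i) / 3 := hgap.trans (min_le_left _ _)
  have hb2 : t0 ≤ g := hgap.trans (min_le_right _ _)
  have he0 : 0 ≤ π.Cs * t0 := mul_nonneg (nm_x_Cs_nonneg π) ht0.le
  obtain ⟨-, -, q5, q6⟩ := hsm D.s (π.Cs * t0) hD.ok.core.hs.1 hD.sm he0 le_rfl
  obtain ⟨l1, l2⟩ := nm_x_lw_le q π a v htp
  have hE : D.EndOk π De := by
    by_cases h1 : De = 1
    · exact Or.inl h1
    · have hlt : De < 1 := lt_of_le_of_ne hDe.2 h1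
      refine Or.inr ⟨h1, ?_, ?_⟩
      · have : g = (1 - De) / 2 := by rw [hg, if_pos hlt]
        linarith [hdD.2]
      · cases hy : π.hyb with
        | false => rfl
        | true => exact absurd (hhD hy) h1
  have hbb : q.ds.b a = π.q * (De - 1) + (a - De) := by
    rw [hds]; unfold NmDs.b nmDsStr SfPar.b2; simp
  have hcut : q.ds.cut = NmCut.const := by rw [hds]; rfl
  have hA : 0 ≤ |π.q| * t0 := by positivity
  have hB : 0 ≤ |π.J| * t0 := by positivity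
  have he := nm_x_Cs_eq π t0
  rw [hbb] at l1
  have hbi : (nmDsStr π De).b (D.gt i) = π.q * (De - 1) + (D.gt i - De) := by
    unfold NmDs.b nmDsStr SfPar.b2; simp
  have hpr : NmPr π q t0 (π.Cs * t0) (D.gt i) ((nmDsStr π De).b (D.gt i)) (π.b2 De - De) (min (π.b1 (D.gt i)) (π.b1 (D.gt De))) a v := by
    refine ⟨he0, ht0, ht1, ?_, ?_, ?_, ?_, ?_, ?_⟩ <;> try simp only [hbb, hbi]
    · linarith [ha.1]
    · intro _; linarith [ha.1]
    · intro h; rw [hcut] at h; exact absurd h (by simp)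
    · linarith [ha.1]
    · have h1 : min (π.b1 i) (π.b1 De) ≤ min (π.b1 (D.gt i)) (π.b1 (D.gt De)) + (|π.q| + |π.J|) * t0 := by
        rw [← min_add_add_right]
        exact min_le_min (nm_x_b1_move π hjj) (nm_x_b1_move π hDD)
      linarith
    · intro hy; linarith [hh hy]
  exact nm_rowpr_mono (nm_row_mid hD.ok hπ q6 hq1 hq hE hds (nm_x_sl π ht0.le hDD) ⟨hDe.1.le, hDe.2⟩ hG (by linarith [hd.2, hdD.1]) hpr hneg)
    (fun _ h => h) q5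

theorem nm_pred_exit_eqns_cite : True := by
  have := @SfPar.Cs.eq_1; have := @NmQ.lam0.eq_1
  trivial

end

end Claimed.Agent.R256
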