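import Claimed.Agent.R256.Nm.Base
import Claimed.Agent.R256.Nm.Pred.Exit

/-!
# Row 256, unit NM, sub-block NM-PRED, file 7: THE CONTRACT STATEMENTS X4, X5 VERBATIM      (helper51; prefix `nm_c_`)

`nm_c_strict`, `nm_c_pred_left`, `nm_c_pred_right`, `nm_c_pred_end` = `nm_strict`, `nm_pred_left`, `nm_pred_right`, `nm_pred_end` of `Nm/Contract.lean` (the contract cites them).
PLAN: unfold `NmA`, `NmQ.Fam`; case distinction on the family (EQ / LIN / ST; LIN: `π.q = π.c1 + π.J` from `hπ.fam`), `q.Ok π` = `nm_fam_ok`; apply `Pred/Exit.lean`: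
* strict: `nm_x_strict`.      * left: `nm_x_left_eq`, `nm_x_left_lin` with `v = u j`.
* right: `lam0 = min {1/2, q.ds.bs / 2 (EQ, ST), π.Cr}`;  `j < 1`: `nm_x_right_eq`, `nm_x_right_lin`, `nm_x_right_str`;  `j = 1` (then `D.gt 1 = 1`, `nm_gt_self`): `nm_x_own` + `nm_labpr_one`.
* end: `De < 1` (classical by `Fam`): `nm_x_end`;  `De = 1`: `nm_x_own` at `v = u 1 = 0`.
-/

set_option autoImplicit false

namespace Claimed.Agent.R256

open Claimed.Agent.R255
open Classical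

noncomputable section

theorem nm_c_strict (π : SfPar) (hπ : π.Valid) (C0 τ κ0 : ℝ) (q : NmQ) (hq : q.Fam π) (hg : q.ds.glob = true) (i : ℝ) (hi : 0 < i ∧ i < q.ds.De) :
    NmA π C0 τ κ0 fun acc D => D.LabPr (D.gt i) (fun _ => True) (fun ω => (D.raw π q.ds ω).kb) (fun _ => ()) (D.s ^ (-acc)) ∧
      ∀ (ρ : D.Row (D.gt i)) (ω : D.Row 1), D.Conn (D.gt i) 1 ρ ω → (D.P 1).p ω ≠ 0 →
        |(D.lab (D.gt i) ρ).K - D.kbar π q.ds ω| ≤ D.s ^ (π.b2 q.ds.De - q.ds.De - acc) ∧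
        |(D.raw π q.ds ω).be - ((D.lab (D.gt i) ρ).be - D.kbar π q.ds ω * (D.lab (D.gt i) ρ).T)| ≤ D.s ^ (q.ds.b i - acc) := by
  obtain ⟨-, -, h⟩ := hq
  rcases h with ⟨-, -, h3, -⟩ | ⟨-, -, h3, -⟩ | ⟨-, hq1, -, De, hD0, hD1, hhD, h3⟩
  · rw [h3] at hg; cases hg
  · rw [h3] at hg; cases hg
  · rw [h3] at hi ⊢
    intro acc hacc
    obtain ⟨t0, ht0, h⟩ := nm_x_strict π C0 τ κ0 hq1 De ⟨hD0, hD1⟩ hhD i hi acc hacc
    refine ⟨t0, ht0, fun D hD _ => ?_⟩
    obtain ⟨e1, e2⟩ := h D hD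
    exact ⟨e1, fun ρ ω hc _ => e2 ρ ω hc⟩

theorem nm_c_pred_left (π : SfPar) (hπ : π.Valid) (C0 τ κ0 : ℝ) (q : NmQ) (hq : q.Fam π) (hg : q.ds.glob = false) (hg0 : q.g = 0) (hJ : 0 < π.J)
    (a j : ℝ) (ha : 0 ≤ a ∧ a < j ∧ j < 1) (hl : q.l π a (π.u j) ≤ min (π.b1 j) 0) (hh : π.hyb = true → q.w π a (π.u j) < 0) :
    NmA π C0 τ κ0 fun acc D => D.LabPr (D.gt j) (fun _ => True) (D.nm π q a (π.u j)) (fun _ => ()) (D.s ^ (-acc)) := by
  have hok := nm_fam_ok π hπ q hq
  have hh' : π.hyb = true → q.w π a (π.u j) - q.g ≤ 0 := by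
    intro hy
    have := hh hy
    rw [hg0]; linarith
  obtain ⟨-, -, h⟩ := hq
  intro acc hacc
  rcases h with ⟨hc, hqc, h3, htp⟩ | ⟨hc, hc1, h3, htp⟩ | ⟨-, -, -, De, -, -, -, h3⟩
  · obtain ⟨t0, ht0, h⟩ := nm_x_left_eq π hπ C0 τ κ0 q hok hc hqc h3 htp a j (π.u j) ⟨ha.2.1.le, ha.2.2, by linarith [ha.1, ha.2.1]⟩ le_rfl hl hh' acc hacc
    exact ⟨t0, ht0, fun D hD _ => h D hD⟩
  · have hqc : π.q = π.c1 + π.J := by
      rcases hπ.fam with ⟨g1, -⟩ | ⟨g1, -⟩ | ⟨-, -, g3⟩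
      · rw [hc] at g1; exact absurd g1 (lt_irrefl _)
      · rw [hc] at g1; norm_num at g1
      · exact g3
    obtain ⟨t0, ht0, h⟩ := nm_x_left_lin π hπ C0 τ κ0 q hok hc hc1 hqc h3 htp a j (π.u j) ⟨ha.2.1.le, ha.2.2, by linarith [ha.1, ha.2.1]⟩ le_rfl
      (by have := mul_pos hc1 (sub_pos.2 ha.2.1); linarith) hh' acc hacc
    exact ⟨t0, ht0, fun D hD _ => h D hD⟩
  · rw [h3] at hg; cases hg

theorem nm_c_pred_right (π : SfPar) (hπ : π.Valid) (hc : π.hyb = false) (hb : 0 < π.Cr) (C0 τ κ0 : ℝ) (q : NmQ) (hq : q.Fam π) (hg0 : q.g = 0) :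
    ∃ lam0 : ℝ, 0 < lam0 ∧ ∀ a j v : ℝ, 0 < a → a < j → j ≤ q.ds.De → (q.ds.glob = true → j = q.ds.De) → π.u j ≤ v → v - π.u j ≤ lam0 * (j - a) →
      q.l π a v ≤ π.b1 j →
      NmA π C0 τ κ0 fun acc D => D.LabPr (D.gt j) (fun _ => True) (D.nm π q a v) (D.Xc v) (D.s ^ (-acc)) := by
  have hok := nm_fam_ok π hπ q hq
  have hu1 : π.u 1 = 0 := by rw [SfPar.u]; ring
  have hb11 : π.b1 1 = 0 := by rw [SfPar.b1]; ring
  have hCr : π.Cr = π.q - π.J := rfl
  have hhv : ∀ a v : ℝ, π.hyb = true → q.w π a v ≤ 0 := by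
    intro a v hy
    rw [hc] at hy; cases hy
  obtain ⟨-, -, h⟩ := hq
  rcases h with ⟨hc2, hqc, h3, htp⟩ | ⟨hc2, hc1, h3, htp⟩ | ⟨hc2, hq1, htp, De, hD0, hD1, hhD, h3⟩
  · -- EQ
    have hbs : q.ds.bs = π.c2 := by rw [h3]; rfl
    have hDe : q.ds.De = 1 := by rw [h3]; rfl
    have hl0 : 0 < q.lam0 := by
      unfold NmQ.lam0
      rw [hbs]
      exact lt_min (by norm_num) (by linarith)
    refine ⟨min q.lam0 π.Cr, lt_min hl0 hb, ?_⟩
    intro a j v ha haj hj _ hv hv' hl acc hacc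
    rw [hDe] at hj
    have hja : 0 < j - a := sub_pos.2 haj
    have e1 : v - π.u j ≤ q.lam0 * (j - a) := hv'.trans (mul_le_mul_of_nonneg_right (min_le_left _ _) hja.le)
    have e2 : v - π.u j ≤ π.Cr * (j - a) := hv'.trans (mul_le_mul_of_nonneg_right (min_le_right _ _) hja.le)
    rcases hj.lt_or_eq with hlt | heq
    · obtain ⟨t0, ht0, h⟩ := nm_x_right_eq π hπ hb C0 τ κ0 q hok hc2 hqc h3 htp hg0 a j v ⟨haj.le, hlt, by linarith⟩ hv e1 hl (hhv a v) acc hacc
      exact ⟨t0, ht0, fun D hD _ => h D hD⟩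
    · subst heq
      rw [hu1] at hv e1 e2
      rw [hb11] at hl
      have e3 : v ≤ 1 / 2 * (1 - a) := by
        have := mul_le_mul_of_nonneg_right (min_le_left (1 / 2) (q.ds.bs / 2)) hja.le
        unfold NmQ.lam0 at e1
        linarith
      have e4 : v ≤ π.c2 / 2 * (1 - a) := by
        have := mul_le_mul_of_nonneg_right (min_le_right (1 / 2) (q.ds.bs / 2)) hja.le
        unfold NmQ.lam0 at e1
        rw [hbs] at this e1
        linarith
      have hba : q.ds.b a = π.c2 * (a - 1) := by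
        rw [h3, NmDs.b]
        simp only [nmDsEq]
        ring
      have hw : q.w π a v ≤ 0 := by
        unfold NmQ.w
        cases htq : q.tp with
        | quad => simp only; rw [hba]; linarith
        | clip =>
          simp only
          have := min_le_right (q.ds.b a + v) (π.b1 a)
          have hb1a : π.b1 a = π.Cr * (a - 1) := rfl
          rw [hb1a] at this ⊢
          linarith
        | plin => exact absurd htq htp
      obtain ⟨t0, ht0, h⟩ := nm_x_own π hπ C0 τ κ0 q hok (Or.inl ⟨hc2, hqc, h3, rfl⟩) hg0 a v haj.le hv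
        (by linarith) (fun _ => by rw [hba]; nlinarith) (fun hcut => by
          rw [hba]
          have h1 : 1 < π.c2 := by
            by_contra h5
            rw [h3] at hcut
            simp only [nmDsEq] at hcut
            rw [if_neg h5] at hcut
            cases hcut
          nlinarith)
        hl hw acc hacc
      refine ⟨t0, ht0, fun D hD _ => ?_⟩
      show D.LabPr (D.gt 1) (fun _ => True) (D.nm π q a v) (D.Xc v) (D.s ^ (-acc))
      rw [nm_gt_self D hD.ok.core.gate.1]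
      exact nm_labpr_one (h D hD).1
  · -- LIN
    have hqc : π.q = π.c1 + π.J := by
      rcases hπ.fam with ⟨g1, -⟩ | ⟨g1, -⟩ | ⟨-, -, g3⟩
      · rw [hc2] at g1; exact absurd g1 (lt_irrefl _)
      · rw [hc2] at g1; norm_num at g1
      · exact g3
    have hDe : q.ds.De = 1 := by rw [h3]; rfl
    refine ⟨min (1 / 2) π.c1, lt_min (by norm_num) hc1, ?_⟩
    intro a j v ha haj hj _ hv hv' hl acc hacc
    rw [hDe] at hj
    have hja : 0 < j - a := sub_pos.2 haj
    rcases hj.lt_or_eq with hlt | heq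
    · obtain ⟨t0, ht0, h⟩ := nm_x_right_lin π hπ C0 τ κ0 q hok hc2 hc1 hqc h3 htp hg0 a j v ⟨haj.le, hlt, by linarith⟩ hv hv' (hhv a v) acc hacc
      exact ⟨t0, ht0, fun D hD _ => h D hD⟩
    · subst heq
      rw [hu1] at hv hv'
      rw [hb11] at hl
      have e3 : v ≤ 1 / 2 * (1 - a) := by
        have := mul_le_mul_of_nonneg_right (min_le_left (1 / 2) π.c1) hja.le
        linarith
      have e4 : v ≤ π.c1 * (1 - a) := by
        have := mul_le_mul_of_nonneg_right (min_le_right (1 / 2) π.c1) hja.le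
        linarith
      have hw : q.w π a v ≤ 0 := by
        unfold NmQ.w
        rw [htp]
        simp only
        rw [SfPar.b1, hqc]
        linarith
      obtain ⟨t0, ht0, h⟩ := nm_x_own π hπ C0 τ κ0 q hok (Or.inr (Or.inl ⟨hc2, hc1, hqc, h3, rfl⟩)) hg0 a v haj.le hv
        (by linarith) (fun hcut => by rw [h3] at hcut; exact absurd rfl hcut) (fun hcut => by rw [h3] at hcut; cases hcut)
        hl hw acc hacc
      refine ⟨t0, ht0, fun D hD _ => ?_⟩
      show D.LabPr (D.gt 1) (fun _ => True) (D.nm π q a v) (D.Xc v) (D.s ^ (-acc))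
      rw [nm_gt_self D hD.ok.core.gate.1]
      exact nm_labpr_one (h D hD).1
  · -- ST
    have hDe : q.ds.De = De := by rw [h3]; rfl
    have hgl : q.ds.glob = true := by rw [h3]; rfl
    refine ⟨1 / 2, by norm_num, ?_⟩
    intro a j v ha haj hj hjD hv hv' hl acc hacc
    have hjj : j = De := by rw [hjD hgl, hDe]
    subst hjj
    have hja : 0 < j - a := sub_pos.2 haj
    rcases hD1.lt_or_eq with hlt | heq
    · obtain ⟨t0, ht0, h⟩ := nm_x_right_str π hπ hc C0 τ κ0 q hok j ⟨hD0, hlt⟩ h3 htp hg0 a v haj.le hv hv' hl acc hacc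
      exact ⟨t0, ht0, fun D hD _ => h D hD⟩
    · subst heq
      rw [hu1] at hv hv'
      rw [hb11] at hl
      have hba : q.ds.b a = a - 1 := by
        rw [h3, NmDs.b]
        simp only [nmDsStr, SfPar.b2]
        ring
      have hw : q.w π a v ≤ 0 := by
        unfold NmQ.w
        cases htq : q.tp with
        | quad => simp only; rw [hba]; linarith
        | clip =>
          simp only
          have := min_le_left (q.ds.b a + v) (π.b1 a)
          rw [hba] at this ⊢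
          linarith
        | plin => exact absurd htq htp
      obtain ⟨t0, ht0, h⟩ := nm_x_own π hπ C0 τ κ0 q hok (Or.inr (Or.inr ⟨hc2, hq1, h3⟩)) hg0 a v haj.le hv
        (by linarith) (fun _ => by rw [hba]; linarith) (fun hcut => by rw [h3] at hcut; cases hcut)
        hl hw acc hacc
      refine ⟨t0, ht0, fun D hD _ => ?_⟩
      show D.LabPr (D.gt 1) (fun _ => True) (D.nm π q a v) (D.Xc v) (D.s ^ (-acc))
      rw [nm_gt_self D hD.ok.core.gate.1]
      exact nm_labpr_one (h D hD).1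

theorem nm_c_pred_end (π : SfPar) (hπ : π.Valid) (C0 τ κ0 : ℝ) (q : NmQ) (hq : q.Fam π) (hg : q.ds.glob = true) (hg0 : q.g = 0)
    (a : ℝ) (ha : 0 < a ∧ a < q.ds.De) (hl : q.l π a (π.u q.ds.De) ≤ π.b1 q.ds.De) (hh : π.hyb = true → q.w π a (π.u q.ds.De) < 0) :
    NmA π C0 τ κ0 fun acc D => D.LabPr (D.gt q.ds.De) (fun _ => True) (D.nm π q a (π.u q.ds.De)) (fun _ => ()) (D.s ^ (-acc)) := by
  have hok := nm_fam_ok π hπ q hq
  obtain ⟨-, -, h⟩ := hq
  intro acc hacc
  rcases h with ⟨-, -, h3, -⟩ | ⟨-, -, h3, -⟩ | ⟨hc2, hq1, htp, De, hD0, hD1, hhD, h3⟩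
  · rw [h3] at hg; cases hg
  · rw [h3] at hg; cases hg
  · have hDe : q.ds.De = De := by rw [h3]; rfl
    rw [hDe] at ha hl hh ⊢
    rcases hD1.lt_or_eq with hlt | heq
    · have hcl : π.hyb = false := by
        cases hy : π.hyb with
        | false => rfl
        | true => exact absurd (hhD hy) hlt.ne
      obtain ⟨t0, ht0, h⟩ := nm_x_end π hπ hcl C0 τ κ0 q hok De ⟨hD0, hlt⟩ h3 htp hg0 a ha.2.le hl acc hacc
      exact ⟨t0, ht0, fun D hD _ => h D hD⟩
    · subst heq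
      have hu : π.u 1 = 0 := by rw [SfPar.u]; ring
      have hb1 : π.b1 1 = 0 := by rw [SfPar.b1]; ring
      have hb : q.ds.b a = a - 1 := by
        rw [h3, NmDs.b]
        simp only [nmDsStr, SfPar.b2]
        ring
      have hw : q.w π a (π.u 1) ≤ 0 := by
        rw [hu]
        unfold NmQ.w
        cases htq : q.tp with
        | quad => simp only; rw [hb]; linarith [ha.2]
        | clip =>
          simp only
          have := min_le_left (q.ds.b a + 0) (π.b1 a)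
          rw [hb] at this ⊢
          linarith [ha.2]
        | plin => exact absurd htq htp
      obtain ⟨t0, ht0, h⟩ := nm_x_own π hπ C0 τ κ0 q hok (Or.inr (Or.inr ⟨hc2, hq1, h3⟩)) hg0 a (π.u 1) ha.2.le hu.ge
        (by rw [hu]; linarith [ha.2]) (fun _ => by rw [hb]; linarith [ha.2]) (fun hcut => by rw [h3] at hcut; cases hcut)
        (by rw [hb1] at hl; exact hl) hw acc hacc
      refine ⟨t0, ht0, fun D hD _ => ?_⟩
      show D.LabPr (D.gt 1) (fun _ => True) (D.nm π q a (π.u 1)) (fun _ => ()) (D.s ^ (-acc))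
      rw [nm_gt_self D hD.ok.core.gate.1]
      exact nm_labpr_one ((h D hD).2 hu)

end

end Claimed.Agent.R256
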