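import Claimed.Agent.R256.Nm.Pred.Geo

/-!
# Row 256, unit NM, sub-block NM-PRED, file 2: A TEST OF A DOCUMENTED CONFIGURATION FITS THE RAW DATA OF ITS COMPLETING PATHS      (helper51; prefix `nm_`)

Input: `SfDoc.Ok` (`R256/Soft/Doc.lean`) only.     `t` = tolerance, `e` = slack of the exponent inequalities (approximated gates), `M = nmMp s t e = 1000 s^(-6(t+e))`.
The predictor is a test `Q` with duration `ℓ ≤ s^(j-t)`, widths `r ≤ s^(U-t)`, `f ≤ s^(Nf-t)`, negligible error `ν`, curvature / slope / derivative discrepancies `s^bR`, `s^bK`, `s^pm` : exponents `X : NmXp`.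
TWO INSTANCES:  the LABEL of a gate `j` (`π.xpL j pm`: `U = u j`, `Nf = n j`, `bR = b2 j`, `bK = b2 j - j`; `ν = D.nu0 C0 t`; this file + `Pred/Fam.lean`, `Pred/Main.lean`);   the ROW of a gate (`r = f = 0`, `U`, `Nf` free; `Pred/Row.lean`).
* gates: `nm_gt_self`, `nm_gt_mem`, `nm_gt_near`;  labels: `nm_labAt_one`, `nm_labAt_eq` (classical: the encountered label is THE label of every connected row).
* `D.Geo π t ℓ r f ν Q ω` : the final ray of `ω` lies in the test `Q` (widths + hybrid drift + `ν`).   `nm_conn_geo` (`Conn j 1 ρ ω`), `nm_own_geo` (`j = 1`, own label).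
* `D.Cur π q t e X ν Q ω` : curvature data and derivative of the display agree with `Q`.     Families: `Pred/Fam.lean`.
* `NmPd π q t e X a v` : the exponent inequalities.     `nm_pd_ok` : the widths `nmWp` are admissible (no `SfDoc`);     `nm_fit_doc` : `Geo + Cur + NmPd ⇒ NmFit`.
-/

set_option autoImplicit false

namespace Claimed.Agent.R256

open Claimed.Agent.R255
open Classical

noncomputable section

/-- the loss factor -/
def nmMp (s t e : ℝ) : ℝ := 1000 * s ^ (-(6 * (t + e)))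

/-- the largest depth read by a name -/
def NmQ.dep (q : NmQ) (π : SfPar) (a v : ℝ) : ℝ :=
  max v (max (a + v) (max (a + 2 * v) (max (q.l π a v) (max (q.w π a v - q.g) (a + q.w π a v - q.g)))))

/-- the exponents of a predictor -/
structure NmXp where
  j : ℝ
  U : ℝ
  Nf : ℝ
  bR : ℝ
  bK : ℝ
  pm : ℝ

/-- the exponents of the label of the gate `j`; `pm` = exponent of the derivative comparison -/
def SfPar.xpL (π : SfPar) (j pm : ℝ) : NmXp := ⟨j, π.u j, π.n j, π.b2 j, π.b2 j - j, pm⟩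

namespace SfDoc

variable (D : SfDoc) (π : SfPar)

/-- the negligible term of the geometry of labels -/
def nu0 (C0 t : ℝ) : ℝ := 14 * D.s ^ (1 / t - 2 * C0)

/-- the negligible term of the derivative -/
def nu (C0 t : ℝ) : ℝ := 100 * D.s ^ (1 / t - 2 * C0 - |π.q| - 3)

/-- the hybrid drift of the normal velocity -/
def dN (t : ℝ) : ℝ := if π.hyb = true then D.s ^ (-(2 * t)) else 0

/-- the final ray of `ω` lies in the test `Q` with the duration `ℓ` and the widths `r`, `f` -/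
structure Geo (t ℓ r f ν : ℝ) (Q : SfTest) (ω : D.Row 1) : Prop where
  T0 : Q.T ≤ D.T 1 ω
  T1 : D.T 1 ω ≤ Q.T + ℓ
  X : |(D.ray 1 ω).X - Q.x| ≤ r + ν
  B : |(D.ray 1 ω).Bt Q.T - Q.b| ≤ ℓ * r + ν
  Y : |Q.eY (D.ray 1 ω)| ≤ 3 * (ℓ * r ^ 2) + ν
  N : |Q.eN (D.ray 1 ω)| ≤ f + D.dN π t + ν
  Dd : |Q.eD (D.ray 1 ω)| ≤ ℓ * f + 2 * ℓ * D.dN π t + ν

/-- curvature data and derivative of the display `q.ds` on `ω` agree with the (residual) test `Q` -/
structure Cur (q : NmQ) (t e : ℝ) (X : NmXp) (ν : ℝ) (Q : SfTest) (ω : D.Row 1) : Prop where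
  R : |(D.raw π q.ds ω).RrawAt q Q.T - (Q.res (D.kbar π q.ds ω)).be| ≤ 3 * D.s ^ (X.bR - 2 * t - e)
  k : |(D.raw π q.ds ω).kraw q - (Q.res (D.kbar π q.ds ω)).K| ≤ 2 * D.s ^ (X.bK - 2 * t - e)
  P : |(D.raw π q.ds ω).P - (Q.res (D.kbar π q.ds ω)).Pd (D.raw π q.ds ω).z| ≤ 6 * D.s ^ (X.pm - 4 * t - e) + ν

end SfDoc

/-- **the exponent inequalities** under which a predictor with the exponents `X`, together with `X^(v)`, predicts `𝒞(a,v)`;   `e` = slack -/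
structure NmPd (π : SfPar) (q : NmQ) (t e : ℝ) (X : NmXp) (a v : ℝ) : Prop where
  e0 : 0 ≤ e
  t0 : 0 < t
  t1 : t ≤ 1
  ha : a ≤ X.j + e
  hav : a + v ≤ X.j + X.U + e
  havv : a + 2 * v ≤ X.j + 2 * X.U + e
  hb : q.ds.cut ≠ NmCut.none → q.ds.b a ≤ X.bR + e
  hba : q.ds.cut = NmCut.slope → q.ds.b a - a ≤ X.bK + e
  hlv : q.l π a v ≤ X.bR + v + e
  hl : q.l π a v ≤ X.bK + X.j + X.U + e
  hlp : q.l π a v ≤ X.pm + e
  hw : q.w π a v - q.g ≤ X.Nf + e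
  hw2 : q.w π a v - q.g ≤ X.bK + X.j + 2 * X.U + e
  hhyb : π.hyb = true → q.w π a v - q.g ≤ e

/-- the size of a negligible term -/
def NmXp.Neg (X : NmXp) (π : SfPar) (q : NmQ) (s e a v ν : ℝ) : Prop := 0 ≤ ν ∧ ν ≤ 100 * s ^ (q.dep π a v + |X.bK| + 3 + e)

/-- the widths of the fit -/
def nmWp (s t e ℓ r ν : ℝ) (X : NmXp) : NmFw where
  M := nmMp s t e
  lam := ℓ * r + ν
  mu := 3 * (ℓ * r ^ 2) + ν
  sg := 3 * s ^ (X.bR - 2 * t - e)
  kp := 2 * s ^ (X.bK - 2 * t - e)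

/-! ## gates and labels -/

theorem nm_gt_self (D : SfDoc) {i : ℝ} (hi : i ∈ D.G) : D.gt i = i := by
  have h : D.G.Nonempty := ⟨i, hi⟩
  unfold SfDoc.gt
  rw [dif_pos h]
  have hsp := (D.G.exists_min_image (fun j => |j - i|) h).choose_spec
  have h1 := hsp.2 i hi
  simp only [sub_self, abs_zero] at h1
  have h2 := abs_nonpos_iff.1 h1
  linarith

theorem nm_gt_mem (D : SfDoc) (h : D.G.Nonempty) (i : ℝ) : D.gt i ∈ D.G := by
  unfold SfDoc.gt
  rw [dif_pos h]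
  exact (D.G.exists_min_image (fun j => |j - i|) h).choose_spec.1

theorem nm_gt_near {D : SfDoc} {π : SfPar} {C0 τ κ0 t : ℝ} (hD : D.Fine π C0 τ κ0 t) {i : ℝ} (h0 : 0 ≤ i) (h1 : i ≤ 1) :
    |D.gt i - i| ≤ t := by
  obtain ⟨j, hj, hji⟩ := hD.mesh i h0 h1
  have h : D.G.Nonempty := ⟨j, hj⟩
  unfold SfDoc.gt
  rw [dif_pos h]
  exact ((D.G.exists_min_image (fun j => |j - i|) h).choose_spec.2 j hj).trans hji

theorem nm_C0_nonneg {D : SfDoc} {π : SfPar} {C0 t : ℝ} (hD : D.Core π C0 t) : 0 ≤ C0 := by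
  have h := hD.hek.1.trans hD.hek.2
  rw [Real.rpow_le_rpow_left_iff_of_base_lt_one hD.hs.1 hD.hs.2] at h
  linarith

theorem nm_labAt_one (D : SfDoc) (ω : D.Row 1) : D.labAt 1 ω = D.lab 1 ω := by
  unfold SfDoc.labAt
  rw [if_pos rfl]

/-- classical: two rows of a gate `j < 1` connected to the same final row coincide (`base`, `grid`, `clUniq`) -/
theorem nm_conn_uniq {D : SfDoc} {π : SfPar} {C0 t : ℝ} (hD : D.Core π C0 t) (hc : π.hyb = false) {j : ℝ} (hj : j ∈ D.G) (hj1 : j < 1)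
    {ρ ρ' : D.Row j} {ω : D.Row 1} (h : D.Conn j 1 ρ ω) (h' : D.Conn j 1 ρ' ω) : ρ = ρ' := by
  obtain ⟨a1, a2, a3, -⟩ := hD.base j hj 1 hD.gate.1 hj1 ρ ω h
  obtain ⟨b1, b2, b3, -⟩ := hD.base j hj 1 hD.gate.1 hj1 ρ' ω h'
  have hs := hD.hs.1
  rw [hD.hlen.1] at a2 b2
  refine hD.clUniq hc j hj hj1 ρ ρ' (a3.trans b3.symm) ?_
  by_contra hne
  have hg := hD.grid j hj ρ ρ' hne
  have : |D.T j ρ - D.T j ρ'| < D.len j := by
    rw [abs_lt]
    constructor <;> linarith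
  linarith

/-- classical: the encountered label at the depth `De ≠ 1` is the label of EVERY row of the gate `D.gt De < 1` connected to `ω` -/
theorem nm_labAt_eq {D : SfDoc} {π : SfPar} {C0 t : ℝ} (hD : D.Core π C0 t) (hc : π.hyb = false) {De : ℝ} (hDe : De ≠ 1) (hj1 : D.gt De < 1)
    {ρ : D.Row (D.gt De)} {ω : D.Row 1} (h : D.Conn (D.gt De) 1 ρ ω) : D.labAt De ω = D.lab (D.gt De) ρ := by
  have hex : ∃ ρ, D.Conn (D.gt De) 1 ρ ω := ⟨ρ, h⟩
  unfold SfDoc.labAt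
  rw [if_neg hDe, dif_pos hex]
  rw [nm_conn_uniq hD hc (nm_gt_mem D ⟨1, hD.gate.1⟩ De) hj1 hex.choose_spec h]

theorem nm_raw_z (D : SfDoc) (π : SfPar) (ds : NmDs) (ω : D.Row 1) : (D.raw π ds ω).z = (D.ray 1 ω).res (D.kbar π ds ω) := rfl

theorem nm_raw_be (D : SfDoc) (π : SfPar) (ds : NmDs) (ω : D.Row 1) :
    (D.raw π ds ω).be = ((D.labAt ds.De ω).res (D.kbar π ds ω)).be := rfl

theorem nm_raw_K (D : SfDoc) (π : SfPar) (ds : NmDs) (ω : D.Row 1) :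
    (D.raw π ds ω).K = ((D.labAt ds.De ω).res (D.kbar π ds ω)).K := rfl

/-- with a curvature cut the derivative of the display is the derivative of the residual label on the residual ray -/
theorem nm_raw_P (D : SfDoc) (π : SfPar) (ds : NmDs) (hc : ds.cut ≠ NmCut.none) (ω : D.Row 1) :
    (D.raw π ds ω).P = ((D.labAt ds.De ω).res (D.kbar π ds ω)).Pd (D.raw π ds ω).z := by
  rw [nm_raw_z, nm_res_Pd]
  unfold SfDoc.raw
  cases hcut : ds.cut with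
  | none => exact absurd hcut hc
  | slope => rfl
  | const => rfl

/-! ## geometry of a completing path -/

/-- powers of the scale are antitone in the exponent -/
theorem nm_pw {s x y : ℝ} (hs : 0 < s ∧ s < 1) (h : y ≤ x) : s ^ x ≤ s ^ y :=
  Real.rpow_le_rpow_of_exponent_ge hs.1 hs.2.le h

theorem nm_dN_nonneg (D : SfDoc) (π : SfPar) (hs : 0 < D.s) (t : ℝ) : 0 ≤ D.dN π t := by
  unfold SfDoc.dN
  split_ifs
  · positivity
  · exact le_rfl

theorem nm_len_pos {D : SfDoc} {π : SfPar} {C0 t : ℝ} (hD : D.Core π C0 t) {j : ℝ} (hj : j ∈ D.G) : 0 < D.len j :=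
  lt_of_lt_of_le (Real.rpow_pos_of_pos hD.hs.1 _) (hD.hlen.2 j hj).1

/-- the size constant and the negligible term -/
theorem nm_nu0_eq (D : SfDoc) (hs : 0 < D.s) (C0 t : ℝ) : 14 * (D.s ^ (-C0)) ^ 2 * D.s ^ (1 / t) = D.nu0 C0 t := by
  unfold SfDoc.nu0
  rw [← Real.rpow_natCast, ← Real.rpow_mul hs.le, mul_assoc, ← Real.rpow_add hs]
  congr 2
  push_cast
  ring

/-- comparison of the rays of connected rows: base (`base`), normal velocity and position AT THE TIME OF THE EARLIER ROW (`normC`; `normH` + `hf`, `pl` : `f_j ≤ s^(-t)`, `f_1 = 1`), nested times -/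
theorem nm_conn_ray {D : SfDoc} {π : SfPar} {C0 τ κ0 t : ℝ} (hD : D.Ok π C0 τ κ0 t) (hπ : π.Valid) (ht : 0 < t)
    {j : ℝ} (hj : j ∈ D.G) (hj1 : j < 1) {ρ : D.Row j} {ω : D.Row 1} (h : D.Conn j 1 ρ ω) :
    D.T j ρ ≤ D.T 1 ω ∧ D.T 1 ω ≤ D.T j ρ + D.len j ∧ (D.ray j ρ).bdist (D.ray 1 ω) ≤ D.s ^ (1 / t) ∧
      |(D.ray 1 ω).N - (D.ray j ρ).N| ≤ D.dN π t ∧ |(D.ray 1 ω).Dt (D.T j ρ) - (D.ray j ρ).Dt (D.T j ρ)| ≤ 2 * D.len j * D.dN π t := by
  have hc := hD.core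
  have hs := hc.hs
  obtain ⟨a1, a2, -, a4⟩ := hc.base j hj 1 hc.gate.1 hj1 ρ ω h
  rw [hc.hlen.1] at a2
  have hlen := nm_len_pos hc hj
  refine ⟨a1, by linarith [hs.1], a4, ?_⟩
  cases hh : π.hyb with
  | false =>
    have e := hc.normC hh j hj 1 hc.gate.1 hj1 ρ ω h
    have hd : D.dN π t = 0 := by
      unfold SfDoc.dN
      rw [hh]
      simp
    rw [e, hd]
    simp
  | true =>
    obtain ⟨n1, n2⟩ := hc.normH hh j hj 1 hc.gate.1 hj1 ρ ω h
    have hd : D.dN π t = D.s ^ (-(2 * t)) := by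
      unfold SfDoc.dN
      rw [hh]
      simp
    rw [hc.hw.2.1, mul_one] at n1
    have h12 : D.s ^ (-t) ≤ D.s ^ (-(2 * t)) := nm_pw hs (by linarith)
    have hj01 := hc.gate.2 j hj
    have hf : D.f j ≤ D.s ^ (-t) := by
      refine ((hD.aff.hf j hj).2).trans (nm_pw hs ?_)
      have : π.n j = (1 - j) / 2 := by
        unfold SfPar.n
        rw [hπ.pl hh]
        ring
      rw [this]
      linarith [hj01.2]
    have hf0 := (hc.hw.2.2 j hj).2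
    have hst : 0 < D.s ^ (-t) := Real.rpow_pos_of_pos hs.1 _
    rw [hd]
    refine ⟨n1.trans h12, ?_⟩
    have e : (D.ray 1 ω).Dt (D.T j ρ) - (D.ray j ρ).Dt (D.T j ρ)
        = ((D.ray 1 ω).Dt (D.T 1 ω) - (D.ray j ρ).Dt (D.T 1 ω)) - (D.T 1 ω - D.T j ρ) * ((D.ray 1 ω).N - (D.ray j ρ).N) := by
      unfold SfRay.Dt
      ring
    rw [e]
    have hsq : D.s ^ (-t) * D.s ^ (-t) = D.s ^ (-(2 * t)) := by
      rw [← Real.rpow_add hs.1]
      congr 1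
      ring
    have b1 : D.s ^ (-t) * (D.len j * D.f j) ≤ D.len j * D.s ^ (-(2 * t)) := by
      rw [← hsq]
      calc D.s ^ (-t) * (D.len j * D.f j) ≤ D.s ^ (-t) * (D.len j * D.s ^ (-t)) := by gcongr
        _ = D.len j * (D.s ^ (-t) * D.s ^ (-t)) := by ring
    have b2 : |(D.T 1 ω - D.T j ρ) * ((D.ray 1 ω).N - (D.ray j ρ).N)| ≤ D.len j * D.s ^ (-(2 * t)) := by
      rw [abs_mul, abs_of_nonneg (by linarith : 0 ≤ D.T 1 ω - D.T j ρ)]
      have : D.T 1 ω - D.T j ρ ≤ D.len j := by linarith [hs.1]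
      exact mul_le_mul this (n1.trans h12) (abs_nonneg _) hlen.le
    calc |((D.ray 1 ω).Dt (D.T 1 ω) - (D.ray j ρ).Dt (D.T 1 ω)) - (D.T 1 ω - D.T j ρ) * ((D.ray 1 ω).N - (D.ray j ρ).N)|
        ≤ |(D.ray 1 ω).Dt (D.T 1 ω) - (D.ray j ρ).Dt (D.T 1 ω)| + |(D.T 1 ω - D.T j ρ) * ((D.ray 1 ω).N - (D.ray j ρ).N)| := abs_sub _ _
      _ ≤ D.len j * D.s ^ (-(2 * t)) + D.len j * D.s ^ (-(2 * t)) := add_le_add (n2.trans b1) b2
      _ = 2 * D.len j * D.s ^ (-(2 * t)) := by ring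

/-- `own` at `j`, `nm_conn_ray`, `bdd`, `nm_mem_perturb` with `S = s^(-C0)`, `ε = s^(1/t)` -/
theorem nm_conn_geo {D : SfDoc} {π : SfPar} {C0 τ κ0 t : ℝ} (hD : D.Ok π C0 τ κ0 t) (hπ : π.Valid) (ht : 0 < t)
    {j : ℝ} (hj : j ∈ D.G) (hj1 : j < 1) {ρ : D.Row j} {ω : D.Row 1} (h : D.Conn j 1 ρ ω) :
    D.Geo π t (D.len j) (D.r j) (D.f j) (D.nu0 C0 t) (D.lab j ρ) ω := by
  have hc := hD.core
  have hs := hc.hs
  obtain ⟨r1, r2, r3, r4, r5⟩ := nm_conn_ray hD hπ ht hj hj1 h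
  obtain ⟨o1, o2, o3, o4, o5⟩ := hc.own j hj ρ
  have hlen := nm_len_pos hc hj
  have hC0 := nm_C0_nonneg hc
  have hS : 1 ≤ D.s ^ (-C0) := Real.one_le_rpow_of_pos_of_le_one_of_nonpos hs.1 hs.2.le (by linarith)
  have hε0 : 0 < D.s ^ (1 / t) := Real.rpow_pos_of_pos hs.1 _
  have hε1 : D.s ^ (1 / t) ≤ 1 := Real.rpow_le_one hs.1.le hs.2.le (by positivity)
  have hr0 := (hc.hw.2.2 j hj).1
  obtain ⟨p1, p2, p3, p4, p5, -⟩ := nm_mem_perturb (Q := D.lab j ρ) (z0 := D.ray j ρ) (z := D.ray 1 ω) (l := D.len j) (S := D.s ^ (-C0)) (ε := D.s ^ (1 / t))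
    (δN := D.dN π t) (δD := 2 * D.len j * D.dN π t) hlen.le (by rw [o1]; exact hr0.le) o3 ⟨o4, by linarith [show (D.lab j ρ).T = D.T j ρ from rfl]⟩ hS
    (hc.bdd j hj ρ).2 (hc.bdd j hj ρ).1 (hc.bdd 1 hc.gate.1 ω).1 ⟨hε0.le, hε1⟩ r3 r4 r5
  rw [nm_nu0_eq D hs.1] at p3 p4 p5
  rw [o1] at p1 p2 p3
  rw [o2] at p4 p5
  have hν : 2 * D.s ^ (1 / t) ≤ D.nu0 C0 t := by
    rw [← nm_nu0_eq D hs.1]
    have : 1 ≤ (D.s ^ (-C0)) ^ 2 := one_le_pow₀ hS
    nlinarith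
  exact ⟨r1, r2, p1.trans (by linarith), p2.trans (by linarith), p3, p4, p5⟩

/-- moreover the derivative of the label does not see the change of the ray -/
theorem nm_conn_Pd {D : SfDoc} {π : SfPar} {C0 τ κ0 t : ℝ} (hD : D.Ok π C0 τ κ0 t) (ht : 0 < t)
    {j : ℝ} (hj : j ∈ D.G) (hj1 : j < 1) {ρ : D.Row j} {ω : D.Row 1} (h : D.Conn j 1 ρ ω) :
    |(D.lab j ρ).Pd (D.ray 1 ω) - (D.lab j ρ).Pd (D.ray j ρ)| ≤ D.nu0 C0 t := by
  have hc := hD.core
  have hs := hc.hs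
  obtain ⟨-, -, -, a4⟩ := hc.base j hj 1 hc.gate.1 hj1 ρ ω h
  obtain ⟨o1, o2, o3, o4, o5⟩ := hc.own j hj ρ
  have hlen := nm_len_pos hc hj
  have hC0 := nm_C0_nonneg hc
  have hS : 1 ≤ D.s ^ (-C0) := Real.one_le_rpow_of_pos_of_le_one_of_nonpos hs.1 hs.2.le (by linarith)
  have hε0 : 0 < D.s ^ (1 / t) := Real.rpow_pos_of_pos hs.1 _
  have hε1 : D.s ^ (1 / t) ≤ 1 := Real.rpow_le_one hs.1.le hs.2.le (by positivity)
  have hr0 := (hc.hw.2.2 j hj).1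
  obtain ⟨-, -, -, -, -, p6⟩ := nm_mem_perturb (Q := D.lab j ρ) (z0 := D.ray j ρ) (z := D.ray 1 ω) (l := D.len j) (S := D.s ^ (-C0)) (ε := D.s ^ (1 / t))
    hlen.le (by rw [o1]; exact hr0.le) o3 ⟨o4, by linarith [show (D.lab j ρ).T = D.T j ρ from rfl]⟩ hS
    (hc.bdd j hj ρ).2 (hc.bdd j hj ρ).1 (hc.bdd 1 hc.gate.1 ω).1 ⟨hε0.le, hε1⟩ a4 le_rfl le_rfl
  rwa [nm_nu0_eq D hs.1] at p6

/-- the own label -/
theorem nm_own_geo {D : SfDoc} {π : SfPar} {C0 t : ℝ} (hD : D.Core π C0 t) (ω : D.Row 1) :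
    D.Geo π t (D.len 1) (D.r 1) (D.f 1) (D.nu0 C0 t) (D.lab 1 ω) ω := by
  have hs := hD.hs
  have h1 := hD.gate.1
  obtain ⟨o1, o2, o3, o4, o5⟩ := hD.own 1 h1 ω
  have hlen := nm_len_pos hD h1
  have hC0 := nm_C0_nonneg hD
  have hS : 1 ≤ D.s ^ (-C0) := Real.one_le_rpow_of_pos_of_le_one_of_nonpos hs.1 hs.2.le (by linarith)
  have hr0 := (hD.hw.2.2 1 h1).1
  have hb : (D.ray 1 ω).bdist (D.ray 1 ω) ≤ 0 := by
    unfold SfRay.bdist
    simp
  obtain ⟨p1, p2, p3, p4, p5, -⟩ := nm_mem_perturb (Q := D.lab 1 ω) (z0 := D.ray 1 ω) (z := D.ray 1 ω) (l := D.len 1) (S := D.s ^ (-C0)) (ε := 0)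
    (δN := 0) (δD := 0) hlen.le (by rw [o1]; exact hr0.le) o3 ⟨o4, by linarith [show (D.lab 1 ω).T = D.T 1 ω from rfl]⟩ hS
    (hD.bdd 1 h1 ω).2 (hD.bdd 1 h1 ω).1 (hD.bdd 1 h1 ω).1 ⟨le_rfl, zero_le_one⟩ hb (by simp) (by simp)
  rw [o1] at p1 p2 p3
  rw [o2] at p4 p5
  have hν : 0 ≤ D.nu0 C0 t := by
    unfold SfDoc.nu0
    have := Real.rpow_pos_of_pos hs.1 (1 / t - 2 * C0)
    positivity
  have hdN := nm_dN_nonneg D π hs.1 t
  have hl2 : 0 ≤ 2 * D.len 1 * D.dN π t := by positivity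
  exact ⟨le_rfl, by linarith [show (D.lab 1 ω).T = D.T 1 ω from rfl], p1.trans (by linarith), p2.trans (by linarith), p3.trans (by linarith), p4.trans (by linarith),
    p5.trans (by linarith)⟩

/-- comparison of two powers of `s < 1` -/
theorem nm_pw_le {s c C x y : ℝ} (hs : 0 < s ∧ s < 1) (hC : c ≤ C) (hC0 : 0 ≤ C) (hxy : y ≤ x) : c * s ^ x ≤ C * s ^ y := by
  have h1 : s ^ x ≤ s ^ y := Real.rpow_le_rpow_of_exponent_ge hs.1 hs.2.le hxy
  have h2 : 0 ≤ s ^ x := (Real.rpow_pos_of_pos hs.1 _).le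
  calc c * s ^ x ≤ C * s ^ x := mul_le_mul_of_nonneg_right hC h2
    _ ≤ C * s ^ y := mul_le_mul_of_nonneg_left h1 hC0

/-- the loss factor times a power -/
theorem nm_Mp_mul {s : ℝ} (hs : 0 < s) (t e z : ℝ) : nmMp s t e * s ^ z = 1000 * s ^ (z - 6 * (t + e)) := by
  unfold nmMp
  rw [mul_assoc, ← Real.rpow_add hs]
  congr 2
  ring

/-- the negligible terms of the labels: if `dep + 2 C0 + 2 |q| + 7 + e ≤ 1 / t` -/
theorem nm_neg_lab {D : SfDoc} {π : SfPar} {C0 t e j pm a v : ℝ} {q : NmQ} (hs : 0 < D.s ∧ D.s < 1) (hj : 0 ≤ j ∧ j ≤ 1)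
    (hneg : q.dep π a v + 2 * C0 + 2 * |π.q| + 7 + e ≤ 1 / t) :
    (π.xpL j pm).Neg π q D.s e a v (D.nu0 C0 t) ∧ (π.xpL j pm).Neg π q D.s e a v (D.nu π C0 t) := by
  have hb : |(π.xpL j pm).bK| ≤ |π.q| + 1 := by
    have e1 : (π.xpL j pm).bK = π.q * (j - 1) + -j := by
      simp only [SfPar.xpL, SfPar.b2]
      ring
    rw [e1]
    refine (abs_add_le _ _).trans ?_
    rw [abs_mul, abs_neg, abs_of_nonneg hj.1]
    have h1 : |j - 1| ≤ 1 := by
      rw [abs_le]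
      constructor <;> linarith [hj.1, hj.2]
    have h2 : |π.q| * |j - 1| ≤ |π.q| * 1 := mul_le_mul_of_nonneg_left h1 (abs_nonneg _)
    linarith [hj.2]
  have hq := abs_nonneg π.q
  have hp : ∀ x : ℝ, 0 < D.s ^ x := fun x => Real.rpow_pos_of_pos hs.1 x
  refine ⟨⟨?_, ?_⟩, ⟨?_, ?_⟩⟩
  · unfold SfDoc.nu0
    have := hp (1 / t - 2 * C0)
    positivity
  · unfold SfDoc.nu0
    exact nm_pw_le hs (by norm_num) (by norm_num) (by linarith)
  · unfold SfDoc.nu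
    have := hp (1 / t - 2 * C0 - |π.q| - 3)
    positivity
  · unfold SfDoc.nu
    exact nm_pw_le hs le_rfl (by norm_num) (by linarith)

/-! ## the fit -/

section fit

variable {π : SfPar} {t e a v ℓ r f ν ν' : ℝ} {q : NmQ} {X : NmXp}

/-- **exponent arithmetic**: the widths are admissible (every field is a comparison of powers of `s`; no `SfDoc`) -/
theorem nm_pd_ok {s : ℝ} (hs : 0 < s ∧ s < 1) (hq : q.Ok π) (h : NmPd π q t e X a v) (hℓ : 0 ≤ ℓ ∧ ℓ ≤ s ^ (X.j - t)) (hr : 0 ≤ r ∧ r ≤ s ^ (X.U - t))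
    (hν : X.Neg π q s e a v ν) : (⟨s, π, q, a, v⟩ : NmAv).Ok (nmWp s t e ℓ r ν X) := by
  obtain ⟨hs0, hs1⟩ := hs
  obtain ⟨hℓ0, hℓ1⟩ := hℓ
  obtain ⟨hr0, hr1⟩ := hr
  obtain ⟨hν0, hν1⟩ := hν
  have hp : ∀ x : ℝ, 0 < s ^ x := fun x => Real.rpow_pos_of_pos hs0 x
  have he0 := h.e0
  have ht0 := h.t0
  have ht1 := h.t1
  have hbK := abs_nonneg X.bK
  have hbK' : 0 ≤ X.bK + |X.bK| := by linarith [neg_abs_le X.bK]
  -- the depths
  have d2 : a + v ≤ q.dep π a v := by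
    unfold NmQ.dep
    exact (le_max_left _ _).trans (le_max_right _ _)
  have d3 : a + 2 * v ≤ q.dep π a v := by
    unfold NmQ.dep
    exact ((le_max_left _ _).trans (le_max_right _ _)).trans (le_max_right _ _)
  have d4 : q.l π a v ≤ q.dep π a v := by
    unfold NmQ.dep
    exact (((le_max_left _ _).trans (le_max_right _ _)).trans (le_max_right _ _)).trans (le_max_right _ _)
  have d5 : q.w π a v - q.g ≤ q.dep π a v := by
    unfold NmQ.dep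
    exact ((((le_max_left _ _).trans (le_max_right _ _)).trans (le_max_right _ _)).trans (le_max_right _ _)).trans (le_max_right _ _)
  -- the products of the widths
  have hlr : ℓ * r ≤ s ^ (X.j + X.U - 2 * t) := by
    calc ℓ * r ≤ s ^ (X.j - t) * s ^ (X.U - t) := mul_le_mul hℓ1 hr1 hr0 (hp _).le
      _ = s ^ (X.j + X.U - 2 * t) := by
        rw [← Real.rpow_add hs0]
        congr 1
        ring
  have hlrr : ℓ * r ^ 2 ≤ s ^ (X.j + 2 * X.U - 3 * t) := by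
    calc ℓ * r ^ 2 = (ℓ * r) * r := by ring
      _ ≤ s ^ (X.j + X.U - 2 * t) * s ^ (X.U - t) := mul_le_mul hlr hr1 hr0 (hp _).le
      _ = s ^ (X.j + 2 * X.U - 3 * t) := by
        rw [← Real.rpow_add hs0]
        congr 1
        ring
  have key : ∀ {c x z : ℝ}, c ≤ 1000 → z - 6 * (t + e) ≤ x → c * s ^ x ≤ 1000 * s ^ (z - 6 * (t + e)) :=
    fun hc hx => nm_pw_le ⟨hs0, hs1⟩ hc (by norm_num) hx
  have split : ∀ {c₁ c₂ x₁ x₂ y : ℝ}, 0 ≤ c₁ → 0 ≤ c₂ → c₁ + c₂ ≤ 1000 → y ≤ x₁ → y ≤ x₂ → c₁ * s ^ x₁ + c₂ * s ^ x₂ ≤ 1000 * s ^ y := by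
    intro c₁ c₂ x₁ x₂ y h1 h2 h3 h4 h5
    have a1 := nm_pw_le (c := c₁) (C := c₁) ⟨hs0, hs1⟩ le_rfl h1 h4
    have a2 := nm_pw_le (c := c₂) (C := c₂) ⟨hs0, hs1⟩ le_rfl h2 h5
    have a3 : (c₁ + c₂) * s ^ y ≤ 1000 * s ^ y := mul_le_mul_of_nonneg_right h3 (hp y).le
    linarith
  refine ⟨hs0, hs1, hq, ?_, ?_, ?_, ?_, ?_, ?_, ?_, ?_, ?_, ?_, ?_, ?_⟩
  · -- `1 ≤ M`
    show 1 ≤ nmMp s t e
    unfold nmMp
    have h1 : (1 : ℝ) ≤ s ^ (-(6 * (t + e))) := Real.one_le_rpow_of_pos_of_le_one_of_nonpos hs0 hs1.le (by linarith)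
    linarith
  · show 0 ≤ ℓ * r + ν
    positivity
  · show 0 ≤ 3 * (ℓ * r ^ 2) + ν
    positivity
  · show 0 ≤ 3 * s ^ (X.bR - 2 * t - e)
    have := hp (X.bR - 2 * t - e)
    positivity
  · show 0 ≤ 2 * s ^ (X.bK - 2 * t - e)
    have := hp (X.bK - 2 * t - e)
    positivity
  · show ℓ * r + ν ≤ nmMp s t e * s ^ (a + v)
    rw [nm_Mp_mul hs0]
    have h1 := h.hav
    have := split (c₁ := 1) (c₂ := 100) (x₁ := X.j + X.U - 2 * t) (x₂ := q.dep π a v + |X.bK| + 3 + e) (y := a + v - 6 * (t + e))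
      (by norm_num) (by norm_num) (by norm_num) (by linarith) (by linarith)
    linarith
  · show 3 * (ℓ * r ^ 2) + ν ≤ nmMp s t e * s ^ (a + 2 * v)
    rw [nm_Mp_mul hs0]
    have h1 := h.havv
    have := split (c₁ := 3) (c₂ := 100) (x₁ := X.j + 2 * X.U - 3 * t) (x₂ := q.dep π a v + |X.bK| + 3 + e) (y := a + 2 * v - 6 * (t + e))
      (by norm_num) (by norm_num) (by norm_num) (by linarith) (by linarith)
    linarith
  · show 3 * s ^ (X.bR - 2 * t - e) * s ^ v ≤ nmMp s t e * s ^ (q.l π a v)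
    rw [nm_Mp_mul hs0, mul_assoc, ← Real.rpow_add hs0]
    have h1 := h.hlv
    exact key (by norm_num) (by linarith)
  · show 2 * s ^ (X.bK - 2 * t - e) * (ℓ * r + ν) ≤ nmMp s t e * s ^ (q.l π a v)
    rw [nm_Mp_mul hs0]
    have h1 := h.hl
    have hk := hp (X.bK - 2 * t - e)
    have a1 : 2 * s ^ (X.bK - 2 * t - e) * (ℓ * r + ν) ≤
        2 * s ^ (X.bK - 2 * t - e) * (s ^ (X.j + X.U - 2 * t) + 100 * s ^ (q.dep π a v + |X.bK| + 3 + e)) :=
      mul_le_mul_of_nonneg_left (by linarith) (by positivity)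
    have a2 : 2 * s ^ (X.bK - 2 * t - e) * (s ^ (X.j + X.U - 2 * t) + 100 * s ^ (q.dep π a v + |X.bK| + 3 + e)) =
        2 * s ^ ((X.bK - 2 * t - e) + (X.j + X.U - 2 * t)) + 200 * s ^ ((X.bK - 2 * t - e) + (q.dep π a v + |X.bK| + 3 + e)) := by
      rw [Real.rpow_add hs0 (X.bK - 2 * t - e) (X.j + X.U - 2 * t), Real.rpow_add hs0 (X.bK - 2 * t - e) (q.dep π a v + |X.bK| + 3 + e)]
      ring
    have := split (c₁ := 2) (c₂ := 200) (x₁ := (X.bK - 2 * t - e) + (X.j + X.U - 2 * t)) (x₂ := (X.bK - 2 * t - e) + (q.dep π a v + |X.bK| + 3 + e))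
      (y := q.l π a v - 6 * (t + e)) (by norm_num) (by norm_num) (by norm_num) (by linarith) (by linarith)
    linarith
  · show 2 * s ^ (X.bK - 2 * t - e) * (3 * (ℓ * r ^ 2) + ν) ≤ nmMp s t e * s ^ (q.w π a v - q.g)
    rw [nm_Mp_mul hs0]
    have h1 := h.hw2
    have hk := hp (X.bK - 2 * t - e)
    have a1 : 2 * s ^ (X.bK - 2 * t - e) * (3 * (ℓ * r ^ 2) + ν) ≤
        2 * s ^ (X.bK - 2 * t - e) * (3 * s ^ (X.j + 2 * X.U - 3 * t) + 100 * s ^ (q.dep π a v + |X.bK| + 3 + e)) :=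
      mul_le_mul_of_nonneg_left (by linarith) (by positivity)
    have a2 : 2 * s ^ (X.bK - 2 * t - e) * (3 * s ^ (X.j + 2 * X.U - 3 * t) + 100 * s ^ (q.dep π a v + |X.bK| + 3 + e)) =
        6 * s ^ ((X.bK - 2 * t - e) + (X.j + 2 * X.U - 3 * t)) + 200 * s ^ ((X.bK - 2 * t - e) + (q.dep π a v + |X.bK| + 3 + e)) := by
      rw [Real.rpow_add hs0 (X.bK - 2 * t - e) (X.j + 2 * X.U - 3 * t), Real.rpow_add hs0 (X.bK - 2 * t - e) (q.dep π a v + |X.bK| + 3 + e)]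
      ring
    have := split (c₁ := 6) (c₂ := 200) (x₁ := (X.bK - 2 * t - e) + (X.j + 2 * X.U - 3 * t)) (x₂ := (X.bK - 2 * t - e) + (q.dep π a v + |X.bK| + 3 + e))
      (y := q.w π a v - q.g - 6 * (t + e)) (by norm_num) (by norm_num) (by norm_num) (by linarith) (by linarith)
    linarith
  · intro hc
    show 3 * s ^ (X.bR - 2 * t - e) ≤ nmMp s t e * s ^ (q.ds.b a)
    rw [nm_Mp_mul hs0]
    have h1 := h.hb hc
    exact key (by norm_num) (by linarith)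
  · intro hc
    show 2 * s ^ (X.bK - 2 * t - e) ≤ nmMp s t e * s ^ (q.ds.b a - a)
    rw [nm_Mp_mul hs0]
    have h1 := h.hba hc
    exact key (by norm_num) (by linarith)

/-- a power with a smaller constant and a larger exponent is absorbed by the loss factor -/
theorem nm_mp_le {s t e c z y : ℝ} (hs : 0 < s ∧ s < 1) (hc : c ≤ 1000) (h : y - 6 * (t + e) ≤ z) : c * s ^ z ≤ nmMp s t e * s ^ y := by
  unfold nmMp
  rw [mul_assoc, ← Real.rpow_add hs.1]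
  have h1 : s ^ z ≤ s ^ (-(6 * (t + e)) + y) := nm_pw hs (by linarith)
  have h0 : 0 < s ^ z := Real.rpow_pos_of_pos hs.1 _
  nlinarith

/-- the depths read by a name -/
theorem nm_dep_ge (q : NmQ) (π : SfPar) (a v : ℝ) : v ≤ q.dep π a v ∧ a + v ≤ q.dep π a v ∧ a + 2 * v ≤ q.dep π a v ∧ q.l π a v ≤ q.dep π a v ∧
    q.w π a v - q.g ≤ q.dep π a v ∧ a + q.w π a v - q.g ≤ q.dep π a v := by
  unfold NmQ.dep
  refine ⟨le_max_left _ _, ?_, ?_, ?_, ?_, ?_⟩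
  · exact (le_max_left _ _).trans (le_max_right _ _)
  · exact ((le_max_left _ _).trans (le_max_right _ _)).trans (le_max_right _ _)
  · exact (((le_max_left _ _).trans (le_max_right _ _)).trans (le_max_right _ _)).trans (le_max_right _ _)
  · exact ((((le_max_left _ _).trans (le_max_right _ _)).trans (le_max_right _ _)).trans (le_max_right _ _)).trans (le_max_right _ _)
  · exact ((((le_max_right _ _).trans (le_max_right _ _)).trans (le_max_right _ _)).trans (le_max_right _ _)).trans (le_max_right _ _)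

/-- a negligible term is below `100 s^y` for every depth `y` read by the name -/
theorem nm_neg_le {X : NmXp} {π : SfPar} {q : NmQ} {s e a v ν y : ℝ} (hs : 0 < s ∧ s < 1) (he : 0 ≤ e) (hν : X.Neg π q s e a v ν) (hy : y ≤ q.dep π a v) :
    ν ≤ 100 * s ^ y := by
  refine hν.2.trans ?_
  have : s ^ (q.dep π a v + |X.bK| + 3 + e) ≤ s ^ y := nm_pw hs (by linarith [abs_nonneg X.bK])
  linarith

/-- **the raw datum of `ω` fits the residual test** -/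
theorem nm_fit_doc {D : SfDoc} (hs : 0 < D.s ∧ D.s < 1) (h : NmPd π q t e X a v) (hℓ : 0 ≤ ℓ ∧ ℓ ≤ D.s ^ (X.j - t)) (hf : 0 ≤ f ∧ f ≤ D.s ^ (X.Nf - t))
    (hν : X.Neg π q D.s e a v ν) (hν' : X.Neg π q D.s e a v ν') {Q : SfTest} {ω : D.Row 1} (hg : D.Geo π t ℓ r f ν Q ω) (hc : D.Cur π q t e X ν' Q ω) :
    NmFit ⟨D.s, π, q, a, v⟩ (nmWp D.s t e ℓ r ν X) (Q.res (D.kbar π q.ds ω)) (D.raw π q.ds ω) := by
  have he := h.e0
  have ht := h.t0
  have hdep := nm_dep_ge q π a v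
  have hsp : ∀ x : ℝ, 0 < D.s ^ x := fun x => Real.rpow_pos_of_pos hs.1 x
  have hℓa : ℓ ≤ D.s ^ (a - e - t) := hℓ.2.trans (nm_pw hs (by linarith [h.ha]))
  have hfw : f ≤ D.s ^ (q.w π a v - q.g - e - t) := hf.2.trans (nm_pw hs (by linarith [h.hw]))
  have hdN : D.dN π t ≤ D.s ^ (q.w π a v - q.g - e - 2 * t) := by
    unfold SfDoc.dN
    split_ifs with hh
    · exact nm_pw hs (by linarith [h.hhyb hh])
    · exact (hsp _).le
  have hdN0 := nm_dN_nonneg D π hs.1 t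
  refine ⟨?_, hg.B, hg.Y, hc.R, hc.k, ?_, ?_, ?_⟩
  · show |D.T 1 ω - Q.T| ≤ nmMp D.s t e * D.s ^ a
    rw [abs_of_nonneg (by linarith [hg.T0])]
    have h1 : D.T 1 ω - Q.T ≤ 1 * D.s ^ (a - e - t) := by linarith [hg.T1]
    exact h1.trans (nm_mp_le hs (by norm_num) (by linarith))
  · show |(D.raw π q.ds ω).P - (Q.res (D.kbar π q.ds ω)).Pd (D.raw π q.ds ω).z| ≤ nmMp D.s t e * D.s ^ (q.l π a v)
    refine hc.P.trans ?_
    have h1 : D.s ^ (X.pm - 4 * t - e) ≤ D.s ^ (q.l π a v - 6 * (t + e)) := nm_pw hs (by linarith [h.hlp])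
    have h2 : ν' ≤ 100 * D.s ^ (q.l π a v - 6 * (t + e)) :=
      (nm_neg_le hs he hν' hdep.2.2.2.1).trans (by
        have := nm_pw hs (show q.l π a v - 6 * (t + e) ≤ q.l π a v by linarith)
        linarith)
    have h3 : 6 * D.s ^ (X.pm - 4 * t - e) + ν' ≤ 106 * D.s ^ (q.l π a v - 6 * (t + e)) := by linarith
    exact h3.trans (nm_mp_le hs (by norm_num) le_rfl)
  · show |(Q.res (D.kbar π q.ds ω)).eN ((D.ray 1 ω).res (D.kbar π q.ds ω))| ≤ nmMp D.s t e * D.s ^ (q.w π a v - q.g)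
    rw [nm_res_N]
    refine hg.N.trans ?_
    have h1 : D.s ^ (q.w π a v - q.g - e - t) ≤ D.s ^ (q.w π a v - q.g - 6 * (t + e)) := nm_pw hs (by linarith)
    have h2 : D.s ^ (q.w π a v - q.g - e - 2 * t) ≤ D.s ^ (q.w π a v - q.g - 6 * (t + e)) := nm_pw hs (by linarith)
    have h3 : ν ≤ 100 * D.s ^ (q.w π a v - q.g - 6 * (t + e)) :=
      (nm_neg_le hs he hν hdep.2.2.2.2.1).trans (by
        have := nm_pw hs (show q.w π a v - q.g - 6 * (t + e) ≤ q.w π a v - q.g by linarith)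
        linarith)
    have h4 : f + D.dN π t + ν ≤ 102 * D.s ^ (q.w π a v - q.g - 6 * (t + e)) := by linarith
    exact h4.trans (nm_mp_le hs (by norm_num) le_rfl)
  · show |(Q.res (D.kbar π q.ds ω)).eD ((D.ray 1 ω).res (D.kbar π q.ds ω))| ≤ nmMp D.s t e * D.s ^ (a + q.w π a v - q.g)
    rw [nm_res_D]
    refine hg.Dd.trans ?_
    have h1 : ℓ * f ≤ D.s ^ (a + q.w π a v - q.g - 6 * (t + e)) := by
      calc ℓ * f ≤ D.s ^ (a - e - t) * D.s ^ (q.w π a v - q.g - e - t) := mul_le_mul hℓa hfw hf.1 (hsp _).le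
        _ = D.s ^ (a - e - t + (q.w π a v - q.g - e - t)) := (Real.rpow_add hs.1 _ _).symm
        _ ≤ _ := nm_pw hs (by linarith)
    have h2 : ℓ * D.dN π t ≤ D.s ^ (a + q.w π a v - q.g - 6 * (t + e)) := by
      calc ℓ * D.dN π t ≤ D.s ^ (a - e - t) * D.s ^ (q.w π a v - q.g - e - 2 * t) := mul_le_mul hℓa hdN hdN0 (hsp _).le
        _ = D.s ^ (a - e - t + (q.w π a v - q.g - e - 2 * t)) := (Real.rpow_add hs.1 _ _).symm
        _ ≤ _ := nm_pw hs (by linarith)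
    have h3 : ν ≤ 100 * D.s ^ (a + q.w π a v - q.g - 6 * (t + e)) :=
      (nm_neg_le hs he hν hdep.2.2.2.2.2).trans (by
        have := nm_pw hs (show a + q.w π a v - q.g - 6 * (t + e) ≤ a + q.w π a v - q.g by linarith)
        linarith)
    have h4 : ℓ * f + 2 * ℓ * D.dN π t + ν ≤ 103 * D.s ^ (a + q.w π a v - q.g - 6 * (t + e)) := by nlinarith
    exact h4.trans (nm_mp_le hs (by norm_num) le_rfl)

/-- the angular entry, if `v ≤ U + e` -/
theorem nm_fit_doc_X {D : SfDoc} (hs : 0 < D.s ∧ D.s < 1) (h : NmPd π q t e X a v) (hr : 0 ≤ r ∧ r ≤ D.s ^ (X.U - t)) (hν : X.Neg π q D.s e a v ν)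
    (hv : v ≤ X.U + e) {Q : SfTest} {ω : D.Row 1} (hg : D.Geo π t ℓ r f ν Q ω) :
    |(D.raw π q.ds ω).z.X - (Q.res (D.kbar π q.ds ω)).x| ≤ nmMp D.s t e * D.s ^ v := by
  have he := h.e0
  have ht := h.t0
  have hdep := nm_dep_ge q π a v
  show |(D.ray 1 ω).X - Q.x| ≤ nmMp D.s t e * D.s ^ v
  refine hg.X.trans ?_
  have h1 : r ≤ D.s ^ (v - 6 * (t + e)) := hr.2.trans (nm_pw hs (by linarith))
  have h2 : ν ≤ 100 * D.s ^ (v - 6 * (t + e)) :=
    (nm_neg_le hs he hν hdep.1).trans (by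
      have := nm_pw hs (show v - 6 * (t + e) ≤ v by linarith)
      linarith)
  have h3 : r + ν ≤ 101 * D.s ^ (v - 6 * (t + e)) := by linarith
  exact h3.trans (nm_mp_le hs (by norm_num) le_rfl)

end fit

theorem nm_pred_doc_eqns_cite : True := by
  have := @nmMp.eq_1; have := @NmQ.dep.eq_1; have := @SfPar.xpL.eq_1; have := @SfDoc.nu0.eq_1; have := @SfDoc.nu.eq_1; have := @SfDoc.dN.eq_1
  have := @NmXp.Neg.eq_1; have := @nmWp.eq_1
  trivial

end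

end Claimed.Agent.R256
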