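import Claimed.Agent.R256.Nm.Pred.Main

/-!
# Row 256, unit NM, sub-block NM-PRED, file 6: A ROW PREDICTS THE NAMES OF ITS COMPLETING PATHS      (helper51; prefix `nm_row`)

(04-canonical-names.tex l.672-684: "every predecessor on a tested completing path predicts the static side and the other root data to small lists. For a coarse side this uses exact base flow, the strict normal slack for hybrid backflow, and (A)".)
A ROW `ρ` of a gate `j < 1` knows its ray.   `nmRowT Qs z0` = the test of ZERO widths centred at the ray `z0`, with the time and the shear coefficients `(al, be, K)` of `Qs`  (`c`, `d` are chosen so that the two normal expressions vanish on `z0`).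
The final ray of a completing path lies in it up to `ν = D.nuR C0 t` (base: `Core.base`) and the hybrid drift: `nm_row_geo`.   So the general fit of `Pred/Doc.lean` applies with `r = f = 0`, i.e. with FREE exponents `U`, `Nf`: only the inequalities `NmPr` remain
(NO upper bound for `v`: this is what the coarse sides `𝒞(A,V)`, `V ≫ v`, need).
Shear `Qs`:  the label of `ρ` (displays with a curvature cut);  `lam.lin0` = linear shear with the centre derivative of the label (pure linear display: then `bR`, `bK` are free too).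
EXITS: `nm_row_list` (generic), `nm_row_eq`, `nm_row_lin`, `nm_row_mid` : `D.RowPr j (fun _ => True) (D.nm π q a v) N`.
-/

set_option autoImplicit false

namespace Claimed.Agent.R256

open Claimed.Agent.R255
open Classical

noncomputable section

/-- the test of zero widths centred at the ray `z0` with the time and the shear coefficients of `Qs` -/
def nmRowT (Qs : SfTest) (z0 : SfRay) : SfTest where
  T := Qs.T
  x := z0.X
  b := z0.Bt Qs.T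
  y := z0.Yt Qs.T
  c := z0.N - Qs.al * z0.X - Qs.be * z0.X ^ 2 - Qs.K * (z0.Yt Qs.T - 2 * z0.X * z0.Bt Qs.T)
  d := z0.Dt Qs.T - Qs.al * z0.Bt Qs.T - Qs.be * z0.Yt Qs.T + Qs.K * z0.Bt Qs.T ^ 2
  al := Qs.al
  be := Qs.be
  K := Qs.K
  r := 0
  f := 0

/-- the linear shear with the centre derivative -/
def SfTest.lin0 (Q : SfTest) : SfTest := { Q with al := Q.Pc, be := 0, K := 0 }

/-- the negligible term of the rows -/
def SfDoc.nuR (D : SfDoc) (C0 t : ℝ) : ℝ := 35000 * D.s ^ (1 / t - 8 * C0)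

/-- the exponent inequalities for a row -/
structure NmPr (π : SfPar) (q : NmQ) (t e j bR bK pm a v : ℝ) : Prop where
  e0 : 0 ≤ e
  t0 : 0 < t
  t1 : t ≤ 1
  ha : a ≤ j + e
  hb : q.ds.cut ≠ NmCut.none → q.ds.b a ≤ bR + e
  hba : q.ds.cut = NmCut.slope → q.ds.b a - a ≤ bK + e
  hlv : q.l π a v ≤ bR + v + e
  hlp : q.l π a v ≤ pm + e
  hhyb : π.hyb = true → q.w π a v - q.g ≤ e

/-- the coordinates of a ray of size `≤ S` -/
theorem nm_row_ray_abs {z : SfRay} {S : ℝ} (h : z.size ≤ S) :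
    |z.X| ≤ S ∧ |z.B| ≤ S ∧ |z.Y| ≤ S ∧ |z.N| ≤ S ∧ |z.D| ≤ S := by
  unfold SfRay.size at h
  simp only [max_le_iff] at h
  exact h

/-- the parameters of a test of size `≤ S` -/
theorem nm_row_test_abs {Q : SfTest} {S : ℝ} (h : Q.size ≤ S) :
    |Q.x| ≤ S ∧ |Q.b| ≤ S ∧ |Q.y| ≤ S ∧ |Q.c| ≤ S ∧ |Q.d| ≤ S ∧ |Q.al| ≤ S ∧ |Q.be| ≤ S ∧ |Q.K| ≤ S := by
  unfold SfTest.size at h
  simp only [max_le_iff] at h
  exact h

/-- real-number form of `nm_rowT_size` -/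
theorem nm_row_size_real {S T X B Y N Dd al be K : ℝ} (hS : 1 ≤ S) (hT0 : 0 ≤ T) (hT1 : T ≤ 1)
    (hX : |X| ≤ S) (hB : |B| ≤ S) (hY : |Y| ≤ S) (hN : |N| ≤ S) (hD : |Dd| ≤ S)
    (hal : |al| ≤ 5 * S ^ 2) (hbe : |be| ≤ 5 * S ^ 2) (hK : |K| ≤ 5 * S ^ 2) :
    |X| ≤ 50 * S ^ 4 ∧ |B + T * X| ≤ 50 * S ^ 4 ∧ |Y + T * X ^ 2| ≤ 50 * S ^ 4 ∧
    |N - al * X - be * X ^ 2 - K * (Y + T * X ^ 2 - 2 * X * (B + T * X))| ≤ 50 * S ^ 4 ∧
    |Dd + T * N - al * (B + T * X) - be * (Y + T * X ^ 2) + K * (B + T * X) ^ 2| ≤ 50 * S ^ 4 ∧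
    |al| ≤ 50 * S ^ 4 ∧ |be| ≤ 50 * S ^ 4 ∧ |K| ≤ 50 * S ^ 4 := by
  have hS0 : 0 ≤ S := by linarith
  have p2 : S ≤ S ^ 2 := by nlinarith
  have p3 : S ^ 2 ≤ S ^ 3 := by nlinarith [sq_nonneg S]
  have p4 : S ^ 3 ≤ S ^ 4 := by nlinarith [pow_nonneg hS0 3]
  have hTa : |T| ≤ 1 := abs_le.2 ⟨by linarith, hT1⟩
  have hX2 : |X ^ 2| ≤ S ^ 2 := by rw [abs_pow]; exact pow_le_pow_left₀ (abs_nonneg _) hX 2
  have hTX : |T * X| ≤ S := by
    rw [abs_mul]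
    calc |T| * |X| ≤ 1 * S := mul_le_mul hTa hX (abs_nonneg _) (by norm_num)
      _ = S := one_mul _
  have hTN : |T * N| ≤ S := by
    rw [abs_mul]
    calc |T| * |N| ≤ 1 * S := mul_le_mul hTa hN (abs_nonneg _) (by norm_num)
      _ = S := one_mul _
  have hTX2 : |T * X ^ 2| ≤ S ^ 2 := by
    rw [abs_mul]
    calc |T| * |X ^ 2| ≤ 1 * S ^ 2 := mul_le_mul hTa hX2 (abs_nonneg _) (by norm_num)
      _ = S ^ 2 := one_mul _
  have hBt : |B + T * X| ≤ 2 * S := by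
    have := abs_add_le B (T * X); linarith
  have hYt : |Y + T * X ^ 2| ≤ 2 * S ^ 2 := by
    have := abs_add_le Y (T * X ^ 2); linarith
  have hDt : |Dd + T * N| ≤ 2 * S := by
    have := abs_add_le Dd (T * N); linarith
  have h5 : (0 : ℝ) ≤ 5 * S ^ 2 := by positivity
  have m1 : |al * X| ≤ 5 * S ^ 3 := by
    rw [abs_mul]
    calc |al| * |X| ≤ 5 * S ^ 2 * S := mul_le_mul hal hX (abs_nonneg _) h5
      _ = 5 * S ^ 3 := by ring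
  have m2 : |be * X ^ 2| ≤ 5 * S ^ 4 := by
    rw [abs_mul]
    calc |be| * |X ^ 2| ≤ 5 * S ^ 2 * S ^ 2 := mul_le_mul hbe hX2 (abs_nonneg _) h5
      _ = 5 * S ^ 4 := by ring
  have hXB : |X * (B + T * X)| ≤ 2 * S ^ 2 := by
    rw [abs_mul]
    calc |X| * |B + T * X| ≤ S * (2 * S) := mul_le_mul hX hBt (abs_nonneg _) hS0
      _ = 2 * S ^ 2 := by ring
  have hq : |Y + T * X ^ 2 - 2 * X * (B + T * X)| ≤ 6 * S ^ 2 := by
    have e : Y + T * X ^ 2 - 2 * X * (B + T * X) = (Y + T * X ^ 2) + (-2) * (X * (B + T * X)) := by ring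
    rw [e]
    have h1 := abs_add_le (Y + T * X ^ 2) ((-2) * (X * (B + T * X)))
    have h2 : |(-2) * (X * (B + T * X))| = 2 * |X * (B + T * X)| := by rw [abs_mul]; norm_num
    linarith
  have m3 : |K * (Y + T * X ^ 2 - 2 * X * (B + T * X))| ≤ 30 * S ^ 4 := by
    rw [abs_mul]
    calc |K| * |Y + T * X ^ 2 - 2 * X * (B + T * X)| ≤ 5 * S ^ 2 * (6 * S ^ 2) := mul_le_mul hK hq (abs_nonneg _) h5
      _ = 30 * S ^ 4 := by ring
  have m4 : |al * (B + T * X)| ≤ 10 * S ^ 3 := by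
    rw [abs_mul]
    calc |al| * |B + T * X| ≤ 5 * S ^ 2 * (2 * S) := mul_le_mul hal hBt (abs_nonneg _) h5
      _ = 10 * S ^ 3 := by ring
  have m5 : |be * (Y + T * X ^ 2)| ≤ 10 * S ^ 4 := by
    rw [abs_mul]
    calc |be| * |Y + T * X ^ 2| ≤ 5 * S ^ 2 * (2 * S ^ 2) := mul_le_mul hbe hYt (abs_nonneg _) h5
      _ = 10 * S ^ 4 := by ring
  have hBt2 : |(B + T * X) ^ 2| ≤ 4 * S ^ 2 := by
    rw [abs_pow]
    calc |B + T * X| ^ 2 ≤ (2 * S) ^ 2 := pow_le_pow_left₀ (abs_nonneg _) hBt 2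
      _ = 4 * S ^ 2 := by ring
  have m6 : |K * (B + T * X) ^ 2| ≤ 20 * S ^ 4 := by
    rw [abs_mul]
    calc |K| * |(B + T * X) ^ 2| ≤ 5 * S ^ 2 * (4 * S ^ 2) := mul_le_mul hK hBt2 (abs_nonneg _) h5
      _ = 20 * S ^ 4 := by ring
  refine ⟨by linarith, by linarith, by linarith, ?_, ?_, by linarith, by linarith, by linarith⟩
  · have a1 := abs_le.1 hN
    have a2 := abs_le.1 m1
    have a3 := abs_le.1 m2
    have a4 := abs_le.1 m3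
    rw [abs_le]
    constructor <;> linarith [a1.1, a1.2, a2.1, a2.2, a3.1, a3.2, a4.1, a4.2]
  · have a1 := abs_le.1 hDt
    have a2 := abs_le.1 m4
    have a3 := abs_le.1 m5
    have a4 := abs_le.1 m6
    rw [abs_le]
    constructor <;> linarith [a1.1, a1.2, a2.1, a2.2, a3.1, a3.2, a4.1, a4.2]

theorem nm_rowT_mem (Qs : SfTest) (z0 : SfRay) {l : ℝ} (hl : 0 ≤ l) : (nmRowT Qs z0).Mem l z0 := by
  unfold SfTest.Mem nmRowT
  simp only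
  refine ⟨?_, ?_, ?_, ?_, ?_⟩
  · simp
  · simp
  · have e : z0.Yt Qs.T - z0.Yt Qs.T - 2 * z0.X * (z0.Bt Qs.T - z0.Bt Qs.T) = 0 := by ring
    rw [e]; simp
  · have e : z0.N - (z0.N - Qs.al * z0.X - Qs.be * z0.X ^ 2 - Qs.K * (z0.Yt Qs.T - 2 * z0.X * z0.Bt Qs.T)) - Qs.al * z0.X
        - Qs.be * z0.X ^ 2 - Qs.K * (z0.Yt Qs.T - 2 * z0.X * z0.Bt Qs.T) = 0 := by ring
    rw [e]; simp
  · have e : z0.Dt Qs.T - (z0.Dt Qs.T - Qs.al * z0.Bt Qs.T - Qs.be * z0.Yt Qs.T + Qs.K * z0.Bt Qs.T ^ 2) - Qs.al * z0.Bt Qs.T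
        - Qs.be * z0.Yt Qs.T + Qs.K * z0.Bt Qs.T ^ 2 = 0 := by ring
    rw [e]; simp

/-- `|al|, |be|, |K| ≤ 5 S²`, `z0.size ≤ S`, `0 ≤ T ≤ 1`, `1 ≤ S`  ⇒  size `≤ 50 S⁴` -/
theorem nm_rowT_size {Qs : SfTest} {z0 : SfRay} {S : ℝ} (hS : 1 ≤ S) (hT : 0 ≤ Qs.T ∧ Qs.T ≤ 1) (hz : z0.size ≤ S)
    (hQ : |Qs.al| ≤ 5 * S ^ 2 ∧ |Qs.be| ≤ 5 * S ^ 2 ∧ |Qs.K| ≤ 5 * S ^ 2) : (nmRowT Qs z0).size ≤ 50 * S ^ 4 := by
  obtain ⟨hX, hB, hY, hN, hD⟩ := nm_row_ray_abs hz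
  obtain ⟨h1, h2, h3, h4, h5, h6, h7, h8⟩ := nm_row_size_real hS hT.1 hT.2 hX hB hY hN hD hQ.1 hQ.2.1 hQ.2.2
  unfold SfTest.size nmRowT
  simp only [max_le_iff, SfRay.Bt, SfRay.Yt, SfRay.Dt]
  exact ⟨h1, h2, h3, h4, h5, h6, h7, h8⟩

/-- `lam.size ≤ S` ⇒ the coefficients of `lam` and of `lam.lin0` are `≤ 5 S²` -/
theorem nm_lin0_size {lam : SfTest} {S : ℝ} (hS : 1 ≤ S) (h : lam.size ≤ S) :
    (|lam.al| ≤ 5 * S ^ 2 ∧ |lam.be| ≤ 5 * S ^ 2 ∧ |lam.K| ≤ 5 * S ^ 2) ∧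
      (|lam.lin0.al| ≤ 5 * S ^ 2 ∧ |lam.lin0.be| ≤ 5 * S ^ 2 ∧ |lam.lin0.K| ≤ 5 * S ^ 2) := by
  obtain ⟨hx, hb, -, -, -, hal, hbe, hK⟩ := nm_row_test_abs h
  have hS0 : 0 ≤ S := by linarith
  have p2 : S ≤ S ^ 2 := by nlinarith
  have p0 : (0 : ℝ) ≤ 5 * S ^ 2 := by positivity
  refine ⟨⟨by linarith, by linarith, by linarith⟩, ?_, ?_, ?_⟩
  · show |lam.Pc| ≤ 5 * S ^ 2
    unfold SfTest.Pc
    have m1 : |lam.be * lam.x| ≤ S ^ 2 := by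
      rw [abs_mul]
      calc |lam.be| * |lam.x| ≤ S * S := mul_le_mul hbe hx (abs_nonneg _) hS0
        _ = S ^ 2 := by ring
    have m2 : |lam.K * lam.b| ≤ S ^ 2 := by
      rw [abs_mul]
      calc |lam.K| * |lam.b| ≤ S * S := mul_le_mul hK hb (abs_nonneg _) hS0
        _ = S ^ 2 := by ring
    have a1 := abs_le.1 hal
    have a2 := abs_le.1 m1
    have a3 := abs_le.1 m2
    rw [abs_le]
    constructor <;> linarith [a1.1, a1.2, a2.1, a2.2, a3.1, a3.2]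
  · show |(0 : ℝ)| ≤ 5 * S ^ 2
    rw [abs_zero]; exact p0
  · show |(0 : ℝ)| ≤ 5 * S ^ 2
    rw [abs_zero]; exact p0

variable {D : SfDoc} {π : SfPar} {C0 τ κ0 t e j bR bK pm a v : ℝ} {q : NmQ}

/-- **geometry**: `nm_rowT_mem`, `nm_rowT_size`, `nm_conn_ray`, `bdd`, `nm_mem_perturb` with `S' = 50 s^(-4 C0)`, `ε = s^(1/t)` -/
theorem nm_row_geo (hD : D.Ok π C0 τ κ0 t) (hπ : π.Valid) (ht : 0 < t) (hj : j ∈ D.G) (hj1 : j < 1) {ρ : D.Row j} {ω : D.Row 1} (h : D.Conn j 1 ρ ω)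
    {Qs : SfTest} (hT : Qs.T = D.T j ρ)
    (hQ : |Qs.al| ≤ 5 * (D.s ^ (-C0)) ^ 2 ∧ |Qs.be| ≤ 5 * (D.s ^ (-C0)) ^ 2 ∧ |Qs.K| ≤ 5 * (D.s ^ (-C0)) ^ 2) :
    D.Geo π t (D.len j) 0 0 (D.nuR C0 t) (nmRowT Qs (D.ray j ρ)) ω := by
  have hc := hD.core
  obtain ⟨hs0, hs1⟩ := hc.hs
  have hC0 : 0 ≤ C0 := nm_C0_nonneg hc
  obtain ⟨S, hSd⟩ : ∃ y, y = D.s ^ (-C0) := ⟨_, rfl⟩
  rw [← hSd] at hQ
  have hS : 1 ≤ S := by
    rw [hSd]
    exact Real.one_le_rpow_of_pos_of_le_one_of_nonpos hs0 hs1.le (by linarith)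
  have hS0 : 0 ≤ S := by linarith
  have p4 : S ≤ 50 * S ^ 4 := by
    have p2 : S ≤ S ^ 2 := by nlinarith
    have p3 : S ^ 2 ≤ S ^ 3 := by nlinarith [sq_nonneg S]
    have p4 : S ^ 3 ≤ S ^ 4 := by nlinarith [pow_nonneg hS0 3]
    have : 0 ≤ S ^ 4 := by positivity
    linarith
  obtain ⟨r1, r2, r3, r4, r5⟩ := nm_conn_ray hD hπ ht hj hj1 h
  obtain ⟨-, -, -, o4, o5⟩ := hc.own j hj ρ
  have hl : 0 ≤ D.len j := (Real.rpow_pos_of_pos hs0 _).le.trans ((hc.hlen.2 j hj).1)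
  have hz0 : (D.ray j ρ).size ≤ S := by rw [hSd]; exact (hc.bdd j hj ρ).1
  have hz : (D.ray 1 ω).size ≤ S := by rw [hSd]; exact (hc.bdd 1 hc.gate.1 ω).1
  have hT' : 0 ≤ Qs.T ∧ Qs.T ≤ 1 := by rw [hT]; exact ⟨o4, by linarith⟩
  have hε : 0 ≤ D.s ^ (1 / t) ∧ D.s ^ (1 / t) ≤ 1 :=
    ⟨(Real.rpow_pos_of_pos hs0 _).le, Real.rpow_le_one hs0.le hs1.le (by positivity)⟩
  have hTq : (nmRowT Qs (D.ray j ρ)).T = D.T j ρ := hT
  have hν : 14 * (50 * S ^ 4) ^ 2 * D.s ^ (1 / t) = D.nuR C0 t := by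
    unfold SfDoc.nuR
    have e : D.s ^ (1 / t - 8 * C0) = D.s ^ (1 / t) * S ^ 8 := by
      rw [hSd, ← Real.rpow_natCast (D.s ^ (-C0)) 8, ← Real.rpow_mul hs0.le, ← Real.rpow_add hs0]
      congr 1
      push_cast
      ring
    rw [e]; ring
  have hbig : (1 : ℝ) ≤ (50 * S ^ 4) ^ 2 := by
    have : (1 : ℝ) ≤ 50 * S ^ 4 := by linarith
    nlinarith
  have hεν : 2 * D.s ^ (1 / t) ≤ D.nuR C0 t := by
    rw [← hν]
    nlinarith [hε.1, mul_le_mul_of_nonneg_right hbig hε.1]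
  obtain ⟨g1, g2, g3, g4, g5, -⟩ := nm_mem_perturb (Q := nmRowT Qs (D.ray j ρ)) (z0 := D.ray j ρ) (z := D.ray 1 ω)
    (l := D.len j) (S := 50 * S ^ 4) (ε := D.s ^ (1 / t)) (δN := D.dN π t) (δD := 2 * D.len j * D.dN π t)
    hl le_rfl (nm_rowT_mem Qs _ hl) hT' (by linarith) (nm_rowT_size hS hT' hz0 hQ) (hz0.trans p4) (hz.trans p4) hε r3 r4
    (by rw [hTq]; exact r5)
  rw [hν] at g3 g4 g5
  have hr0 : (nmRowT Qs (D.ray j ρ)).r = 0 := rfl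
  have hf0 : (nmRowT Qs (D.ray j ρ)).f = 0 := rfl
  rw [hr0] at g1 g2 g3
  rw [hf0] at g4 g5
  refine ⟨?_, ?_, ?_, ?_, g3, g4, g5⟩
  · rw [hTq]; exact r1
  · rw [hTq]; exact r2
  · linarith [hε.1]
  · linarith

/-- `Cur` reads only the time and the shear coefficients of the test, and only `bR`, `bK`, `pm` of the exponents -/
theorem nm_cur_rowT {X X' : NmXp} {ν : ℝ} {Qs : SfTest} {ω : D.Row 1} (hX : X'.bR = X.bR ∧ X'.bK = X.bK ∧ X'.pm = X.pm) (z0 : SfRay)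
    (h : D.Cur π q t e X ν Qs ω) : D.Cur π q t e X' ν (nmRowT Qs z0) ω := by
  obtain ⟨h1, h2, h3⟩ := hX
  refine ⟨?_, ?_, ?_⟩
  · rw [h1]; exact h.R
  · rw [h2]; exact h.k
  · rw [h3]; exact h.P

/-- pure linear display, linear shear: `bR`, `bK` are free (`linP`) -/
theorem nm_cur_lin0 (hD : D.Ok π C0 τ κ0 t) (ht : 0 < t) (he : 0 ≤ e) (hc : π.c2 = 0) (hds : q.ds = nmDsLin) (hj : j ∈ D.G) (hj1 : j < 1)
    {ρ : D.Row j} {ω : D.Row 1} (h : D.Conn j 1 ρ ω) (U Nf : ℝ) :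
    D.Cur π q t e ⟨j, U, Nf, bR, bK, π.b1 j⟩ 0 (D.lab j ρ).lin0 ω := by
  have hcr := hD.core
  obtain ⟨hs0, hs1⟩ := hcr.hs
  have hkb : D.kbar π q.ds ω = 0 := by
    rw [hds]; unfold SfDoc.kbar nmDsLin; simp
  have hcut : q.ds.cut = NmCut.none := by rw [hds]; rfl
  refine ⟨?_, ?_, ?_⟩
  · have e1 : (D.raw π q.ds ω).RrawAt q (D.lab j ρ).lin0.T = 0 := by
      unfold NmRaw.RrawAt; rw [hcut]
    have e2 : ((D.lab j ρ).lin0.res (D.kbar π q.ds ω)).be = 0 := by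
      rw [hkb]
      show (0 : ℝ) - 0 * _ = 0
      ring
    rw [e1, e2, sub_zero, abs_zero]
    exact mul_nonneg (by norm_num) (Real.rpow_pos_of_pos hs0 _).le
  · have e1 : (D.raw π q.ds ω).kraw q = 0 := by
      unfold NmRaw.kraw; rw [hcut]
    have e2 : ((D.lab j ρ).lin0.res (D.kbar π q.ds ω)).K = 0 := by
      rw [hkb]
      show (0 : ℝ) - 0 = 0
      ring
    rw [e1, e2, sub_zero, abs_zero]
    exact mul_nonneg (by norm_num) (Real.rpow_pos_of_pos hs0 _).le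
  · have e1 : (D.raw π q.ds ω).P = (D.lab 1 ω).Pc := by
      have : (D.raw π q.ds ω).P = (D.labAt q.ds.De ω).Pc + 2 * D.kbar π q.ds ω * (D.ray 1 ω).B := by
        unfold SfDoc.raw
        simp only [hcut]
      rw [this, hkb, hds]
      have h1 : nmDsLin.De = 1 := rfl
      rw [h1, nm_labAt_one]
      ring
    have e2 : ((D.lab j ρ).lin0.res (D.kbar π q.ds ω)).Pd (D.raw π q.ds ω).z = (D.lab j ρ).Pc := by
      rw [hkb]
      show (D.lab j ρ).Pc + 2 * ((0 : ℝ) - 0 * _) * _ - 2 * ((0 : ℝ) - 0) * _ = (D.lab j ρ).Pc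
      ring
    rw [e1, e2, add_zero]
    have h1 := (hD.aff.linP hc).1 j hj 1 hcr.gate.1 hj1 ρ ω h
    rw [abs_sub_comm] at h1
    have h2 : D.s ^ (π.b1 j - t) ≤ D.s ^ (π.b1 j - 4 * t - e) := nm_pow_anti hs0 hs1 (by linarith)
    have h3 : 0 < D.s ^ (π.b1 j - 4 * t - e) := Real.rpow_pos_of_pos hs0 _
    show |(D.lab 1 ω).Pc - (D.lab j ρ).Pc| ≤ 6 * D.s ^ (π.b1 j - 4 * t - e)
    linarith

/-- the free exponents -/
theorem nm_pr_pd (h : NmPr π q t e j bR bK pm a v) : ∃ U Nf : ℝ, NmPd π q t e ⟨j, U, Nf, bR, bK, pm⟩ a v ∧ v ≤ U + e := by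
  refine ⟨|a + v - j - e| + |a + 2 * v - j - e| + |q.l π a v - bK - j - e| + |q.w π a v - q.g - bK - j - e| + |v - e|,
    q.w π a v - q.g - e, ?_, ?_⟩
  · have a1 := le_abs_self (a + v - j - e)
    have a2 := le_abs_self (a + 2 * v - j - e)
    have a3 := le_abs_self (q.l π a v - bK - j - e)
    have a4 := le_abs_self (q.w π a v - q.g - bK - j - e)
    have b1 := abs_nonneg (a + v - j - e)
    have b2 := abs_nonneg (a + 2 * v - j - e)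
    have b3 := abs_nonneg (q.l π a v - bK - j - e)
    have b4 := abs_nonneg (q.w π a v - q.g - bK - j - e)
    have b5 := abs_nonneg (v - e)
    refine ⟨h.e0, h.t0, h.t1, h.ha, ?_, ?_, h.hb, h.hba, h.hlv, ?_, h.hlp, ?_, ?_, h.hhyb⟩
    · show a + v ≤ j + _ + e
      linarith
    · show a + 2 * v ≤ j + 2 * _ + e
      linarith
    · show q.l π a v ≤ bK + j + _ + e
      linarith
    · show q.w π a v - q.g ≤ (q.w π a v - q.g - e) + e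
      linarith
    · show q.w π a v - q.g ≤ bK + j + 2 * _ + e
      linarith
  · have a5 := le_abs_self (v - e)
    have b1 := abs_nonneg (a + v - j - e)
    have b2 := abs_nonneg (a + 2 * v - j - e)
    have b3 := abs_nonneg (q.l π a v - bK - j - e)
    have b4 := abs_nonneg (q.w π a v - q.g - bK - j - e)
    linarith

/-- the negligible term of the rows (`s ≤ 1/350` absorbs the constant) -/
theorem nm_neg_row (hs : 0 < D.s ∧ D.s ≤ 1 / 350) (hneg : q.dep π a v + 8 * C0 + |bK| + 4 + e ≤ 1 / t) (U Nf : ℝ) :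
    (⟨j, U, Nf, bR, bK, pm⟩ : NmXp).Neg π q D.s e a v (D.nuR C0 t) := by
  obtain ⟨hs0, hs1⟩ := hs
  have hs1' : D.s < 1 := by linarith
  unfold NmXp.Neg SfDoc.nuR
  refine ⟨mul_nonneg (by norm_num) (Real.rpow_pos_of_pos hs0 _).le, ?_⟩
  show 35000 * D.s ^ (1 / t - 8 * C0) ≤ 100 * D.s ^ (q.dep π a v + |bK| + 3 + e)
  have h1 : D.s ^ (1 / t - 8 * C0) ≤ D.s ^ ((q.dep π a v + |bK| + 3 + e) + 1) := nm_pow_anti hs0 hs1' (by linarith)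
  rw [Real.rpow_add hs0, Real.rpow_one] at h1
  have h2 : 0 < D.s ^ (q.dep π a v + |bK| + 3 + e) := Real.rpow_pos_of_pos hs0 _
  have h3 : D.s ^ (q.dep π a v + |bK| + 3 + e) * D.s ≤ D.s ^ (q.dep π a v + |bK| + 3 + e) * (1 / 350) :=
    mul_le_mul_of_nonneg_left hs1 h2.le
  linarith

/-- `k̄` is a function of its bin -/
theorem nm_kbar_val (D : SfDoc) (π : SfPar) (ds : NmDs) (ω : D.Row 1) :
    D.kbar π ds ω = if ds.glob then nmVal D.s (π.b2 ds.De - ds.De) (D.raw π ds ω).kb else 0 := by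
  unfold SfDoc.kbar SfDoc.raw
  by_cases hg : ds.glob = true
  · simp only [hg, if_true]
    rfl
  · simp only [hg]
    rfl

/-- **a row lists the names of its completing paths** (generic).   `Qs ρ` = shear used at the row `ρ`;  `Nk` = list size of `k̄`;  `ν'` = negligible term of `Cur`. -/
theorem nm_row_list (hD : D.Ok π C0 τ κ0 t) (hπ : π.Valid) (hs : D.s ≤ 1 / 350) (hq : q.Ok π) (hj : j ∈ D.G) (hj1 : j < 1)
    (h : NmPr π q t e j bR bK pm a v) (hneg : q.dep π a v + 8 * C0 + 2 * |π.q| + |bK| + 7 + e ≤ 1 / t) (Qs : D.Row j → SfTest)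
    (hT : ∀ ρ, (Qs ρ).T = D.T j ρ)
    (hQ : ∀ ρ, |(Qs ρ).al| ≤ 5 * (D.s ^ (-C0)) ^ 2 ∧ |(Qs ρ).be| ≤ 5 * (D.s ^ (-C0)) ^ 2 ∧ |(Qs ρ).K| ≤ 5 * (D.s ^ (-C0)) ^ 2)
    {ν' : ℝ} (hν' : 0 ≤ ν' ∧ ν' ≤ D.nu π C0 t)
    (hcur : ∀ ρ ω, D.Conn j 1 ρ ω → D.Cur π q t e ⟨j, 0, 0, bR, bK, pm⟩ ν' (Qs ρ) ω)
    {Nk : ℝ} (hkb : D.RowPr j (fun _ => True) (fun ω => (D.raw π q.ds ω).kb) Nk) :
    D.RowPr j (fun _ => True) (D.nm π q a v) (Nk * (10 ^ 12 * nmMp D.s t e ^ 10)) := by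
  have hcr := hD.core
  obtain ⟨hs0, hs1⟩ := hcr.hs
  have hC0 : 0 ≤ C0 := nm_C0_nonneg hcr
  obtain ⟨U, Nf, hpd, hvU⟩ := nm_pr_pd h
  have hℓ : 0 ≤ D.len j ∧ D.len j ≤ D.s ^ (j - t) :=
    ⟨(Real.rpow_pos_of_pos hs0 _).le.trans ((hcr.hlen.2 j hj).1), (hcr.hlen.2 j hj).2⟩
  have hqa := abs_nonneg π.q
  have hν : (⟨j, U, Nf, bR, bK, pm⟩ : NmXp).Neg π q D.s e a v (D.nuR C0 t) :=
    nm_neg_row ⟨hs0, hs⟩ (by linarith) U Nf
  have hν2 : (⟨j, U, Nf, bR, bK, pm⟩ : NmXp).Neg π q D.s e a v ν' := by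
    refine ⟨hν'.1, hν'.2.trans ?_⟩
    unfold SfDoc.nu
    refine mul_le_mul_of_nonneg_left (nm_pow_anti hs0 hs1 ?_) (by norm_num)
    show q.dep π a v + |bK| + 3 + e ≤ 1 / t - 2 * C0 - |π.q| - 3
    linarith
  have hr0 : (0 : ℝ) ≤ 0 ∧ (0 : ℝ) ≤ D.s ^ (U - t) := ⟨le_rfl, (Real.rpow_pos_of_pos hs0 _).le⟩
  have hf0 : (0 : ℝ) ≤ 0 ∧ (0 : ℝ) ≤ D.s ^ (Nf - t) := ⟨le_rfl, (Real.rpow_pos_of_pos hs0 _).le⟩
  have hA : (⟨D.s, π, q, a, v⟩ : NmAv).Ok (nmWp D.s t e (D.len j) 0 (D.nuR C0 t) ⟨j, U, Nf, bR, bK, pm⟩) :=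
    nm_pd_ok ⟨hs0, hs1⟩ hq hpd hℓ hr0 hν
  intro ρ
  obtain ⟨Sk, hSk, hSk'⟩ := hkb ρ
  choose F hF1 hF2 using fun kb : ℤ => nm_fit_list_Q hA
    ((nmRowT (Qs ρ) (D.ray j ρ)).res (if q.ds.glob then nmVal D.s (π.b2 q.ds.De - q.ds.De) kb else 0)) kb
  have hM0 : (0 : ℝ) ≤ 10 ^ 12 * nmMp D.s t e ^ 10 := by
    have : 0 ≤ nmMp D.s t e := by
      unfold nmMp
      exact mul_nonneg (by norm_num) (Real.rpow_pos_of_pos hs0 _).le
    positivity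
  refine ⟨Sk.biUnion F, ?_, ?_⟩
  · calc ((Sk.biUnion F).card : ℝ) ≤ ((∑ kb ∈ Sk, (F kb).card : ℕ) : ℝ) := by exact_mod_cast Finset.card_biUnion_le
      _ = ∑ kb ∈ Sk, ((F kb).card : ℝ) := by push_cast; rfl
      _ ≤ ∑ _kb ∈ Sk, (10 ^ 12 * nmMp D.s t e ^ 10) := Finset.sum_le_sum fun kb _ => hF1 kb
      _ = (Sk.card : ℝ) * (10 ^ 12 * nmMp D.s t e ^ 10) := by rw [Finset.sum_const, nsmul_eq_mul]
      _ ≤ Nk * (10 ^ 12 * nmMp D.s t e ^ 10) := mul_le_mul_of_nonneg_right hSk hM0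
  · intro ω hω _
    have hk := hSk' ω hω trivial
    have hg := nm_row_geo hD hπ h.t0 hj hj1 hω (hT ρ) (hQ ρ)
    have hc : D.Cur π q t e ⟨j, U, Nf, bR, bK, pm⟩ ν' (nmRowT (Qs ρ) (D.ray j ρ)) ω :=
      nm_cur_rowT (X := ⟨j, 0, 0, bR, bK, pm⟩) (X' := ⟨j, U, Nf, bR, bK, pm⟩) ⟨rfl, rfl, rfl⟩ _ (hcur ρ ω hω)
    have hfit := nm_fit_doc ⟨hs0, hs1⟩ hpd hℓ hf0 hν hν2 hg hc
    have hX := nm_fit_doc_X ⟨hs0, hs1⟩ hpd hr0 hν hvU hg
    rw [nm_kbar_val] at hfit hX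
    exact Finset.mem_biUnion.2 ⟨_, hk, hF2 _ _ hfit rfl hX⟩

theorem nm_row_bK45 (π : SfPar) {x : ℝ} (h0 : 0 ≤ x) (h1 : x ≤ 1) : |π.b2 x - x| ≤ |π.q| + 1 := by
  unfold SfPar.b2
  have h2 : |π.q * (x - 1)| ≤ |π.q| := by
    rw [abs_mul]
    have h3 : |x - 1| ≤ 1 := by
      rw [abs_le]
      constructor <;> linarith
    exact mul_le_of_le_one_right (abs_nonneg _) h3
  have h4 : |x| ≤ 1 := by
    rw [abs_of_nonneg h0]
    exact h1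
  have h5 := abs_sub (π.q * (x - 1)) x
  linarith

theorem nm_row_S45 (hcr : D.Core π C0 t) : 1 ≤ D.s ^ (-C0) :=
  Real.one_le_rpow_of_pos_of_le_one_of_nonpos hcr.hs.1 hcr.hs.2.le (by have := nm_C0_nonneg hcr; linarith)

theorem nm_row_nu45 (D : SfDoc) (π : SfPar) (C0 t : ℝ) (hs0 : 0 < D.s) : 0 ≤ D.nu π C0 t := by
  unfold SfDoc.nu
  exact mul_nonneg (by norm_num) (Real.rpow_pos_of_pos hs0 _).le

theorem nm_row_kb45 (π : SfPar) (hglob : q.ds.glob = false) : D.RowPr j (fun _ => True) (fun ω => (D.raw π q.ds ω).kb) 1 := by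
  intro ρ
  refine ⟨{0}, by simp, fun ω _ _ => ?_⟩
  rw [Finset.mem_singleton]
  exact (nm_kbar_eq D π hglob ω).2

/-- family EQ -/
theorem nm_row_eq (hD : D.Ok π C0 τ κ0 t) (hπ : π.Valid) (hs : D.s ≤ 1 / 350) (hc : 0 < π.c2) (hqc : π.q = π.c2) (hq : q.Ok π) (hds : q.ds = nmDsEq π)
    (hj : j ∈ D.G) (hj1 : j < 1) (h : NmPr π q t e j (π.b2 j) (π.b2 j - j) (min (π.b1 j) 0) a v)
    (hneg : q.dep π a v + 8 * C0 + 3 * |π.q| + 8 + e ≤ 1 / t) :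
    D.RowPr j (fun _ => True) (D.nm π q a v) (10 ^ 12 * nmMp D.s t e ^ 10) := by
  have hcr := hD.core
  obtain ⟨hs0, hs1⟩ := hcr.hs
  have hj01 := hcr.gate.2 j hj
  have hglob : q.ds.glob = false := by rw [hds]; rfl
  have hbK : |π.b2 j - j| ≤ |π.q| + 1 := nm_row_bK45 π hj01.1 hj01.2
  have hres := nm_row_list hD hπ hs hq hj hj1 h (by linarith) (fun ρ => D.lab j ρ) (fun _ => rfl)
    (fun ρ => (nm_lin0_size (nm_row_S45 hcr) (hcr.bdd j hj ρ).2).1) (ν' := D.nu π C0 t) ⟨nm_row_nu45 D π C0 t hs0, le_rfl⟩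
    (fun ρ ω hω => by
      have hc' := nm_cur_eq (e := e) (q := q) hD h.t0 h.t1 h.e0 hc hqc hds hj hj1 hω
      exact ⟨hc'.R, hc'.k, hc'.P⟩)
    (Nk := 1) (nm_row_kb45 π hglob)
  rwa [one_mul] at hres

/-- family LIN (`bR`, `bK` free: the inequalities `hb`, `hba`, `hlv` disappear) -/
theorem nm_row_lin (hD : D.Ok π C0 τ κ0 t) (hπ : π.Valid) (hs : D.s ≤ 1 / 350) (hc : π.c2 = 0) (hq : q.Ok π) (hds : q.ds = nmDsLin)
    (hj : j ∈ D.G) (hj1 : j < 1) (he : 0 ≤ e) (ht : 0 < t ∧ t ≤ 1) (ha : a ≤ j + e) (hlp : q.l π a v ≤ π.b1 j + e)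
    (hhyb : π.hyb = true → q.w π a v - q.g ≤ e) (hneg : q.dep π a v + 8 * C0 + 2 * |π.q| + 7 + e ≤ 1 / t) :
    D.RowPr j (fun _ => True) (D.nm π q a v) (10 ^ 12 * nmMp D.s t e ^ 10) := by
  have hcr := hD.core
  obtain ⟨hs0, hs1⟩ := hcr.hs
  have hglob : q.ds.glob = false := by rw [hds]; rfl
  have hcut : q.ds.cut = NmCut.none := by rw [hds]; rfl
  have hpr : NmPr π q t e j (q.l π a v - v - e) 0 (π.b1 j) a v :=
    ⟨he, ht.1, ht.2, ha, fun hne => absurd hcut hne, fun hsl => by rw [hcut] at hsl; exact absurd hsl (by simp), by linarith, hlp, hhyb⟩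
  have hres := nm_row_list hD hπ hs hq hj hj1 hpr (by rw [abs_zero]; linarith) (fun ρ => (D.lab j ρ).lin0) (fun _ => rfl)
    (fun ρ => (nm_lin0_size (nm_row_S45 hcr) (hcr.bdd j hj ρ).2).2) (ν' := 0) ⟨le_rfl, nm_row_nu45 D π C0 t hs0⟩
    (fun ρ ω hω => nm_cur_lin0 hD ht.1 he hc hds hj hj1 hω 0 0)
    (Nk := 1) (nm_row_kb45 π hglob)
  rwa [one_mul] at hres

/-- strict family, a gate before the end point -/
theorem nm_row_mid (hD : D.Ok π C0 τ κ0 t) (hπ : π.Valid) (hs : D.s ≤ 1 / 350) (hq1 : π.q < 1) (hq : q.Ok π) {De : ℝ} (hE : D.EndOk π De)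
    (hds : q.ds = nmDsStr π De) (hsl : (|π.q| + 1) * |D.gt De - De| ≤ e) (hDe : 0 ≤ De ∧ De ≤ 1) (hj : j ∈ D.G) (hjD : j < D.gt De)
    (h : NmPr π q t e j ((nmDsStr π De).b j) (π.b2 De - De) (min (π.b1 j) (π.b1 (D.gt De))) a v)
    (hneg : q.dep π a v + 8 * C0 + 3 * |π.q| + 8 + e ≤ 1 / t) :
    D.RowPr j (fun _ => True) (D.nm π q a v) ((4 * D.s ^ (-(t + e)) + 3) * (10 ^ 12 * nmMp D.s t e ^ 10)) := by
  have hcr := hD.core
  obtain ⟨hs0, hs1⟩ := hcr.hs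
  have hgt1 : D.gt De ≤ 1 := (hcr.gate.2 _ (nm_gt_mem D ⟨j, hj⟩ De)).2
  have hj1 : j < 1 := lt_of_lt_of_le hjD hgt1
  have hbK : |π.b2 De - De| ≤ |π.q| + 1 := nm_row_bK45 π hDe.1 hDe.2
  have hkb : D.RowPr j (fun _ => True) (fun ω => (D.raw π q.ds ω).kb) (4 * D.s ^ (-(t + e)) + 3) := by
    rw [hds]
    intro ρ
    obtain ⟨S, hS, h1⟩ := nm_str_kb hD hq1 hE hsl hj hjD (D.lab j ρ) ()
    refine ⟨S, hS, fun ω hω hE' => h1 ω ?_ hE' rfl⟩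
    unfold SfDoc.Met
    rw [if_neg hj1.ne]
    exact ⟨ρ, rfl, hω⟩
  exact nm_row_list hD hπ hs hq hj hj1 h (by linarith) (fun ρ => D.lab j ρ) (fun _ => rfl)
    (fun ρ => (nm_lin0_size (nm_row_S45 hcr) (hcr.bdd j hj ρ).2).1) (ν' := D.nu π C0 t) ⟨nm_row_nu45 D π C0 t hs0, le_rfl⟩
    (fun ρ ω hω => by
      have hc' := nm_cur_mid (e := e) (q := q) hD h.t0 h.t1 hq1 hE hds hsl hj hjD hω
      exact ⟨hc'.R, hc'.k, hc'.P⟩)
    hkb

theorem nm_pred_row_eqns_cite : True := by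
  have := @nmRowT.eq_1; have := @SfTest.lin0.eq_1; have := @SfDoc.nuR.eq_1
  trivial

end

end Claimed.Agent.R256
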