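import Claimed.Agent.R256.Nm.Fit.Main

/-!
# Row 256, unit NM, sub-block NM-PRED (Prop. names:canonical-entropy (ii),(iii),(iv) + lists of (i), 04-canonical-names.tex l.201-306), file 1: RAYS AND TESTS      (helper51; prefix `nm_`)

PAPER-FREE, no `SfDoc`.
* `Q.res kb`, `z.res kb` : subtraction of the common shear with the curvature trajectory `(kb t, kb)` (strict display, l.80-88).   The expressions of a test are INVARIANT: `nm_res_N`, `nm_res_D`, `nm_res_base`; `nm_res_Pd`.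
* `nm_mem_perturb` : a ray `z0` in a test `Q`, a second ray `z` with almost the same base and normal coordinates within `δN`, `δD`: the expressions of `Q` on `z`.
-/

set_option autoImplicit false

namespace Claimed.Agent.R256

open Classical

noncomputable section

/-- the residual test -/
def SfTest.res (Q : SfTest) (kb : ℝ) : SfTest := { Q with be := Q.be - kb * Q.T, K := Q.K - kb }

/-- the residual ray -/
def SfRay.res (z : SfRay) (kb : ℝ) : SfRay := ⟨z.X, z.B, z.Y, z.N - kb * (z.Y - 2 * z.X * z.B), z.D + kb * z.B ^ 2⟩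

/-- the velocity expression of a test -/
def SfTest.eN (Q : SfTest) (z : SfRay) : ℝ :=
  z.N - Q.c - Q.al * z.X - Q.be * z.X ^ 2 - Q.K * (z.Yt Q.T - 2 * z.X * z.Bt Q.T)

/-- the position expression of a test -/
def SfTest.eD (Q : SfTest) (z : SfRay) : ℝ :=
  z.Dt Q.T - Q.d - Q.al * z.Bt Q.T - Q.be * z.Yt Q.T + Q.K * z.Bt Q.T ^ 2

/-- the quadratic base expression, tilted by the ray itself -/
def SfTest.eY (Q : SfTest) (z : SfRay) : ℝ := z.Yt Q.T - Q.y - 2 * z.X * (z.Bt Q.T - Q.b)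

theorem nm_res_N (Q : SfTest) (z : SfRay) (kb : ℝ) : (Q.res kb).eN (z.res kb) = Q.eN z := by
  simp only [SfTest.eN, SfTest.res, SfRay.res, SfRay.Yt, SfRay.Bt]
  ring

theorem nm_res_D (Q : SfTest) (z : SfRay) (kb : ℝ) : (Q.res kb).eD (z.res kb) = Q.eD z := by
  simp only [SfTest.eD, SfTest.res, SfRay.res, SfRay.Yt, SfRay.Bt, SfRay.Dt]
  ring

theorem nm_res_Y (Q : SfTest) (z : SfRay) (kb : ℝ) : (Q.res kb).eY (z.res kb) = Q.eY z := by
  simp only [SfTest.eY, SfTest.res, SfRay.res, SfRay.Yt, SfRay.Bt]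

theorem nm_res_Pd (Q : SfTest) (z : SfRay) (kb : ℝ) : (Q.res kb).Pd (z.res kb) = Q.Pd z + 2 * kb * z.B := by
  simp only [SfTest.Pd, SfTest.res, SfRay.res, SfRay.Bt]
  ring

theorem nm_abs_mul_le {a b A B : ℝ} (ha : |a| ≤ A) (hb : |b| ≤ B) : |a * b| ≤ A * B := by
  rw [abs_mul]
  exact mul_le_mul ha hb (abs_nonneg _) ((abs_nonneg _).trans ha)

/-- **perturbation of a member of a test**.   `S ≥ 1` bounds all sizes, `ε ≤ 1` the base distance. -/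
theorem nm_mem_perturb {Q : SfTest} {z0 z : SfRay} {l S ε δN δD : ℝ} (hl : 0 ≤ l) (hr : 0 ≤ Q.r) (hm : Q.Mem l z0) (hT : 0 ≤ Q.T ∧ Q.T ≤ 1)
    (hS : 1 ≤ S) (hQ : Q.size ≤ S) (hz0 : z0.size ≤ S) (hz : z.size ≤ S) (hε : 0 ≤ ε ∧ ε ≤ 1) (hb : z0.bdist z ≤ ε)
    (hN : |z.N - z0.N| ≤ δN) (hD : |z.Dt Q.T - z0.Dt Q.T| ≤ δD) :
    |z.X - Q.x| ≤ Q.r + ε ∧ |z.Bt Q.T - Q.b| ≤ l * Q.r + 2 * ε ∧ |Q.eY z| ≤ 3 * (l * Q.r ^ 2) + 14 * S ^ 2 * ε ∧
      |Q.eN z| ≤ Q.f + δN + 14 * S ^ 2 * ε ∧ |Q.eD z| ≤ l * Q.f + δD + 14 * S ^ 2 * ε ∧ |Q.Pd z - Q.Pd z0| ≤ 14 * S ^ 2 * ε := by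
  obtain ⟨m1, m2, m3, m4, m5⟩ := hm
  obtain ⟨hT0, hT1⟩ := hT
  obtain ⟨hε0, hε1⟩ := hε
  simp only [SfTest.size, SfRay.size, SfRay.bdist, max_le_iff] at hQ hz0 hz hb
  obtain ⟨qx, qb, qy, qc, qd, qal, qbe, qK⟩ := hQ
  obtain ⟨aX, aB, aY, aN, aD⟩ := hz0
  obtain ⟨bX, bB, bY, bN, bD⟩ := hz
  obtain ⟨dX, dB, dY⟩ := hb
  have hS0 : 0 ≤ S := by linarith
  have hTa : |Q.T| ≤ 1 := by rw [abs_of_nonneg hT0]; exact hT1
  have s1 : S * ε ≤ S ^ 2 * ε := by nlinarith [mul_nonneg hS0 hε0]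
  have s0 : ε ≤ S * ε := by nlinarith
  rw [abs_sub_comm] at dX dB dY
  -- elementary differences
  have eBt : |z.Bt Q.T - z0.Bt Q.T| ≤ 2 * ε := by
    have e : z.Bt Q.T - z0.Bt Q.T = (z.B - z0.B) + Q.T * (z.X - z0.X) := by simp only [SfRay.Bt]; ring
    have h1 := nm_abs_mul_le hTa dX
    rw [e]
    exact (abs_add_le _ _).trans (by linarith)
  have eX2 : |z.X ^ 2 - z0.X ^ 2| ≤ 2 * (S * ε) := by
    have e : z.X ^ 2 - z0.X ^ 2 = (z.X + z0.X) * (z.X - z0.X) := by ring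
    have h0 : |z.X + z0.X| ≤ 2 * S := (abs_add_le _ _).trans (by linarith)
    have h1 := nm_abs_mul_le h0 dX
    rw [e]
    linarith
  have eYt : |z.Yt Q.T - z0.Yt Q.T| ≤ ε + 2 * (S * ε) := by
    have e : z.Yt Q.T - z0.Yt Q.T = (z.Y - z0.Y) + Q.T * (z.X ^ 2 - z0.X ^ 2) := by simp only [SfRay.Yt]; ring
    have h1 := nm_abs_mul_le hTa eX2
    rw [e]
    exact (abs_add_le _ _).trans (by linarith)
  have aBt : |z0.Bt Q.T| ≤ 2 * S := by
    have h1 := nm_abs_mul_le hTa aX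
    simp only [SfRay.Bt]
    exact (abs_add_le _ _).trans (by linarith)
  have bBt : |z.Bt Q.T| ≤ 2 * S := by
    have h1 := nm_abs_mul_le hTa bX
    simp only [SfRay.Bt]
    exact (abs_add_le _ _).trans (by linarith)
  refine ⟨?_, ?_, ?_, ?_, ?_, ?_⟩
  · have e : z.X - Q.x = (z0.X - Q.x) + (z.X - z0.X) := by ring
    rw [e]
    exact (abs_add_le _ _).trans (by linarith)
  · have e : z.Bt Q.T - Q.b = (z0.Bt Q.T - Q.b) + (z.Bt Q.T - z0.Bt Q.T) := by ring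
    rw [e]
    exact (abs_add_le _ _).trans (by linarith)
  · have e : Q.eY z = (z0.Yt Q.T - Q.y - 2 * Q.x * (z0.Bt Q.T - Q.b)) + (-2) * ((z0.X - Q.x) * (z0.Bt Q.T - Q.b)) + (z.Yt Q.T - z0.Yt Q.T)
        + (-2) * (z.X * (z.Bt Q.T - z0.Bt Q.T)) + (-2) * ((z.X - z0.X) * (z0.Bt Q.T - Q.b)) := by
      simp only [SfTest.eY]
      ring
    have h1 := nm_abs_mul_le m1 m2
    have h2 := nm_abs_mul_le bX eBt
    have h3 : |z0.Bt Q.T - Q.b| ≤ 3 * S := (abs_sub _ _).trans (by linarith)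
    have h4 := nm_abs_mul_le dX h3
    rw [abs_le] at m3 h1 h2 h4 eYt ⊢
    rw [e]
    constructor <;> linarith
  · have e : Q.eN z = (z0.N - Q.c - Q.al * z0.X - Q.be * z0.X ^ 2 - Q.K * (z0.Yt Q.T - 2 * z0.X * z0.Bt Q.T)) + (z.N - z0.N)
        - Q.al * (z.X - z0.X) - Q.be * (z.X ^ 2 - z0.X ^ 2) - Q.K * (z.Yt Q.T - z0.Yt Q.T) + 2 * (Q.K * (z.X * (z.Bt Q.T - z0.Bt Q.T)))
        + 2 * (Q.K * ((z.X - z0.X) * z0.Bt Q.T)) := by
      simp only [SfTest.eN]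
      ring
    have h1 := nm_abs_mul_le qal dX
    have h2 := nm_abs_mul_le qbe eX2
    have h3 := nm_abs_mul_le qK eYt
    have h4 := nm_abs_mul_le qK (nm_abs_mul_le bX eBt)
    have h5 := nm_abs_mul_le qK (nm_abs_mul_le dX aBt)
    rw [abs_le] at m4 hN h1 h2 h3 h4 h5 ⊢
    rw [e]
    constructor <;> linarith
  · have e : Q.eD z = (z0.Dt Q.T - Q.d - Q.al * z0.Bt Q.T - Q.be * z0.Yt Q.T + Q.K * z0.Bt Q.T ^ 2) + (z.Dt Q.T - z0.Dt Q.T)
        - Q.al * (z.Bt Q.T - z0.Bt Q.T) - Q.be * (z.Yt Q.T - z0.Yt Q.T) + Q.K * ((z.Bt Q.T + z0.Bt Q.T) * (z.Bt Q.T - z0.Bt Q.T)) := by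
      simp only [SfTest.eD]
      ring
    have h1 := nm_abs_mul_le qal eBt
    have h2 := nm_abs_mul_le qbe eYt
    have h0 : |z.Bt Q.T + z0.Bt Q.T| ≤ 4 * S := (abs_add_le _ _).trans (by linarith)
    have h3 := nm_abs_mul_le qK (nm_abs_mul_le h0 eBt)
    rw [abs_le] at m5 hD h1 h2 h3 ⊢
    rw [e]
    constructor <;> linarith
  · have e : Q.Pd z - Q.Pd z0 = 2 * (Q.be * (z.X - z0.X)) - 2 * (Q.K * (z.Bt Q.T - z0.Bt Q.T)) := by
      simp only [SfTest.Pd]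
      ring
    have h1 := nm_abs_mul_le qbe dX
    have h2 := nm_abs_mul_le qK eBt
    rw [abs_le] at h1 h2 ⊢
    rw [e]
    constructor <;> linarith

theorem nm_pred_geo_eqns_cite : True := by
  have := @SfTest.res.eq_1; have := @SfRay.res.eq_1; have := @SfTest.eN.eq_1; have := @SfTest.eD.eq_1; have := @SfTest.eY.eq_1
  trivial

end

end Claimed.Agent.R256
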