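import Claimed.Agent.R256.Nm.Pred.Fam

/-!
# Row 256, unit NM, sub-block NM-PRED, file 4: LABEL PREDICTION      (helper51; prefix `nm_`)

**EXITS** = Prop. names:canonical-entropy (ii), (iii), (iv) and the lists of (i)   (04-canonical-names.tex l.201-306; X4, X5 and the geometric half of X3 of report 848).
All lists are `≤ 10^12 M^10`, `M = nmMp s t e = 1000 s^(-6 (t+e))`:  `t` = tolerance of the configuration, `e` = slack in the exponent inequalities `NmPd` (for approximated gates / closed conditions).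
* `nm_pred_eq`,  `nm_pred_lin`  : `(λ_j, X^(v))` predicts `𝒞(a,v)` on every completing path, `j < 1` a gate  ((iv); hybrid allowed: `NmPd.hhyb`).       `nm_pred_eq_lab`, `nm_pred_lin_lab` : `λ_j` alone if `v ≤ u j + e`  ((iii), and (i) at `j = a`).
* `nm_pred_str`, `nm_pred_str_lab` : strict family, the label of the end point `De ≠ 1` (gate `D.gt De < 1`, classical).
* `nm_pred_own`, `nm_pred_own_lab` : the own final label (`De = 1`; all families, hybrid allowed): (i) at `(1, 0)`, (iv) last sentence.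
* `nm_str_kb` : (ii), every label connected from `i < De` predicts `k̄`   (bounds: `nm_str_res` in `Pred/Fam.lean`).
* `nm_ent_lab`, `nm_ent_own` : a variable predicted by the labels of a gate has entropy `≤ log (list) + log (number of labels)`.
HOW TO CHECK `NmPd` in the cases of the paper: (iii) `v = u j`, `a < j`, `l(a,v) ≤ min (b1 j) 0`: all inequalities hold with `e = 0`.   (iv) `0 ≤ v - u j ≤ min {1, bs} (j - a) / 2`.
-/

set_option autoImplicit false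

namespace Claimed.Agent.R256

open Claimed.Agent.R255
open Classical

noncomputable section

/-- the own final label together with the value of `A` lists `B` -/
def SfDoc.OwnPr (D : SfDoc) {α β : Type} (B : D.Row 1 → β) (A : D.Row 1 → α) (N : ℝ) : Prop :=
  ∀ (lam : SfTest) (x : α), ∃ S : Finset β, (S.card : ℝ) ≤ N ∧ ∀ ω : D.Row 1, D.lab 1 ω = lam → A ω = x → B ω ∈ S

/-- prediction by the own label = `LabPr` at the gate `1` -/
theorem nm_labpr_one {D : SfDoc} {α β : Type} {B : D.Row 1 → β} {A : D.Row 1 → α} {N : ℝ} (h : D.OwnPr B A N) :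
    D.LabPr 1 (fun _ => True) B A N := by
  intro lam x
  obtain ⟨S, hS, hm⟩ := h lam x
  refine ⟨S, hS, fun ω hω _ hA => hm ω ?_ hA⟩
  simpa [SfDoc.Met] using hω

/-- prediction along `Conn` = `LabPr` at a gate `j ≠ 1` -/
theorem nm_labpr_conn {D : SfDoc} {j : ℝ} (hj : j ≠ 1) {α β : Type} {E : D.Row 1 → Prop} {B : D.Row 1 → β} {A : D.Row 1 → α} {N : ℝ} :
    D.LabPr j E B A N ↔ ∀ (lam : SfTest) (x : α), ∃ S : Finset β, (S.card : ℝ) ≤ N ∧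
      ∀ (ρ : D.Row j) (ω : D.Row 1), D.lab j ρ = lam → D.Conn j 1 ρ ω → E ω → A ω = x → B ω ∈ S := by
  constructor
  · intro h lam x
    obtain ⟨S, hS, hm⟩ := h lam x
    refine ⟨S, hS, fun ρ ω h1 h2 h3 h4 => hm ω ?_ h3 h4⟩
    unfold SfDoc.Met
    rw [if_neg hj]
    exact ⟨ρ, h1, h2⟩
  · intro h lam x
    obtain ⟨S, hS, hm⟩ := h lam x
    refine ⟨S, hS, fun ω h1 h3 h4 => ?_⟩
    unfold SfDoc.Met at h1
    rw [if_neg hj] at h1
    obtain ⟨ρ, h5, h6⟩ := h1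
    exact hm ρ ω h5 h6 h3 h4

variable {D : SfDoc} {π : SfPar} {C0 τ κ0 t e j a v : ℝ} {q : NmQ}

/-- `k̄` is a function of its bin (copy of `nm_kbar_val` of `Pred/Row.lean`, which is downstream) -/
theorem nm_kbar_bin (D : SfDoc) (π : SfPar) (ds : NmDs) (ω : D.Row 1) :
    D.kbar π ds ω = if ds.glob then nmVal D.s (π.b2 ds.De - ds.De) (D.raw π ds ω).kb else 0 := by
  unfold SfDoc.kbar SfDoc.raw
  by_cases hg : ds.glob = true
  · simp only [hg, if_true]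
    rfl
  · simp only [hg]
    rfl

/-- **generic label prediction**: `Rel lam ω` = the final row `ω` meets the label `lam` of the gate `j` -/
theorem nm_lab_list (hD : D.Ok π C0 τ κ0 t) (hq : q.Ok π) (hj : j ∈ D.G) {pm : ℝ} (h : NmPd π q t e (π.xpL j pm) a v)
    (hneg : q.dep π a v + 2 * C0 + 2 * |π.q| + 7 + e ≤ 1 / t) (Rel : SfTest → D.Row 1 → Prop) (kbf : SfTest → ℤ)
    (hg : ∀ lam ω, Rel lam ω → D.Geo π t (D.len j) (D.r j) (D.f j) (D.nu0 C0 t) lam ω)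
    (hc : ∀ lam ω, Rel lam ω → D.Cur π q t e (π.xpL j pm) (D.nu π C0 t) lam ω)
    (hk : ∀ lam ω, Rel lam ω → (D.raw π q.ds ω).kb = kbf lam) :
    (∀ (lam : SfTest) (n : ℤ), ∃ S : Finset NmNm, (S.card : ℝ) ≤ 10 ^ 11 * nmMp D.s t e ^ 9 ∧
      ∀ ω, Rel lam ω → D.Xc v ω = n → D.nm π q a v ω ∈ S) ∧
    (v ≤ π.u j + e → ∀ lam : SfTest, ∃ S : Finset NmNm, (S.card : ℝ) ≤ 10 ^ 12 * nmMp D.s t e ^ 10 ∧
      ∀ ω, Rel lam ω → D.nm π q a v ω ∈ S) := by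
  have hcr := hD.core
  have hs := hcr.hs
  have hj01 := hcr.gate.2 j hj
  obtain ⟨hν, hν'⟩ := nm_neg_lab (D := D) (pm := pm) hs hj01 hneg
  have hℓ : 0 ≤ D.len j ∧ D.len j ≤ D.s ^ ((π.xpL j pm).j - t) := ⟨(nm_len_pos hcr hj).le, (hcr.hlen.2 j hj).2⟩
  have hr : 0 ≤ D.r j ∧ D.r j ≤ D.s ^ ((π.xpL j pm).U - t) := ⟨(hcr.hw.2.2 j hj).1.le, (hD.aff.hr j hj).2⟩
  have hf : 0 ≤ D.f j ∧ D.f j ≤ D.s ^ ((π.xpL j pm).Nf - t) := ⟨(hcr.hw.2.2 j hj).2.le, (hD.aff.hf j hj).2⟩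
  have hA : (⟨D.s, π, q, a, v⟩ : NmAv).Ok (nmWp D.s t e (D.len j) (D.r j) (D.nu0 C0 t) (π.xpL j pm)) := nm_pd_ok hs hq h hℓ hr hν
  constructor
  · intro lam n
    obtain ⟨S, hS, hm⟩ := nm_fit_list_X hA (lam.res (if q.ds.glob then nmVal D.s (π.b2 q.ds.De - q.ds.De) (kbf lam) else 0)) (kbf lam) n
    refine ⟨S, hS, fun ω hω hX => ?_⟩
    have hfit := nm_fit_doc hs h hℓ hf hν hν' (hg lam ω hω) (hc lam ω hω)
    rw [nm_kbar_bin, hk lam ω hω] at hfit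
    exact hm _ hfit (hk lam ω hω) hX
  · intro hv lam
    obtain ⟨S, hS, hm⟩ := nm_fit_list_Q hA (lam.res (if q.ds.glob then nmVal D.s (π.b2 q.ds.De - q.ds.De) (kbf lam) else 0)) (kbf lam)
    refine ⟨S, hS, fun ω hω => ?_⟩
    have hfit := nm_fit_doc hs h hℓ hf hν hν' (hg lam ω hω) (hc lam ω hω)
    have hX := nm_fit_doc_X hs h hr hν hv (hg lam ω hω)
    rw [nm_kbar_bin, hk lam ω hω] at hfit hX
    exact hm _ hfit (hk lam ω hω) hX

/-- the two forms of `LabPr` at a gate `j < 1` from `nm_lab_list` -/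
theorem nm_lab_conn (hD : D.Ok π C0 τ κ0 t) (hπ : π.Valid) (hq : q.Ok π) (hj : j ∈ D.G) (hj1 : j < 1) {pm : ℝ} (h : NmPd π q t e (π.xpL j pm) a v)
    (hneg : q.dep π a v + 2 * C0 + 2 * |π.q| + 7 + e ≤ 1 / t) (kbf : SfTest → ℤ)
    (hc : ∀ (ρ : D.Row j) ω, D.Conn j 1 ρ ω → D.Cur π q t e (π.xpL j pm) (D.nu π C0 t) (D.lab j ρ) ω)
    (hk : ∀ (ρ : D.Row j) ω, D.Conn j 1 ρ ω → (D.raw π q.ds ω).kb = kbf (D.lab j ρ)) :
    D.LabPr j (fun _ => True) (D.nm π q a v) (D.Xc v) (10 ^ 11 * nmMp D.s t e ^ 9) ∧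
      (v ≤ π.u j + e → D.LabPr j (fun _ => True) (D.nm π q a v) (fun _ => ()) (10 ^ 12 * nmMp D.s t e ^ 10)) := by
  obtain ⟨l1, l2⟩ := nm_lab_list hD hq hj h hneg (fun lam ω => ∃ ρ : D.Row j, D.lab j ρ = lam ∧ D.Conn j 1 ρ ω) kbf
    (by rintro _ ω ⟨ρ, rfl, hρ⟩; exact nm_conn_geo hD hπ h.t0 hj hj1 hρ)
    (by rintro _ ω ⟨ρ, rfl, hρ⟩; exact hc ρ ω hρ)
    (by rintro _ ω ⟨ρ, rfl, hρ⟩; exact hk ρ ω hρ)
  constructor
  · rw [nm_labpr_conn hj1.ne]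
    intro lam n
    obtain ⟨S, hS, hm⟩ := l1 lam n
    exact ⟨S, hS, fun ρ ω h1 h2 _ h4 => hm ω ⟨ρ, h1, h2⟩ h4⟩
  · intro hv
    rw [nm_labpr_conn hj1.ne]
    intro lam _
    obtain ⟨S, hS, hm⟩ := l2 hv lam
    exact ⟨S, hS, fun ρ ω h1 h2 _ _ => hm ω ⟨ρ, h1, h2⟩⟩

/-- **(iv), family EQ** -/
theorem nm_pred_eq (hD : D.Ok π C0 τ κ0 t) (hπ : π.Valid) (hc : 0 < π.c2) (hqc : π.q = π.c2) (hq : q.Ok π) (hds : q.ds = nmDsEq π)
    (hj : j ∈ D.G) (hj1 : j < 1) (h : NmPd π q t e (π.xpL j (min (π.b1 j) 0)) a v) (hneg : q.dep π a v + 2 * C0 + 2 * |π.q| + 7 + e ≤ 1 / t) :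
    D.LabPr j (fun _ => True) (D.nm π q a v) (D.Xc v) (10 ^ 11 * nmMp D.s t e ^ 9) := by
  exact (nm_lab_conn hD hπ hq hj hj1 h hneg (fun _ => 0) (fun ρ ω hρ => nm_cur_eq hD h.t0 h.t1 h.e0 hc hqc hds hj hj1 hρ)
    (fun ρ ω _ => (nm_kbar_eq D π (by rw [hds]; rfl) ω).2)).1

/-- **(iii), family EQ** -/
theorem nm_pred_eq_lab (hD : D.Ok π C0 τ κ0 t) (hπ : π.Valid) (hc : 0 < π.c2) (hqc : π.q = π.c2) (hq : q.Ok π) (hds : q.ds = nmDsEq π)
    (hj : j ∈ D.G) (hj1 : j < 1) (h : NmPd π q t e (π.xpL j (min (π.b1 j) 0)) a v) (hneg : q.dep π a v + 2 * C0 + 2 * |π.q| + 7 + e ≤ 1 / t) (hv : v ≤ π.u j + e) :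
    D.LabPr j (fun _ => True) (D.nm π q a v) (fun _ => ()) (10 ^ 12 * nmMp D.s t e ^ 10) := by
  exact (nm_lab_conn hD hπ hq hj hj1 h hneg (fun _ => 0) (fun ρ ω hρ => nm_cur_eq hD h.t0 h.t1 h.e0 hc hqc hds hj hj1 hρ)
    (fun ρ ω _ => (nm_kbar_eq D π (by rw [hds]; rfl) ω).2)).2 hv

/-- **(iv), family LIN** -/
theorem nm_pred_lin (hD : D.Ok π C0 τ κ0 t) (hπ : π.Valid) (hc : π.c2 = 0) (hc1 : 0 < π.c1) (hqc : π.q = π.c1 + π.J) (hq : q.Ok π)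
    (hds : q.ds = nmDsLin) (hj : j ∈ D.G) (hj1 : j < 1) (h : NmPd π q t e (π.xpL j (π.b1 j)) a v) (hneg : q.dep π a v + 2 * C0 + 2 * |π.q| + 7 + e ≤ 1 / t) :
    D.LabPr j (fun _ => True) (D.nm π q a v) (D.Xc v) (10 ^ 11 * nmMp D.s t e ^ 9) := by
  exact (nm_lab_conn hD hπ hq hj hj1 h hneg (fun _ => 0) (fun ρ ω hρ => nm_cur_lin hD hπ h.t0 h.t1 h.e0 hc hc1 hqc hds hj hj1 hρ)
    (fun ρ ω _ => (nm_kbar_eq D π (by rw [hds]; rfl) ω).2)).1

/-- **(iii), family LIN** -/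
theorem nm_pred_lin_lab (hD : D.Ok π C0 τ κ0 t) (hπ : π.Valid) (hc : π.c2 = 0) (hc1 : 0 < π.c1) (hqc : π.q = π.c1 + π.J) (hq : q.Ok π)
    (hds : q.ds = nmDsLin) (hj : j ∈ D.G) (hj1 : j < 1) (h : NmPd π q t e (π.xpL j (π.b1 j)) a v) (hneg : q.dep π a v + 2 * C0 + 2 * |π.q| + 7 + e ≤ 1 / t) (hv : v ≤ π.u j + e) :
    D.LabPr j (fun _ => True) (D.nm π q a v) (fun _ => ()) (10 ^ 12 * nmMp D.s t e ^ 10) := by
  exact (nm_lab_conn hD hπ hq hj hj1 h hneg (fun _ => 0) (fun ρ ω hρ => nm_cur_lin hD hπ h.t0 h.t1 h.e0 hc hc1 hqc hds hj hj1 hρ)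
    (fun ρ ω _ => (nm_kbar_eq D π (by rw [hds]; rfl) ω).2)).2 hv

/-- strict display: the global bin is read on the label of the end point -/
theorem nm_str_kb_lab (hD : D.Ok π C0 τ κ0 t) (hcl : π.hyb = false) {De : ℝ} (hds : q.ds = nmDsStr π De) (hDe : De ≠ 1) (hj1 : D.gt De < 1)
    (ρ : D.Row (D.gt De)) (ω : D.Row 1) (h : D.Conn (D.gt De) 1 ρ ω) :
    (D.raw π q.ds ω).kb = nmCell D.s (π.b2 De - De) (D.lab (D.gt De) ρ).K := by
  rw [hds, ← nm_labAt_eq hD.core hcl hDe hj1 h]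
  rfl

/-- **(iv), strict version**, end point `De ≠ 1` approximated by the gate `D.gt De < 1`, classical -/
theorem nm_pred_str (hD : D.Ok π C0 τ κ0 t) (hπ : π.Valid) (hcl : π.hyb = false) (hq : q.Ok π) {De : ℝ} (hds : q.ds = nmDsStr π De)
    (hDe : De ≠ 1) (hj1 : D.gt De < 1) (hsl : (|π.q| + 1) * |D.gt De - De| ≤ e) (h : NmPd π q t e (π.xpL (D.gt De) (π.b1 (D.gt De))) a v)
    (hneg : q.dep π a v + 2 * C0 + 2 * |π.q| + 7 + e ≤ 1 / t) :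
    D.LabPr (D.gt De) (fun _ => True) (D.nm π q a v) (D.Xc v) (10 ^ 11 * nmMp D.s t e ^ 9) := by
  exact (nm_lab_conn hD hπ hq (nm_gt_mem D ⟨1, hD.core.gate.1⟩ De) hj1 h hneg (fun lam => nmCell D.s (π.b2 De - De) lam.K)
    (fun ρ ω hρ => nm_cur_str hD h.t0 hcl hds hDe hj1 hsl hρ) (fun ρ ω hρ => nm_str_kb_lab hD hcl hds hDe hj1 ρ ω hρ)).1

theorem nm_pred_str_lab (hD : D.Ok π C0 τ κ0 t) (hπ : π.Valid) (hcl : π.hyb = false) (hq : q.Ok π) {De : ℝ} (hds : q.ds = nmDsStr π De)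
    (hDe : De ≠ 1) (hj1 : D.gt De < 1) (hsl : (|π.q| + 1) * |D.gt De - De| ≤ e) (h : NmPd π q t e (π.xpL (D.gt De) (π.b1 (D.gt De))) a v)
    (hneg : q.dep π a v + 2 * C0 + 2 * |π.q| + 7 + e ≤ 1 / t)
    (hv : v ≤ π.u (D.gt De) + e) :
    D.LabPr (D.gt De) (fun _ => True) (D.nm π q a v) (fun _ => ()) (10 ^ 12 * nmMp D.s t e ^ 10) := by
  exact (nm_lab_conn hD hπ hq (nm_gt_mem D ⟨1, hD.core.gate.1⟩ De) hj1 h hneg (fun lam => nmCell D.s (π.b2 De - De) lam.K)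
    (fun ρ ω hρ => nm_cur_str hD h.t0 hcl hds hDe hj1 hsl hρ) (fun ρ ω hρ => nm_str_kb_lab hD hcl hds hDe hj1 ρ ω hρ)).2 hv

/-- end point `1`: the global bin is read on the own label -/
theorem nm_own_kb (D : SfDoc) (hf : q.FamE π 1) (ω : D.Row 1) :
    (D.raw π q.ds ω).kb = if q.ds.glob then nmCell D.s (π.b2 1 - 1) (D.lab 1 ω).K else 0 := by
  rcases hf with ⟨-, -, hds, -⟩ | ⟨-, -, -, hds, -⟩ | ⟨-, -, hds⟩
  · rw [(nm_kbar_eq D π (by rw [hds]; rfl) ω).2, hds]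
    rfl
  · rw [(nm_kbar_eq D π (by rw [hds]; rfl) ω).2, hds]
    rfl
  · rw [hds, ← nm_labAt_one D ω]
    rfl

/-- **the own final label** (`De = 1`) -/
theorem nm_pred_own (hD : D.Ok π C0 τ κ0 t) (hπ : π.Valid) (hq : q.Ok π) (hf : q.FamE π 1) (h : NmPd π q t e (π.xpL 1 0) a v)
    (hneg : q.dep π a v + 2 * C0 + 2 * |π.q| + 7 + e ≤ 1 / t) :
    D.OwnPr (D.nm π q a v) (D.Xc v) (10 ^ 11 * nmMp D.s t e ^ 9) := by
  obtain ⟨l1, -⟩ := nm_lab_list hD hq hD.core.gate.1 h hneg (fun lam ω => D.lab 1 ω = lam)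
    (fun lam => if q.ds.glob then nmCell D.s (π.b2 1 - 1) lam.K else 0)
    (by rintro _ ω rfl; exact nm_own_geo hD.core ω)
    (by rintro _ ω rfl; exact nm_cur_own hD hπ h.t0 h.e0 hf ω)
    (by rintro _ ω rfl; exact nm_own_kb D hf ω)
  exact l1

theorem nm_pred_own_lab (hD : D.Ok π C0 τ κ0 t) (hπ : π.Valid) (hq : q.Ok π) (hf : q.FamE π 1) (h : NmPd π q t e (π.xpL 1 0) a v)
    (hneg : q.dep π a v + 2 * C0 + 2 * |π.q| + 7 + e ≤ 1 / t) (hv : v ≤ e) :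
    D.OwnPr (D.nm π q a v) (fun _ => ()) (10 ^ 12 * nmMp D.s t e ^ 10) := by
  obtain ⟨-, l2⟩ := nm_lab_list hD hq hD.core.gate.1 h hneg (fun lam ω => D.lab 1 ω = lam)
    (fun lam => if q.ds.glob then nmCell D.s (π.b2 1 - 1) lam.K else 0)
    (by rintro _ ω rfl; exact nm_own_geo hD.core ω)
    (by rintro _ ω rfl; exact nm_cur_own hD hπ h.t0 h.e0 hf ω)
    (by rintro _ ω rfl; exact nm_own_kb D hf ω)
  have hu : π.u 1 = 0 := by unfold SfPar.u; ring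
  intro lam _
  obtain ⟨S, hS, hm⟩ := l2 (by rw [hu]; linarith) lam
  exact ⟨S, hS, fun ω h1 _ => hm ω h1⟩

/-- **(ii)**: every label connected from `i < De` predicts `k̄` -/
theorem nm_str_kb (hD : D.Ok π C0 τ κ0 t) (hq1 : π.q < 1) {De : ℝ} (hE : D.EndOk π De) (hsl : (|π.q| + 1) * |D.gt De - De| ≤ e)
    {i : ℝ} (hi : i ∈ D.G) (hiD : i < D.gt De) :
    D.LabPr i (fun _ => True) (fun ω => (D.raw π (nmDsStr π De) ω).kb) (fun _ => ()) (4 * D.s ^ (-(t + e)) + 3) := by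
  have hc' := hD.core
  have hs := hc'.hs
  have hs0 : 0 < D.s := hs.1
  have h1G := hc'.gate.1
  have hjG := nm_gt_mem D ⟨1, h1G⟩ De
  have hi1 : i ≠ 1 := (lt_of_lt_of_le hiD (hc'.gate.2 _ hjG).2).ne
  obtain ⟨s1, -, -, s4⟩ := nm_sl_le π hsl
  rw [nm_labpr_conn hi1]
  intro lam _
  have hM0 : 0 ≤ 2 * D.s ^ (-(t + e)) + 1 := by
    have := Real.rpow_pos_of_pos hs0 (-(t + e))
    positivity
  refine ⟨Finset.Icc (nmCell D.s (π.b2 De - De) lam.K - ⌊2 * D.s ^ (-(t + e)) + 1⌋) (nmCell D.s (π.b2 De - De) lam.K + ⌊2 * D.s ^ (-(t + e)) + 1⌋), ?_, ?_⟩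
  · rw [Int.card_Icc]
    have h0 : 0 ≤ ⌊2 * D.s ^ (-(t + e)) + 1⌋ := Int.floor_nonneg.2 hM0
    have e1 : nmCell D.s (π.b2 De - De) lam.K + ⌊2 * D.s ^ (-(t + e)) + 1⌋ + 1 - (nmCell D.s (π.b2 De - De) lam.K - ⌊2 * D.s ^ (-(t + e)) + 1⌋)
        = 2 * ⌊2 * D.s ^ (-(t + e)) + 1⌋ + 1 := by ring
    rw [e1]
    have e2 : (((2 * ⌊2 * D.s ^ (-(t + e)) + 1⌋ + 1).toNat : ℕ) : ℝ) = 2 * (⌊2 * D.s ^ (-(t + e)) + 1⌋ : ℝ) + 1 := by
      have h3 : (((2 * ⌊2 * D.s ^ (-(t + e)) + 1⌋ + 1).toNat : ℕ) : ℤ) = 2 * ⌊2 * D.s ^ (-(t + e)) + 1⌋ + 1 := Int.toNat_of_nonneg (by linarith)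
      exact_mod_cast h3
    rw [e2]
    have := Int.floor_le (2 * D.s ^ (-(t + e)) + 1)
    linarith
  · intro ρ ω h1 h2 _ _
    subst h1
    have hK := nm_str_K hD hq1 hE hi hiD h2
    show (if (nmDsStr π De).glob then nmCell D.s (π.b2 De - De) (D.labAt De ω).K else 0) ∈ _
    rw [if_pos (show (nmDsStr π De).glob = true from rfl)]
    have h3 : |(D.labAt De ω).K - (D.lab i ρ).K| ≤ 1 * D.s ^ (π.b2 De - De - t - e) := by
      rw [abs_sub_comm, one_mul]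
      exact hK.trans (nm_pw hs (by linarith [(abs_le.1 s1).1]))
    have h4 := nm_cell_close hs.1 hs.2 (π.b2 De - De - t - e) (π.b2 De - De) h3
    have e3 : -(π.b2 De - De - (π.b2 De - De - t - e)) = -(t + e) := by ring
    rw [e3, mul_one, abs_le] at h4
    have h5 : nmCell D.s (π.b2 De - De) (D.labAt De ω).K - nmCell D.s (π.b2 De - De) (D.lab i ρ).K ≤ ⌊2 * D.s ^ (-(t + e)) + 1⌋ := Int.le_floor.2 h4.2
    have h6 : -(nmCell D.s (π.b2 De - De) (D.labAt De ω).K - nmCell D.s (π.b2 De - De) (D.lab i ρ).K) ≤ ⌊2 * D.s ^ (-(t + e)) + 1⌋ :=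
      Int.le_floor.2 (by rw [Int.cast_neg]; linarith [h4.1])
    rw [Finset.mem_Icc]
    constructor <;> linarith

/-- a variable whose charged values lie in the union of `L.card` lists of size `≤ N` -/
theorem nm_ent_aux {Ω Λ β : Type} [Fintype Ω] (P : FLaw Ω) (B : Ω → β) (L : Finset Λ) (S : Λ → Finset β) {N : ℝ} (hN : 1 ≤ N)
    (hS : ∀ l, ((S l).card : ℝ) ≤ N) (h : ∀ ω, P.p ω ≠ 0 → ∃ l ∈ L, B ω ∈ S l) :
    P.ent B ≤ Real.log N + Real.log (L.card : ℝ) := by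
  have h1 := ent_le_log_card P B (L.biUnion S) (fun ω hω => by
    obtain ⟨l, hl, hB⟩ := h ω hω
    exact Finset.mem_biUnion.2 ⟨l, hl, hB⟩)
  refine h1.trans ?_
  have hlN : 0 ≤ Real.log N := Real.log_nonneg hN
  have hlL : 0 ≤ Real.log (L.card : ℝ) := Real.log_natCast_nonneg _
  by_cases h0 : (L.biUnion S).card = 0
  · rw [h0]
    simp only [Nat.cast_zero, Real.log_zero]
    linarith
  · have hpos : (0 : ℝ) < ((L.biUnion S).card : ℝ) := by exact_mod_cast Nat.pos_of_ne_zero h0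
    have hL0 : L.card ≠ 0 := by
      intro hL
      rw [Finset.card_eq_zero] at hL
      apply h0
      rw [hL]
      simp
    have hLpos : (0 : ℝ) < (L.card : ℝ) := by exact_mod_cast Nat.pos_of_ne_zero hL0
    have hc : ((L.biUnion S).card : ℝ) ≤ N * L.card := by
      have c1 : ((L.biUnion S).card : ℝ) ≤ ∑ l ∈ L, ((S l).card : ℝ) := by exact_mod_cast Finset.card_biUnion_le
      have c2 : ∑ l ∈ L, ((S l).card : ℝ) ≤ ∑ _l ∈ L, N := Finset.sum_le_sum fun l _ => hS l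
      rw [Finset.sum_const, nsmul_eq_mul] at c2
      linarith
    rw [← Real.log_mul (by linarith) hLpos.ne']
    exact Real.log_le_log hpos hc

theorem nm_ent_range {α β : Type} [Fintype α] (f : α → β) : (Set.range f).ncard = (Finset.univ.image f).card := by
  rw [← Set.ncard_coe_finset]
  congr 1
  simp

/-- classical: a variable predicted by the labels of the gate `j < 1` (`clPath` : every charged final row has an ancestor) -/
theorem nm_ent_lab (hD : D.Core π C0 t) (hcl : π.hyb = false) (hj : j ∈ D.G) (hj1 : j < 1) {β : Type} (B : D.Row 1 → β) {N : ℝ} (hN : 1 ≤ N)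
    (h : D.LabPr j (fun _ => True) B (fun _ => ()) N) :
    (D.P 1).ent B ≤ Real.log N + Real.log ((Set.range (D.lab j)).ncard : ℝ) := by
  choose S hS hm using fun lam => h lam ()
  rw [nm_ent_range]
  refine nm_ent_aux (D.P 1) B (Finset.univ.image (D.lab j)) S hN hS fun ω hω => ?_
  obtain ⟨ρ, hρ, -⟩ := hD.clPath hcl j hj 1 hD.gate.1 hj1 ω (lt_of_le_of_ne ((D.P 1).nonneg ω) (Ne.symm hω))
  refine ⟨D.lab j ρ, Finset.mem_image_of_mem _ (Finset.mem_univ _), hm _ ω ?_ trivial rfl⟩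
  unfold SfDoc.Met
  rw [if_neg hj1.ne]
  exact ⟨ρ, rfl, hρ⟩

theorem nm_ent_own {β : Type} (B : D.Row 1 → β) {N : ℝ} (hN : 1 ≤ N) (h : D.OwnPr B (fun _ => ()) N) :
    (D.P 1).ent B ≤ Real.log N + Real.log ((Set.range (D.lab 1)).ncard : ℝ) := by
  choose S hS hm using fun lam => h lam ()
  rw [nm_ent_range]
  exact nm_ent_aux (D.P 1) B (Finset.univ.image (D.lab 1)) S hN hS fun ω _ =>
    ⟨D.lab 1 ω, Finset.mem_image_of_mem _ (Finset.mem_univ _), hm _ ω rfl rfl⟩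

theorem nm_pred_main_eqns_cite : True := by
  have := @SfDoc.OwnPr.eq_1
  trivial

end

end Claimed.Agent.R256
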